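import Crest.Agent.R098.Ev

/-! Basic properties of `Hs` and `Sh`. -/

set_option autoImplicit false

open MeasureTheory Real Crest.AnalysisR

namespace Crest.Agent.R098

theorem step_phi_enth (m : FM) (s : ℝ) : Step (fun u => negMulLog (fI m s u)) :=
  (step_fI m s).comp negMulLog negMulLog_zero

theorem negMulLog_sum_le_enth {α : Type*} (S : Finset α) {a : α → ℝ} (ha : ∀ i ∈ S, 0 ≤ a i) :
    negMulLog (∑ i ∈ S, a i) ≤ ∑ i ∈ S, negMulLog (a i) := by
  have e : negMulLog (∑ i ∈ S, a i) = ∑ i ∈ S, -(a i) * log (∑ j ∈ S, a j) := by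
    rw [negMulLog, ← Finset.sum_mul, Finset.sum_neg_distrib]
  rw [e]
  refine Finset.sum_le_sum fun i hi => ?_
  rw [negMulLog]
  rcases (ha i hi).eq_or_lt with h | h
  · rw [← h]; simp
  · have : log (a i) ≤ log (∑ j ∈ S, a j) := log_le_log h (Finset.single_le_sum ha hi)
    nlinarith

theorem Hs_nonneg {m : FM} (hm : Prob m) {s : ℝ} (hs : 0 < s) : 0 ≤ Hs m s :=
  mul_nonneg (by positivity) (integral_nonneg fun u =>
    negMulLog_nonneg (fI_nonneg hm.nn s u) (hm.fI_le_one s u))

theorem Hs_one (s : ℝ) : Hs 1 s = 0 := by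
  have : ∀ u, negMulLog (fI 1 s u) = 0 := fun u => by
    rw [fI, ev_one, ind_eq]
    split_ifs <;> simp
  simp [Hs, this]

theorem Hs_mul_ge {ν W : FM} (hν : Prob ν) (hW : Prob W) {s : ℝ} (hs : 0 < s) :
    Hs W s ≤ Hs (ν * W) s := by
  unfold Hs
  refine mul_le_mul_of_nonneg_left ?_ (by positivity)
  have hst : ∀ y, Step (fun u => negMulLog (fI W s (u - y))) := fun y =>
    (step_phi_enth W s).shift_sub y
  calc ∫ u, negMulLog (fI W s u)
      = ev ν (fun y => ∫ u, negMulLog (fI W s (u - y))) := by
        have : ∀ y, ∫ u, negMulLog (fI W s (u - y)) = ∫ u, negMulLog (fI W s u) := fun y =>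
          integral_sub_right_eq_self (fun u => negMulLog (fI W s u)) y
        simp only [this]
        rw [hν.ev_const]
    _ = ∫ u, ev ν (fun y => negMulLog (fI W s (u - y))) :=
        (integral_ev ν (g := fun u y => negMulLog (fI W s (u - y)))
          fun y _ => (hst y).integrable).symm
    _ ≤ ∫ u, negMulLog (fI (ν * W) s u) := by
        refine integral_mono (Step.ev ν (g := fun u y => negMulLog (fI W s (u - y))) hst).integrable
          (step_phi_enth _ s).integrable fun u => ?_
        beta_reduce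
        rw [fI_mul]
        exact hν.ev_le_concave concaveOn_negMulLog (g := fun y => fI W s (u - y))
          fun y _ => fI_nonneg hW.nn s _

theorem Hs_mul_le {η W : FM} (hη : Prob η) (hW : Prob W) {s : ℝ} (hs : 0 < s) :
    Hs (η * W) s ≤ Hs W s + Sh η := by
  have hst : ∀ y, Step (fun u => negMulLog (fI W s (u - y))) := fun y =>
    (step_phi_enth W s).shift_sub y
  have hst' : ∀ y, Step (fun u => fI W s (u - y)) := fun y => (step_fI W s).shift_sub y
  have hA : ∀ y, Step (fun u => fI W s (u - y) * negMulLog (η.coeff y) +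
      η.coeff y * negMulLog (fI W s (u - y))) := fun y =>
    ((hst' y).mul_const _).add ((hst y).const_mul _)
  have key : ∫ u, negMulLog (fI (η * W) s u) ≤ (∫ u, negMulLog (fI W s u)) + s * Sh η := by
    calc ∫ u, negMulLog (fI (η * W) s u)
        ≤ ∫ u, ∑ y ∈ η.coeff.support, (fI W s (u - y) * negMulLog (η.coeff y) +
            η.coeff y * negMulLog (fI W s (u - y))) := by
          refine integral_mono (step_phi_enth _ s).integrable
            (Step.sum _ fun y _ => hA y).integrable fun u => ?_
          beta_reduce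
          rw [fI_mul, ev]
          refine (negMulLog_sum_le_enth _ fun y _ =>
            mul_nonneg (hη.nn y) (fI_nonneg hW.nn s _)).trans (le_of_eq ?_)
          exact Finset.sum_congr rfl fun y _ => negMulLog_mul _ _
      _ = ∑ y ∈ η.coeff.support, (s * negMulLog (η.coeff y) +
            η.coeff y * ∫ u, negMulLog (fI W s u)) := by
          rw [integral_finsetSum _ fun y _ => (hA y).integrable]
          refine Finset.sum_congr rfl fun y _ => ?_
          rw [integral_add ((hst' y).mul_const _).integrable ((hst y).const_mul _).integrable,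
            integral_mul_const, integral_const_mul,
            integral_sub_right_eq_self (fun u => negMulLog (fI W s u)) y,
            integral_sub_right_eq_self (fun u => fI W s u) y, integral_fI W hs.le, hW.tot_eq,
            mul_one]
      _ = (∫ u, negMulLog (fI W s u)) + s * Sh η := by
          rw [Finset.sum_add_distrib, ← Finset.sum_mul, hη.sum_coeff, ← Finset.mul_sum, Sh]
          ring
  unfold Hs
  calc 1 / s * ∫ u, negMulLog (fI (η * W) s u)
      ≤ 1 / s * ((∫ u, negMulLog (fI W s u)) + s * Sh η) :=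
        mul_le_mul_of_nonneg_left key (by positivity)
    _ = _ := by field_simp

theorem Hs_le_Sh {m : FM} (hm : Prob m) {s : ℝ} (hs : 0 < s) : Hs m s ≤ Sh m := by
  have := Hs_mul_le hm Prob.one hs
  rwa [mul_one, Hs_one, zero_add] at this

theorem Prob.coeff_le_one_enth {m : FM} (hm : Prob m) (y : ℝ) : m.coeff y ≤ 1 := by
  by_cases hy : y ∈ m.coeff.support
  · rw [← hm.sum_coeff]
    exact Finset.single_le_sum (f := fun y => m.coeff y) (fun z _ => hm.nn z) hy
  · rw [Finsupp.notMem_support_iff.1 hy]; exact zero_le_one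

theorem Sh_nonneg {m : FM} (hm : Prob m) : 0 ≤ Sh m :=
  Finset.sum_nonneg fun y _ => negMulLog_nonneg (hm.nn y) (hm.coeff_le_one_enth y)

theorem Sh_eq_ev (m : FM) : Sh m = ev m (fun y => -log (m.coeff y)) := by
  unfold Sh ev
  refine Finset.sum_congr rfl fun y _ => ?_
  rw [negMulLog]; ring

theorem Sh_le_log_card {m : FM} (hm : Prob m) : Sh m ≤ log (m.coeff.support.card : ℝ) := by
  have hpos : ∀ y ∈ m.coeff.support, 0 < m.coeff y := fun y hy =>
    lt_of_le_of_ne (hm.nn y) (Finsupp.mem_support_iff.1 hy).symm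
  have h1 := hm.ev_le_concave strictConcaveOn_log_Ioi.concaveOn (g := fun y => (m.coeff y)⁻¹)
    fun y hy => inv_pos.2 (hpos y hy)
  have h2 : ev m (fun y => (m.coeff y)⁻¹) = (m.coeff.support.card : ℝ) := by
    unfold ev
    rw [Finset.card_eq_sum_ones, Nat.cast_sum]
    exact Finset.sum_congr rfl fun y hy => by
      rw [mul_inv_cancel₀ (hpos y hy).ne']; simp
  rw [h2] at h1
  rw [Sh_eq_ev]
  simpa only [log_inv] using h1

theorem exists_gap_enth (S : Finset ℝ) :
    ∃ s₀ : ℝ, 0 < s₀ ∧ ∀ y ∈ S, ∀ z ∈ S, y < z → s₀ ≤ z - y := by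
  classical
  let T : Finset ℝ := insert 1 (((S ×ˢ S).filter fun q => q.1 < q.2).image fun q => q.2 - q.1)
  have hT : T.Nonempty := Finset.insert_nonempty _ _
  refine ⟨T.min' hT, ?_, fun y hy z hz h => Finset.min'_le _ _ ?_⟩
  · have := Finset.min'_mem T hT
    rcases Finset.mem_insert.1 this with h | h
    · rw [h]; exact one_pos
    · obtain ⟨q, hq, e⟩ := Finset.mem_image.1 h
      rw [← e]
      exact sub_pos.2 (Finset.mem_filter.1 hq).2
  · exact Finset.mem_insert_of_mem (Finset.mem_image.2
      ⟨(y, z), Finset.mem_filter.2 ⟨Finset.mem_product.2 ⟨hy, hz⟩, h⟩, rfl⟩)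

theorem Hs_eq_Sh (m : FM) : ∃ s₀ : ℝ, 0 < s₀ ∧ ∀ s, 0 < s → s ≤ s₀ → Hs m s = Sh m := by
  obtain ⟨s₀, h0, hgap⟩ := exists_gap_enth m.coeff.support
  refine ⟨s₀, h0, fun s hs hs' => ?_⟩
  have key : ∀ u, negMulLog (fI m s u) =
      ∑ y ∈ m.coeff.support, negMulLog (m.coeff y) * ind s u y := by
    intro u
    by_cases h : ∃ y ∈ m.coeff.support, u < y ∧ y ≤ u + s
    · obtain ⟨y, hy, h1, h2⟩ := h
      have hz : ∀ z ∈ m.coeff.support, z ≠ y → ind s u z = 0 := by
        intro z hz hne
        rw [ind_eq, if_neg]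
        rintro ⟨k1, k2⟩
        rcases lt_or_gt_of_ne hne with h | h
        · have := hgap z hz y hy h; linarith
        · have := hgap y hy z hz h; linarith
      have hy1 : ind s u y = 1 := by rw [ind_eq, if_pos ⟨h1, h2⟩]
      rw [fI, ev, Finset.sum_eq_single_of_mem y hy fun z h h' => by rw [hz z h h', mul_zero],
        Finset.sum_eq_single_of_mem y hy fun z h h' => by rw [hz z h h', mul_zero], hy1, mul_one,
        mul_one]
    · have hz : ∀ z ∈ m.coeff.support, ind s u z = 0 := by
        intro z hz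
        rw [ind_eq, if_neg]
        exact fun k => h ⟨z, hz, k⟩
      rw [fI, ev, Finset.sum_eq_zero fun z h => by rw [hz z h, mul_zero],
        Finset.sum_eq_zero fun z h => by rw [hz z h, mul_zero], negMulLog_zero]
  unfold Hs
  simp only [key]
  rw [integral_finsetSum _ fun y _ => ((step_ind s y).const_mul _).integrable]
  simp only [integral_const_mul, integral_ind hs.le]
  rw [← Finset.sum_mul, Sh]
  field_simp

/-- comparison with the ball entropy -/
theorem Hs_le_Qb {ν : FM} (hν : Prob ν) {s σ c : ℝ} (hs : 0 < s) (hσ : s ≤ σ) (hc : 0 ≤ c) :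
    Hs ν σ ≤ Qb ν (c * s) + log (1 + 2 * c) := by
  have hσ0 : 0 < σ := hs.trans_le hσ
  have hcs : 0 ≤ c * s := mul_nonneg hc hs.le
  set M : ℝ := 1 + 2 * c with hM
  have hM0 : 0 < M := by positivity
  have hpos : ∀ y ∈ ν.coeff.support, 0 < ν.coeff y := fun y hy =>
    lt_of_le_of_ne (hν.nn y) (Finsupp.mem_support_iff.1 hy).symm
  have hsingle : ∀ y ∈ ν.coeff.support, ∀ g : ℝ → ℝ, (∀ z, 0 ≤ g z) → g y = 1 → 0 < ev ν g := by
    intro y hy g hg h1
    refine lt_of_lt_of_le ?_ (Finset.single_le_sum (f := fun z => ν.coeff z * g z)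
      (fun z _ => mul_nonneg (hν.nn z) (hg z)) hy)
    rw [h1, mul_one]; exact hpos y hy
  have hbm : ∀ y ∈ ν.coeff.support, 0 < bm ν y (c * s) := fun y hy =>
    hsingle y hy _ (fun z => Set.indicator_nonneg (fun _ _ => zero_le_one) z)
      (by rw [Set.indicator_of_mem (Metric.mem_closedBall_self hcs)]; rfl)
  -- pointwise bound
  have key : ∀ u, negMulLog (fI ν σ u) ≤
      ev ν (fun y => ind σ u y * -log (bm ν y (c * s))) +
        (fI ν (σ + 2 * (c * s)) (u - c * s) * M⁻¹ + fI ν σ u * (log M - 1)) := by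
    intro u
    set F := fI ν σ u with hF
    set G := fI ν (σ + 2 * (c * s)) (u - c * s) with hG
    have hG0 : 0 ≤ G := fI_nonneg hν.nn _ _
    have hF0 : 0 ≤ F := fI_nonneg hν.nn _ _
    have e1 : negMulLog F = ev ν (fun y => ind σ u y * -log F) := by
      rw [ev_mul_const, negMulLog]
      change _ = F * _
      ring
    have e2 : ev ν (fun y => ind σ u y * -log F) ≤ ev ν (fun y =>
        ind σ u y * -log (bm ν y (c * s)) + ind σ u y * (G / F * M⁻¹ + (log M - 1))) := by
      refine ev_mono hν.nn fun y hy => ?_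
      rw [← mul_add]
      by_cases h : u < y ∧ y ≤ u + σ
      · have h1 : ind σ u y = 1 := by rw [ind_eq, if_pos h]
        have hFp : 0 < F := hsingle y hy _ (ind_nonneg σ u) h1
        have hb := hbm y hy
        have hbG : bm ν y (c * s) ≤ G := by
          refine ev_mono hν.nn fun z _ => ?_
          by_cases hz : z ∈ Metric.closedBall y (c * s)
          · rw [Set.indicator_of_mem hz, ind_eq, if_pos]
            · exact le_rfl
            · rw [Metric.mem_closedBall, Real.dist_eq, abs_le] at hz
              constructor <;> linarith [h.1, h.2, hz.1, hz.2]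
          · rw [Set.indicator_of_notMem hz]; exact ind_nonneg _ _ _
        rw [h1, one_mul, one_mul]
        have l1 : log (bm ν y (c * s) / F * M⁻¹) ≤ bm ν y (c * s) / F * M⁻¹ - 1 :=
          log_le_sub_one_of_pos (by positivity)
        rw [log_mul (by positivity) (by positivity), log_div hb.ne' hFp.ne', log_inv] at l1
        have l2 : bm ν y (c * s) / F * M⁻¹ ≤ G / F * M⁻¹ := by gcongr
        linarith
      · have h1 : ind σ u y = 0 := by rw [ind_eq, if_neg h]
        rw [h1, zero_mul, zero_mul]
    rw [ev_fun_add, ev_mul_const ν (G / F * M⁻¹ + (log M - 1))] at e2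
    change _ ≤ _ + F * _ at e2
    have e3 : F * (G / F * M⁻¹) ≤ G * M⁻¹ := by
      rcases hF0.eq_or_lt with h | h
      · rw [← h, zero_mul]; positivity
      · exact le_of_eq (by field_simp)
    rw [e1]
    nlinarith
  have i1 : Step (fun u => ev ν (fun y => ind σ u y * -log (bm ν y (c * s)))) :=
    Step.ev ν (g := fun u y => ind σ u y * -log (bm ν y (c * s)))
      fun y => (step_ind σ y).mul_const _
  have i2 : Step (fun u => fI ν (σ + 2 * (c * s)) (u - c * s) * M⁻¹) :=
    ((step_fI ν _).shift_sub _).mul_const _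
  have i3 : Step (fun u => fI ν σ u * (log M - 1)) := (step_fI ν _).mul_const _
  have int : ∫ u, negMulLog (fI ν σ u) ≤ σ * Qb ν (c * s) +
      ((σ + 2 * (c * s)) * M⁻¹ + σ * (log M - 1)) := by
    refine (integral_mono (step_phi_enth ν σ).integrable (i1.add (i2.add i3)).integrable key).trans
      (le_of_eq ?_)
    rw [integral_add i1.integrable (i2.add i3).integrable, integral_add i2.integrable i3.integrable,
      integral_mul_const, integral_mul_const,
      integral_sub_right_eq_self (fun u => fI ν (σ + 2 * (c * s)) u) (c * s),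
      integral_fI ν hσ0.le, integral_fI ν (by positivity), hν.tot_eq, mul_one, mul_one,
      integral_ev ν (g := fun u y => ind σ u y * -log (bm ν y (c * s)))
        fun y _ => ((step_ind σ y).mul_const _).integrable]
    simp only [integral_mul_const, integral_ind hσ0.le]
    rw [ev_const_mul, Qb]
  have hb : (σ + 2 * (c * s)) * M⁻¹ ≤ σ := by
    rw [← div_eq_mul_inv, div_le_iff₀ hM0, hM]
    nlinarith
  unfold Hs
  rw [one_div, inv_mul_le_iff₀ hσ0]
  nlinarith

end Crest.Agent.R098
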