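import Crest.Agent.R098.Ev

/-! Submodularity and scale invariance of `Hs`. -/

set_option autoImplicit false

open MeasureTheory Real Crest.AnalysisR

namespace Crest.Agent.R098

theorem ev_pos_submod {m : FM} (hm : NN m) {g : ℝ → ℝ} (hg : ∀ y, 0 ≤ g y) {y : ℝ}
    (hy : y ∈ m.coeff.support) (h : 0 < g y) : 0 < ev m g :=
  Finset.sum_pos' (fun z _ => mul_nonneg (hm z) (hg z))
    ⟨y, hy, mul_pos (lt_of_le_of_ne (hm y) (Finsupp.mem_support_iff.1 hy).symm) h⟩

/-- the log-sum inequality -/
theorem logsum_submod {η Z : FM} (hη : NN η) (hZ : NN Z) (v : ℝ → ℝ → ℝ)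
    (hv : ∀ y z, 0 ≤ v y z) :
    negMulLog (ev η fun y => ev Z fun z => v y z) +
        ev η (fun y => ev Z fun z => negMulLog (v y z)) ≤
      ev Z (fun z => negMulLog (ev η fun y => v y z)) +
        ev η (fun y => negMulLog (ev Z fun z => v y z)) := by
  set V : ℝ → ℝ := fun y => ev Z fun z => v y z with hV
  set b : ℝ → ℝ := fun z => ev η fun y => v y z with hb
  set T : ℝ := ev η V with hT
  have hV0 : ∀ y, 0 ≤ V y := fun y => ev_nonneg hZ fun z _ => hv y z
  have hb0 : ∀ z, 0 ≤ b z := fun z => ev_nonneg hη fun y _ => hv y z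
  have hT0 : 0 ≤ T := ev_nonneg hη fun y _ => hV0 y
  have hTb : ev Z b = T := (ev_comm η Z v).symm
  have e1 : negMulLog T = ev η fun y => ev Z fun z => v y z * -log T := by
    simp only [ev_mul_const]
    rw [negMulLog]
    change _ = T * _
    ring
  have e2 : ev Z (fun z => negMulLog (b z)) = ev η fun y => ev Z fun z => v y z * -log (b z) := by
    rw [ev_comm]
    refine ev_congr fun z _ => ?_
    rw [ev_mul_const, negMulLog]
    change _ = b z * _
    ring
  have e3 : ev η (fun y => negMulLog (V y)) = ev η fun y => ev Z fun z => v y z * -log (V y) := by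
    refine ev_congr fun y _ => ?_
    rw [ev_mul_const, negMulLog]
    change _ = V y * _
    ring
  have e4 : (ev η fun y => ev Z fun z => V y * b z / T - v y z) = 0 := by
    simp only [ev_fun_sub, ev_div_const, ev_const_mul, ev_mul_const, hTb]
    change T * T / T - T = 0
    by_cases h : T = 0
    · simp [h]
    · field_simp
      ring
  have key : (ev η fun y => ev Z fun z => v y z * -log T + negMulLog (v y z)) ≤
      ev η fun y => ev Z fun z => (v y z * -log (b z) + v y z * -log (V y)) +
        (V y * b z / T - v y z) := by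
    refine ev_mono hη fun y hy => ev_mono hZ fun z hz => ?_
    rcases (hv y z).eq_or_lt with h | h
    · rw [← h]
      have := div_nonneg (mul_nonneg (hV0 y) (hb0 z)) hT0
      simpa using this
    · have p1 : 0 < V y := ev_pos_submod hZ (fun z => hv y z) hz h
      have p2 : 0 < b z := ev_pos_submod hη (fun y => hv y z) hy h
      have p3 : 0 < T := ev_pos_submod hη hV0 hy p1
      have h1 := Real.log_le_sub_one_of_pos (x := V y * b z / (T * v y z)) (by positivity)
      rw [Real.log_div (by positivity) (by positivity), Real.log_mul p1.ne' p2.ne',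
        Real.log_mul p3.ne' h.ne'] at h1
      have h2 := mul_le_mul_of_nonneg_left h1 h.le
      have h3 : v y z * (V y * b z / (T * v y z) - 1) = V y * b z / T - v y z := by
        field_simp
      rw [h3] at h2
      rw [negMulLog]
      linarith
  simp only [ev_fun_add] at key
  rw [e4] at key
  rw [e1, e2, e3]
  linarith

theorem Hs_submod {η W Z : FM} (hη : Prob η) (hW : Prob W) (hZ : Prob Z) {s : ℝ} (hs : 0 < s) :
    Hs (η * W * Z) s + Hs W s ≤ Hs (η * W) s + Hs (W * Z) s := by
  have st : ∀ (m : FM) (a : ℝ), Step fun u => negMulLog (fI m s (u - a)) := fun m a =>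
    ((step_fI m s).shift_sub a).comp negMulLog negMulLog_zero
  have st0 : ∀ (m : FM), Step fun u => negMulLog (fI m s u) := fun m =>
    (step_fI m s).comp negMulLog negMulLog_zero
  have sh : ∀ (m : FM) (a : ℝ), ∫ u, negMulLog (fI m s (u - a)) = ∫ u, negMulLog (fI m s u) :=
    fun m a => integral_sub_right_eq_self (fun u => negMulLog (fI m s u)) a
  have av : ∀ {P : FM} (_ : Prob P) (m : FM),
      ∫ u, ev P (fun a => negMulLog (fI m s (u - a))) = ∫ u, negMulLog (fI m s u) := by
    intro P hP m
    rw [integral_ev P fun a _ => (st m a).integrable]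
    simp only [sh, hP.ev_const]
  have sa : ∀ (P m : FM), Step fun u => ev P (fun a => negMulLog (fI m s (u - a))) :=
    fun P m => Step.ev P fun a => st m a
  have pt : ∀ u, negMulLog (fI (η * W * Z) s u) +
      ev (η * Z) (fun a => negMulLog (fI W s (u - a))) ≤
      ev Z (fun a => negMulLog (fI (η * W) s (u - a))) +
        ev η (fun a => negMulLog (fI (W * Z) s (u - a))) := by
    intro u
    have := logsum_submod hη.nn hZ.nn (fun y z => fI W s (u - y - z))
      fun y z => fI_nonneg hW.nn _ _
    rw [mul_assoc, mul_comm W Z, ev_mul]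
    simp only [fI_mul, ← sub_sub]
    simp only [sub_right_comm u] at this ⊢
    convert this using 1
  have hint := integral_mono ((st0 _).add (sa _ _)).integrable ((sa _ _).add (sa _ _)).integrable pt
  rw [integral_add (st0 _).integrable (sa _ _).integrable,
    integral_add (sa _ _).integrable (sa _ _).integrable, av (hη.mul hZ), av hZ, av hη] at hint
  unfold Hs
  rw [← mul_add, ← mul_add]
  exact mul_le_mul_of_nonneg_left hint (by positivity)

theorem Hs_scale (m : FM) {ρ s : ℝ} (hρ : ρ ≠ 0) (hs : 0 < s) :
    Hs (scale ρ m) (|ρ| * s) = Hs m s := by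
  have hρ' : 0 < |ρ| := abs_pos.2 hρ
  have key : ∫ u, negMulLog (fI (scale ρ m) (|ρ| * s) (ρ * u)) = ∫ u, negMulLog (fI m s u) := by
    rcases lt_or_gt_of_ne hρ with h | h
    · rw [← integral_add_right_eq_self
        (fun u => negMulLog (fI (scale ρ m) (|ρ| * s) (ρ * u))) s]
      refine integral_congr_ae ?_
      have hfin : ((m.coeff.support : Set ℝ) ∪ (fun y => y - s) '' m.coeff.support).Finite :=
        (Finset.finite_toSet _).union ((Finset.finite_toSet _).image _)
      filter_upwards [measure_eq_zero_iff_ae_notMem.1 (hfin.measure_zero volume)] with u hu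
      congr 1
      unfold fI
      rw [ev_scale]
      refine ev_congr fun y hy => ?_
      have h1 : u ≠ y := fun e => hu (Or.inl (e ▸ hy))
      have h2 : u ≠ y - s := fun e => hu (Or.inr ⟨y, hy, e.symm⟩)
      simp only [ind_eq, abs_of_neg h]
      congr 1
      apply propext
      constructor
      · rintro ⟨a, b⟩
        have a' : y < u + s := lt_of_mul_lt_mul_of_nonpos_left a h.le
        have b' : u ≤ y := by
          by_contra hc
          push Not at hc
          nlinarith
        exact ⟨lt_of_le_of_ne b' h1, a'.le⟩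
      · rintro ⟨a, b⟩
        have b' : y < u + s := lt_of_le_of_ne b fun e => h2 (by linarith)
        constructor <;> nlinarith
    · refine integral_congr_ae (Filter.Eventually.of_forall fun u => ?_)
      beta_reduce
      congr 1
      unfold fI
      rw [ev_scale]
      refine ev_congr fun y _ => ?_
      simp only [ind_eq, abs_of_pos h, ← mul_add, mul_lt_mul_iff_right₀ h, mul_le_mul_iff_right₀ h]
  rw [Measure.integral_comp_mul_left (fun u => negMulLog (fI (scale ρ m) (|ρ| * s) u)) ρ,
    abs_inv, smul_eq_mul] at key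
  unfold Hs
  rw [← key]
  field_simp

theorem Ks_scale (m : FM) {ρ : ℝ} (hρ : ρ ≠ 0) (x : ℝ) :
    Ks (scale ρ m) (x - log |ρ|) = Ks m x := by
  unfold Ks
  have := intervalIntegral.integral_comp_sub_right (a := x - log 2) (b := x)
    (fun y => Hs (scale ρ m) (exp (-y))) (log |ρ|)
  rw [sub_right_comm x (log |ρ|), ← this]
  refine intervalIntegral.integral_congr fun y _ => ?_
  rw [← Hs_scale m hρ (exp_pos (-y)), neg_sub, sub_eq_add_neg, exp_add,
    exp_log (abs_pos.2 hρ)]

end Crest.Agent.R098
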