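import Crest.Agent.R098.EntE
import Crest.Agent.R098.EntH
import Crest.Agent.R098.Submod

/-! API for `Ks`. -/

set_option autoImplicit false

open MeasureTheory Real Crest.AnalysisR

namespace Crest.Agent.R098

theorem intervalIntegrable_of_bdd_kk {f : ℝ → ℝ} (hf : Measurable f) {C : ℝ}
    (hC : ∀ y, |f y| ≤ C) (a b : ℝ) : IntervalIntegrable f volume a b := by
  have h : ∀ a b : ℝ, IntegrableOn f (Set.Ioc a b) volume := fun a b =>
    Measure.integrableOn_of_bounded (M := C) (by simp) hf.aestronglyMeasurable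
      (Filter.Eventually.of_forall hC)
  exact ⟨h a b, h b a⟩

theorem measurable_Hs_kk (m : FM) : Measurable (Hs m) := by
  have h : Measurable fun q : ℝ × ℝ => negMulLog (fI m q.1 q.2) :=
    continuous_negMulLog.measurable.comp (measurable_fI₂ m)
  exact (measurable_const.div measurable_id).mul
    (h.stronglyMeasurable.integral_prod_right' (ν := volume)).measurable

theorem measurable_Es_kk (m : FM) : Measurable fun y => Es m (exp (-y)) := by
  have e : (fun y => Es m (exp (-y))) = fun y => Hs m (exp (-y)) - Hs m (2 * exp (-y)) :=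
    funext fun y => Es_eq m (exp_pos _)
  have h : Measurable fun y : ℝ => exp (-y) := by fun_prop
  rw [e]
  exact ((measurable_Hs_kk m).comp h).sub ((measurable_Hs_kk m).comp (h.const_mul 2))

theorem log_two_pos_kk : 0 < log 2 := log_pos one_lt_two

theorem win_le_kk (x : ℝ) : x - log 2 ≤ x := sub_le_self _ log_two_pos_kk.le

theorem exp_shift_kk (y : ℝ) : exp (-(y - log 2)) = 2 * exp (-y) := by
  rw [neg_sub, sub_eq_add_neg, exp_add, exp_log two_pos]

theorem integral_win_kk (x B : ℝ) : ∫ _ in (x - log 2)..x, B = log 2 * B := by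
  rw [intervalIntegral.integral_const, smul_eq_mul, sub_sub_cancel]

theorem intervalIntegrable_Hs {m : FM} (hm : Prob m) (a b : ℝ) :
    IntervalIntegrable (fun y => Hs m (exp (-y))) volume a b := by
  refine intervalIntegrable_of_bdd_kk (C := Sh m)
    ((measurable_Hs_kk m).comp (by fun_prop : Measurable fun y : ℝ => exp (-y))) (fun y => ?_) a b
  exact (abs_of_nonneg (Hs_nonneg hm (exp_pos _))).trans_le (Hs_le_Sh hm (exp_pos _))

theorem intervalIntegrable_Es {m : FM} (hm : NN m) (a b : ℝ) :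
    IntervalIntegrable (fun y => Es m (exp (-y))) volume a b := by
  refine intervalIntegrable_of_bdd_kk (C := log 2 * tot m) (measurable_Es_kk m) (fun y => ?_) a b
  rw [abs_of_nonneg (Es_nonneg hm (exp_pos _))]
  exact Es_le hm (exp_pos _)

theorem Ks_sub {m : FM} (hm : Prob m) (x x' : ℝ) :
    Ks m x' - Ks m x = ∫ y in x..x', Es m (exp (-y)) := by
  have hI := intervalIntegrable_Hs hm
  have e : (fun y => Es m (exp (-y))) =
      fun y => Hs m (exp (-y)) - Hs m (exp (-(y - log 2))) :=
    funext fun y => by rw [exp_shift_kk, Es_eq m (exp_pos _)]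
  have h2 : IntervalIntegrable (fun y => Hs m (exp (-(y - log 2)))) volume x x' := by
    simpa using (hI (x - log 2) (x' - log 2)).comp_sub_right (log 2)
  rw [e, intervalIntegral.integral_sub (hI x x') h2,
    intervalIntegral.integral_comp_sub_right (fun y => Hs m (exp (-y))) (log 2), Ks, Ks]
  have a1 := intervalIntegral.integral_add_adjacent_intervals (hI (x - log 2) x) (hI x x')
  have a2 := intervalIntegral.integral_add_adjacent_intervals (hI (x - log 2) (x' - log 2))
    (hI (x' - log 2) x')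
  linarith

theorem Ks_mono {m : FM} (hm : Prob m) {x x' : ℝ} (h : x ≤ x') : Ks m x ≤ Ks m x' := by
  rw [← sub_nonneg, Ks_sub hm]
  exact intervalIntegral.integral_nonneg h fun y _ => Es_nonneg hm.nn (exp_pos _)

theorem Ks_sub_le {m : FM} (hm : Prob m) {x x' : ℝ} (h : x ≤ x') :
    Ks m x' - Ks m x ≤ log 2 * (x' - x) := by
  rw [Ks_sub hm]
  have := intervalIntegral.integral_mono_on h (intervalIntegrable_Es hm.nn x x')
    (intervalIntegrable_const (c := log 2)) fun y _ => by
      simpa [hm.tot_eq] using Es_le hm.nn (exp_pos (-y))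
  rwa [intervalIntegral.integral_const, smul_eq_mul, mul_comm] at this

theorem Ks_lip {m : FM} (hm : Prob m) (x x' : ℝ) : Ks m x' ≤ Ks m x + log 2 * |x' - x| := by
  rcases le_total x x' with h | h
  · rw [abs_of_nonneg (sub_nonneg.2 h)]
    linarith [Ks_sub_le hm h]
  · linarith [Ks_mono hm h, mul_nonneg log_two_pos_kk.le (abs_nonneg (x' - x))]

theorem Ks_le_of_Hs {m : FM} (hm : Prob m) {x B : ℝ}
    (h : ∀ σ, exp (-x) ≤ σ → σ ≤ 2 * exp (-x) → Hs m σ ≤ B) : Ks m x ≤ log 2 * B := by
  rw [← integral_win_kk x B]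
  refine intervalIntegral.integral_mono_on (win_le_kk x) (intervalIntegrable_Hs hm _ _)
    intervalIntegrable_const fun y hy => h _ (exp_le_exp.2 (neg_le_neg hy.2)) ?_
  rw [← exp_shift_kk]
  exact exp_le_exp.2 (neg_le_neg hy.1)

theorem Ks_nonneg {m : FM} (hm : Prob m) (x : ℝ) : 0 ≤ Ks m x := by
  exact intervalIntegral.integral_nonneg (win_le_kk x) fun y _ => Hs_nonneg hm (exp_pos _)

theorem Ks_le_Sh {m : FM} (hm : Prob m) (x : ℝ) : Ks m x ≤ log 2 * Sh m := by
  exact Ks_le_of_Hs hm fun σ h _ => Hs_le_Sh hm ((exp_pos _).trans_le h)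

theorem Ks_one (x : ℝ) : Ks 1 x = 0 := by
  simp [Ks, Hs_one]

theorem Ks_mul_ge {ν W : FM} (hν : Prob ν) (hW : Prob W) (x : ℝ) : Ks W x ≤ Ks (ν * W) x := by
  exact intervalIntegral.integral_mono_on (win_le_kk x) (intervalIntegrable_Hs hW _ _)
    (intervalIntegrable_Hs (hν.mul hW) _ _) fun y _ => Hs_mul_ge hν hW (exp_pos _)

theorem Ks_mul_le {η W : FM} (hη : Prob η) (hW : Prob W) (x : ℝ) :
    Ks (η * W) x ≤ Ks W x + log 2 * Sh η := by
  rw [← integral_win_kk x, Ks, Ks,
    ← intervalIntegral.integral_add (intervalIntegrable_Hs hW _ _) intervalIntegrable_const]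
  exact intervalIntegral.integral_mono_on (win_le_kk x) (intervalIntegrable_Hs (hη.mul hW) _ _)
    ((intervalIntegrable_Hs hW _ _).add intervalIntegrable_const)
    fun y _ => Hs_mul_le hη hW (exp_pos _)

theorem Ks_submod {η W Z : FM} (hη : Prob η) (hW : Prob W) (hZ : Prob Z) (x : ℝ) :
    Ks (η * W * Z) x + Ks W x ≤ Ks (η * W) x + Ks (W * Z) x := by
  have i1 := intervalIntegrable_Hs ((hη.mul hW).mul hZ) (x - log 2) x
  have i2 := intervalIntegrable_Hs hW (x - log 2) x
  have i3 := intervalIntegrable_Hs (hη.mul hW) (x - log 2) x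
  have i4 := intervalIntegrable_Hs (hW.mul hZ) (x - log 2) x
  rw [Ks, Ks, Ks, Ks, ← intervalIntegral.integral_add i1 i2, ← intervalIntegral.integral_add i3 i4]
  exact intervalIntegral.integral_mono_on (win_le_kk x) (i1.add i2) (i3.add i4)
    fun y _ => Hs_submod hη hW hZ (exp_pos _)

theorem Ks_gain_mono {ν W : FM} (hν : Prob ν) (hW : Prob W) {x x' : ℝ} (h : x ≤ x') :
    Ks (ν * W) x - Ks W x ≤ Ks (ν * W) x' - Ks W x' := by
  have h1 := intervalIntegral.integral_mono_on h (intervalIntegrable_Es hW.nn x x')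
    (intervalIntegrable_Es (hν.mul hW).nn x x') fun y _ => by
      simpa [hν.tot_eq] using Es_mul_ge hν.nn hW.nn (exp_pos (-y))
  rw [← Ks_sub hW, ← Ks_sub (hν.mul hW)] at h1
  linarith

theorem Ks_eq_Sh (m : FM) : ∃ x₀ : ℝ, ∀ x, x₀ ≤ x → Ks m x = log 2 * Sh m := by
  obtain ⟨s₀, hs₀, h⟩ := Hs_eq_Sh m
  refine ⟨log 2 - log s₀, fun x hx => ?_⟩
  rw [← integral_win_kk x, Ks]
  refine intervalIntegral.integral_congr fun y hy => h _ (exp_pos _) ?_
  rw [Set.uIcc_of_le (win_le_kk x)] at hy
  rw [← exp_log hs₀]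
  exact exp_le_exp.2 (by linarith [hy.1])

end Crest.Agent.R098
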