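import Crest.Agent.R098.Words
import Crest.Agent.R098.KK

/-! The measures `nuG`, and the disintegration along ratio sequences. -/

set_option autoImplicit false

open MeasureTheory Real Crest.AnalysisR

namespace Crest.Agent.R098

variable {ι : Type*}

@[simp] theorem nuG_nil (e : ι → FM) (r : ι → ℝ) : nuG e r [] = 1 := rfl

theorem nuG_cons (e : ι → FM) (r : ι → ℝ) (a : ι) (l : List ι) :
    nuG e r (a :: l) = e a * scale (r a) (nuG e r l) := rfl

theorem nuG_prob {e : ι → FM} (he : ∀ a, Prob (e a)) (r : ι → ℝ) (l : List ι) :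
    Prob (nuG e r l) := by
  induction l with
  | nil => exact Prob.one
  | cons a l ih => exact (he a).mul (ih.scale _)

theorem nuG_append (e : ι → FM) (r : ι → ℝ) (l l' : List ι) :
    nuG e r (l ++ l') = nuG e r l * scale (RR r l) (nuG e r l') := by
  induction l with
  | nil => simp
  | cons a l ih =>
    rw [List.cons_append, nuG_cons, nuG_cons, ih, map_mul, scale_scale, RR_cons, mul_assoc]

theorem card_support_pow (m : FM) (k : ℕ) :
    (m ^ k).coeff.support.card ≤ (k + 1) ^ m.coeff.support.card := by
  classical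
  have key : ∀ x ∈ (m ^ k).coeff.support, ∃ n : ℝ → ℕ, (∀ y, n y ≤ k) ∧
      x = ∑ y ∈ m.coeff.support, (n y : ℝ) * y := by
    induction k with
    | zero =>
      intro x hx
      rw [pow_zero, AddMonoidAlgebra.one_def, AddMonoidAlgebra.coeff_single] at hx
      exact ⟨fun _ => 0, fun _ => le_rfl, by
        simpa using Finset.mem_singleton.1 (Finsupp.support_single_subset hx)⟩
    | succ k ih =>
      intro x hx
      rw [pow_succ] at hx
      obtain ⟨u, hu, v, hv, rfl⟩ :=
        Finset.mem_add.1 (AddMonoidAlgebra.support_coeff_mul_subset _ _ hx)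
      obtain ⟨n, hn, rfl⟩ := ih u hu
      refine ⟨fun y => n y + if y = v then 1 else 0, fun y => ?_, ?_⟩
      · have := hn y
        beta_reduce
        split_ifs <;> omega
      · simp only [Nat.cast_add, Nat.cast_ite, Nat.cast_one, Nat.cast_zero, add_mul, ite_mul,
          one_mul, zero_mul, Finset.sum_add_distrib, Finset.sum_ite_eq', if_pos hv]
  have hsub : (m ^ k).coeff.support ⊆
      (Fintype.piFinset fun _ : m.coeff.support => Finset.range (k + 1)).image
        fun c => ∑ y : m.coeff.support, (c y : ℝ) * y := by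
    intro x hx
    obtain ⟨n, hn, rfl⟩ := key x hx
    refine Finset.mem_image.2 ⟨fun y => n y, Fintype.mem_piFinset.2 fun y =>
      Finset.mem_range.2 (Nat.lt_succ_of_le (hn y)), ?_⟩
    exact Finset.sum_coe_sort m.coeff.support fun y => (n y : ℝ) * y
  refine (Finset.card_le_card hsub).trans (Finset.card_image_le.trans ?_)
  simp

theorem Ks_pow_nuG {e : ι → FM} (he : ∀ a, Prob (e a)) {r : ι → ℝ} (hr : ∀ a, r a ≠ 0) {A : ℕ}
    (hA : ∀ a, (e a).coeff.support.card ≤ A) (l : List ι) (k : ℕ) (x : ℝ) :
    Ks (nuG e r l ^ k) x ≤ log 2 * (l.length * A) * log ((k : ℝ) + 1) := by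
  induction l generalizing x with
  | nil => simp [Ks_one]
  | cons a l ih =>
    have hl2 : 0 < log 2 := Real.log_pos (by norm_num)
    have h1 := Ks_mul_le ((he a).pow k) (((nuG_prob he r l).pow k).scale (r a)) x
    have h2 := Ks_scale (nuG e r l ^ k) (hr a) (x + log |r a|)
    rw [add_sub_cancel_right] at h2
    have h3 := ih (x + log |r a|)
    have h4 : Sh (e a ^ k) ≤ A * log ((k : ℝ) + 1) := by
      refine (Sh_le_log_card ((he a).pow k)).trans ?_
      have h5 : (e a ^ k).coeff.support.card ≤ (k + 1) ^ A :=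
        (card_support_pow _ k).trans (Nat.pow_le_pow_right (Nat.succ_pos k) (hA a))
      have h6 : (((e a ^ k).coeff.support.card : ℕ) : ℝ) ≤ ((k : ℝ) + 1) ^ A := by
        exact_mod_cast h5
      rw [← Real.log_pow]
      rcases Nat.eq_zero_or_pos (e a ^ k).coeff.support.card with h0 | h0
      · rw [h0, Nat.cast_zero, Real.log_zero]
        exact Real.log_nonneg (one_le_pow₀ (by linarith [(Nat.cast_nonneg k : (0 : ℝ) ≤ k)]))
      · exact Real.log_le_log (by exact_mod_cast h0) h6
    rw [nuG_cons, mul_pow, ← map_pow, List.length_cons]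
    push_cast
    nlinarith [mul_le_mul_of_nonneg_left h4 hl2.le]

variable [Fintype ι]

theorem ev_eta_nu (r t p : ι → ℝ) (a : ι) (g : ℝ → ℝ) :
    ev (eta r t p a) g = ∑ i, if r i = r a then p i / Pr r p (r a) * g (t i) else 0 := by
  unfold eta
  rw [ev_sum]
  refine Finset.sum_congr rfl fun i _ => ?_
  split_ifs
  · rw [ev_single]
  · rw [ev_zero]

theorem Pr_pos {r p : ι → ℝ} (hg : Good r p) (a : ι) : 0 < Pr r p (r a) := by
  unfold Pr
  refine Finset.sum_pos' (fun i _ => ?_) ⟨a, Finset.mem_univ _, ?_⟩
  · split_ifs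
    exacts [(hg.hp i).le, le_rfl]
  · rw [if_pos rfl]
    exact hg.hp a

theorem eta_prob {r p : ι → ℝ} (hg : Good r p) (t : ι → ℝ) (a : ι) : Prob (eta r t p a) := by
  have h := Pr_pos hg a
  refine ⟨NN.of_ev fun g hg' => ?_, ?_⟩
  · rw [ev_eta_nu]
    refine Finset.sum_nonneg fun i _ => ?_
    split_ifs
    · exact mul_nonneg (div_nonneg (hg.hp i).le h.le) (hg' _)
    · exact le_rfl
  · have h1 : Pr r p (r a) / Pr r p (r a) =
        ∑ i, if r i = r a then p i / Pr r p (r a) * 1 else 0 := by
      nth_rewrite 1 [Pr]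
      rw [Finset.sum_div]
      refine Finset.sum_congr rfl fun i _ => ?_
      split_ifs <;> simp
    rw [tot, ev_eta_nu, ← h1, div_self h.ne']

theorem nuG_eta_congr (r t p : ι → ℝ) {l l' : List ι} (h : l.map r = l'.map r) :
    nuG (eta r t p) r l = nuG (eta r t p) r l' := by
  induction l generalizing l' with
  | nil =>
    obtain rfl : l' = [] := by simpa using h.symm
    rfl
  | cons a l ih =>
    obtain _ | ⟨a', l'⟩ := l'
    · simp at h
    · simp only [List.map_cons, List.cons.injEq] at h
      rw [nuG_cons, nuG_cons, ih h.2, h.1]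
      congr 1
      unfold eta
      rw [h.1]

/-- conditioned on the ratio sequence, the translation part of a random word has law `nuG eta` -/
theorem disint {r p : ι → ℝ} (hg : Good r p) (t : ι → ℝ) (n : ℕ) (F : List ι → ℝ → ℝ)
    (hF : ∀ l l', l.map r = l'.map r → F l = F l') :
    Ex p n (fun l => F l (YY r t l)) = Ex p n (fun l => ev (nuG (eta r t p) r l) (F l)) := by
  induction n generalizing F with
  | zero => simp
  | succ n ih =>
    obtain ⟨G, hG⟩ : ∃ G : ι → ℝ, G = fun i => Ex p n (fun l => ev (nuG (eta r t p) r l)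
      (fun y => F (i :: l) (r i * y + t i))) := ⟨_, rfl⟩
    have h1 : ∀ a, Ex p n (fun l => F (a :: l) (YY r t (a :: l))) = G a := by
      intro a
      rw [hG]
      exact ih (fun l y => F (a :: l) (r a * y + t a)) fun l l' h => by
        rw [hF (a :: l) (a :: l') (by simp [h])]
    have h2 : ∀ a, Ex p n (fun l => ev (nuG (eta r t p) r (a :: l)) (F (a :: l))) =
        ∑ i, if r i = r a then p i / Pr r p (r a) * G i else 0 := by
      intro a
      have h3 : ∀ l, ev (nuG (eta r t p) r (a :: l)) (F (a :: l)) =
          ∑ i, (if r i = r a then p i / Pr r p (r a) else 0) *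
            ev (nuG (eta r t p) r l) (fun y => F (i :: l) (r i * y + t i)) := by
        intro l
        rw [nuG_cons, ev_mul, ev_eta_nu]
        refine Finset.sum_congr rfl fun i _ => ?_
        split_ifs with h
        · rw [ev_scale, hF (i :: l) (a :: l) (by simp [h]), h]
          simp only [add_comm]
        · rw [zero_mul]
      simp only [h3]
      rw [Ex_sum]
      refine Finset.sum_congr rfl fun i _ => ?_
      rw [Ex_const_mul, hG, ite_mul, zero_mul]
    rw [Ex_succ, Ex_succ]
    simp only [h1, h2, Finset.mul_sum]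
    rw [Finset.sum_comm]
    refine Finset.sum_congr rfl fun i _ => ?_
    have h4 : ∀ a, (p a * if r i = r a then p i / Pr r p (r a) * G i else 0) =
        (if r a = r i then p a else 0) * (p i / Pr r p (r i) * G i) := by
      intro a
      by_cases h : r i = r a
      · rw [if_pos h, if_pos h.symm, h]
      · rw [if_neg h, if_neg (Ne.symm h), mul_zero, zero_mul]
    simp only [h4]
    rw [← Finset.sum_mul]
    have h5 := (Pr_pos hg i).ne'
    change _ = Pr r p (r i) * _
    field_simp

/-- the translation part of a word is an atom of its conditional law -/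
theorem coeff_YY_pos {r p : ι → ℝ} (hg : Good r p) (t : ι → ℝ) (l : List ι) :
    0 < (nuG (eta r t p) r l).coeff (YY r t l) := by
  induction l with
  | nil => rw [coeff_eq_ev]; simp
  | cons a l ih =>
    have hν := nuG_prob (eta_prob hg t) r l
    rw [coeff_eq_ev, nuG_cons, ev_mul, ev_eta_nu]
    refine Finset.sum_pos' (fun i _ => ?_) ⟨a, Finset.mem_univ _, ?_⟩
    · split_ifs
      · refine mul_nonneg (div_nonneg (hg.hp i).le (Pr_pos hg a).le) ?_
        exact ev_nonneg (hν.nn.scale _) fun y _ => by split_ifs <;> norm_num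
      · exact le_rfl
    · rw [if_pos rfl, ev_scale]
      refine mul_pos (div_pos (hg.hp a) (Pr_pos hg a)) (ih.trans_le ?_)
      rw [coeff_eq_ev]
      refine ev_mono hν.nn fun y _ => ?_
      by_cases h : y = YY r t l
      · rw [if_pos h, if_pos (by rw [h, YY_cons, add_comm])]
      · rw [if_neg h]
        split_ifs <;> norm_num

end Crest.Agent.R098
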