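import Crest.Agent.R098.FH
import Crest.Agent.R098.Nu

/-! Lower bound from blocks of length `n`; entropy bookkeeping. -/

set_option autoImplicit false

open MeasureTheory Real Crest.AnalysisR

namespace Crest.Agent.R098

variable {ι : Type*} [Fintype ι]

theorem bm_pos_block {m : FM} (hm : NN m) {x y ρ : ℝ} (hy : 0 < m.coeff y) (h : |y - x| ≤ ρ) :
    0 < bm m x ρ := by
  have hy' : y ∈ m.coeff.support := Finsupp.mem_support_iff.2 hy.ne'
  refine lt_of_lt_of_le ?_ (Finset.single_le_sum
    (f := fun z => m.coeff z * (Metric.closedBall x ρ).indicator 1 z)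
    (fun z _ => mul_nonneg (hm z) (Set.indicator_nonneg (fun _ _ => zero_le_one) z)) hy')
  rw [Set.indicator_of_mem (by rw [Metric.mem_closedBall, Real.dist_eq]; exact h)]
  simpa using hy

theorem ev_inv_bm_block {m : FM} (hm : NN m) (x ρ : ℝ) :
    ev m (fun y => if |y - x| ≤ ρ then 1 / bm m y (2 * ρ) else 0) ≤ 1 := by
  have h1 : ev m (fun y => if |y - x| ≤ ρ then 1 / bm m y (2 * ρ) else 0) ≤
      ev m (fun y => (Metric.closedBall x ρ).indicator 1 y * (bm m x ρ)⁻¹) := by
    refine ev_mono hm fun y hy => ?_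
    have hy0 : 0 < m.coeff y := lt_of_le_of_ne (hm y) (Finsupp.mem_support_iff.1 hy).symm
    by_cases h : |y - x| ≤ ρ
    · rw [if_pos h, Set.indicator_of_mem (by rw [Metric.mem_closedBall, Real.dist_eq]; exact h),
        Pi.one_apply, one_mul, one_div]
      refine inv_anti₀ (bm_pos_block hm hy0 h) (ev_mono hm fun z _ => ?_)
      refine Set.indicator_le_indicator_of_subset (fun z hz => ?_) (fun _ => zero_le_one) z
      rw [Metric.mem_closedBall, Real.dist_eq] at hz ⊢
      rw [abs_le] at hz h ⊢
      constructor <;> linarith [hz.1, hz.2, h.1, h.2]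
    · rw [if_neg h, Set.indicator_of_notMem
        (by rw [Metric.mem_closedBall, Real.dist_eq]; exact h), zero_mul]
  rw [ev_mul_const] at h1
  exact h1.trans (mul_inv_le_one (a := bm m x ρ))

omit [Fintype ι] in
theorem RR_congr_block (r : ι → ℝ) {l l' : List ι} (h : l.map r = l'.map r) :
    RR r l = RR r l' := by
  unfold RR; rw [h]

theorem block_lb {r t p : ι → ℝ} (hg : Good r p) {μ : Measure ℝ}
    (hμ : IsSelfSimilarMeasure r t p μ) {D : ℝ} (hD0 : 0 ≤ D) (hD : ∀ i, |r i| * D + |t i| ≤ D)
    (hsupp : μ (Set.Icc (-D) D)ᶜ = 0) {n : ℕ} (hn : 0 < n) :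
    ENNReal.ofReal ((Ex p n (fun l => Ks (nuG (eta r t p) r l) (SS r l)) / log 2 -
      log (1 + 2 * (2 * (D + 1)))) / (n * lyapunovExp r p)) ≤ lowerHausdorffDim μ := by
  have hp0 : ∀ i, 0 ≤ p i := fun i => (hg.hp i).le
  have hr0 : ∀ i, r i ≠ 0 := fun i => (hg.hr i).1
  have hν : ∀ l, Prob (nuG (eta r t p) r l) := nuG_prob (eta_prob hg t) r
  let q : (Fin n → ι) → ℝ := fun w => bm (nuG (eta r t p) r (List.ofFn w)) (YY r t (List.ofFn w))
    (2 * ((D + 1) * |RR r (List.ofFn w)|))
  have hq : ∀ w, 0 < q w := fun w =>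
    bm_pos_block (hν _).nn (coeff_YY_pos hg t _) (by rw [sub_self, abs_zero]; positivity)
  have H : ∀ x, (∑ w, if |itT r t n w - x| ≤ (D + 1) * |itR r n w| then itP p n w / q w else 0)
      ≤ 1 := by
    intro x
    let F : List ι → ℝ → ℝ := fun l y => if |y - x| ≤ (D + 1) * |RR r l| then
      1 / bm (nuG (eta r t p) r l) y (2 * ((D + 1) * |RR r l|)) else 0
    have hF : ∀ l l', l.map r = l'.map r → F l = F l' := fun l l' h => by
      simp only [F, nuG_eta_congr r t p h, RR_congr_block r h]
    calc _ = Ex p n (fun l => F l (YY r t l)) := by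
          rw [Ex_eq_sum_fin]
          refine Finset.sum_congr rfl fun w _ => ?_
          simp only [F, itT, itR, itP, q]
          split_ifs
          · rw [mul_one_div]
          · rw [mul_zero]
      _ = Ex p n (fun l => ev (nuG (eta r t p) r l) (F l)) := disint hg t n F hF
      _ ≤ Ex p n (fun _ => 1) := Ex_mono hp0 fun l _ => ev_inv_bm_block (hν l).nn x _
      _ = 1 := Ex_const hg.hp1 n 1
  have main := fh (good_iter hg hn) (selfSimilar_iter hp0 hμ n)
    (fun w => word_invariant hD (List.ofFn w)) hsupp hq H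
  rw [lyap_iter hg] at main
  refine le_trans (ENNReal.ofReal_le_ofReal ?_) main
  have hl : 0 < (n : ℝ) * lyapunovExp r p := mul_pos (Nat.cast_pos.2 hn) (lyap_pos hg)
  refine div_le_div_of_nonneg_right ?_ hl.le
  let F : List ι → ℝ → ℝ := fun l y =>
    -log (bm (nuG (eta r t p) r l) y (2 * (D + 1) * |RR r l|))
  have hF : ∀ l l', l.map r = l'.map r → F l = F l' := fun l l' h => by
    simp only [F, nuG_eta_congr r t p h, RR_congr_block r h]
  have e1 : ∑ w, itP p n w * -log (q w) =
      Ex p n (fun l => Qb (nuG (eta r t p) r l) (2 * (D + 1) * |RR r l|)) := by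
    calc _ = Ex p n (fun l => F l (YY r t l)) := by
          rw [Ex_eq_sum_fin]
          refine Finset.sum_congr rfl fun w _ => ?_
          simp only [F, itP, q, mul_assoc]
      _ = _ := disint hg t n F hF
  have h2 : 0 < log 2 := log_pos one_lt_two
  have e2 : Ex p n (fun l => Ks (nuG (eta r t p) r l) (SS r l)) ≤ Ex p n (fun l => log 2 *
      (Qb (nuG (eta r t p) r l) (2 * (D + 1) * |RR r l|) + log (1 + 2 * (2 * (D + 1))))) := by
    refine Ex_mono hp0 fun l _ => Ks_le_of_Hs (hν l) fun σ h1 _ => ?_
    rw [exp_neg_SS hr0] at h1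
    exact Hs_le_Qb (hν l) (abs_pos.2 (RR_ne_zero hr0 l)) h1 (by positivity)
  rw [Ex_const_mul, Ex_add, Ex_const hg.hp1] at e2
  rw [e1, sub_le_iff_le_add, div_le_iff₀' h2]
  exact e2

open Classical in
theorem Ex_ratio_block (r p : ι → ℝ) (l : List ι) :
    Ex p l.length (fun l' => if l'.map r = l.map r then 1 else 0) =
      (l.map fun a => Pr r p (r a)).prod := by
  induction l with
  | nil => simp
  | cons a l ih =>
    rw [List.length_cons, Ex_succ, List.map_cons, List.map_cons, List.prod_cons, ← ih, Pr,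
      Finset.sum_mul]
    refine Finset.sum_congr rfl fun b _ => ?_
    by_cases h : r b = r a
    · simp [h]
    · have : Ex p l.length (fun _ => (0 : ℝ)) = 0 := by
        simpa using Ex_const_mul p l.length 0 (fun _ => 0)
      simp [h, this]

theorem ratio_entropy_block {r p : ι → ℝ} (hg : Good r p) :
    ∑ a, p a * -log (Pr r p (r a)) ≤ log ((Finset.univ.image r).card : ℝ) := by
  classical
  set N : ℝ := ((Finset.univ.image r).card : ℝ) with hN
  have hs : ∑ a, p a * (Pr r p (r a))⁻¹ = N := by
    rw [← Finset.sum_fiberwise_of_maps_to (s := Finset.univ) (t := Finset.univ.image r) (g := r)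
      (fun a ha => Finset.mem_image_of_mem r ha), hN, Finset.card_eq_sum_ones, Nat.cast_sum]
    refine Finset.sum_congr rfl fun ρ hρ => ?_
    obtain ⟨a, -, rfl⟩ := Finset.mem_image.1 hρ
    have : ∑ i ∈ Finset.univ.filter (fun i => r i = r a), p i * (Pr r p (r i))⁻¹ =
        Pr r p (r a) * (Pr r p (r a))⁻¹ := by
      conv_rhs => rw [Pr, ← Finset.sum_filter, Finset.sum_mul]
      refine Finset.sum_congr rfl fun i hi => ?_
      rw [(Finset.mem_filter.1 hi).2, Pr, ← Finset.sum_filter]
    rw [this, mul_inv_cancel₀ (Pr_pos hg a).ne', Nat.cast_one]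
  have := strictConcaveOn_log_Ioi.concaveOn.le_map_sum (t := Finset.univ) (w := p)
    (p := fun a => (Pr r p (r a))⁻¹) (fun a _ => (hg.hp a).le) hg.hp1
    (fun a _ => inv_pos.2 (Pr_pos hg a))
  simp only [smul_eq_mul, hs, log_inv] at this
  exact this

theorem log_prod_block {r p : ι → ℝ} (hg : Good r p) (l : List ι) :
    0 < (l.map fun a => Pr r p (r a)).prod ∧
      -log (l.map fun a => Pr r p (r a)).prod = (l.map fun a => -log (Pr r p (r a))).sum := by
  induction l with
  | nil => simp
  | cons a l ih =>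
    rw [List.map_cons, List.map_cons, List.prod_cons, List.sum_cons,
      log_mul (Pr_pos hg a).ne' ih.1.ne', ← ih.2]
    exact ⟨mul_pos (Pr_pos hg a) ih.1, by ring⟩

theorem ent_book {r p : ι → ℝ} (hg : Good r p) (t : ι → ℝ) (n : ℕ) :
    composedMapEntropy r t p n ≤ n * log ((Finset.univ.image r).card : ℝ) +
      Ex p n (fun l => Sh (nuG (eta r t p) r l)) := by
  classical
  have hp0 : ∀ i, 0 ≤ p i := fun i => (hg.hp i).le
  let G : List ι → ℝ := fun l =>
    Ex p n (fun l' => if affineWordMap r t l' = affineWordMap r t l then 1 else 0)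
  have e0 : composedMapEntropy r t p n = Ex p n (fun l => -log (G l)) := by
    rw [Ex_eq_sum_fin, composedMapEntropy, finiteLawEntropy, ← Finset.sum_neg_distrib]
    refine Finset.sum_congr rfl fun w _ => ?_
    rw [mul_neg]
    congr 3
    simp only [G]
    rw [Ex_eq_sum_fin]
    refine Finset.sum_congr rfl fun w' _ => ?_
    simp [Set.indicator_apply]
  have hG : ∀ l : List ι, l.length = n → (l.map fun a => Pr r p (r a)).prod *
      (nuG (eta r t p) r l).coeff (YY r t l) ≤ G l := by
    intro l hl
    let F : List ι → ℝ → ℝ := fun l' y =>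
      (if l'.map r = l.map r then 1 else 0) * (if y = YY r t l then 1 else 0)
    have hF : ∀ l₁ l₂, l₁.map r = l₂.map r → F l₁ = F l₂ := fun l₁ l₂ h => by
      simp only [F, h]
    calc _ = Ex p n (fun l' => (if l'.map r = l.map r then 1 else 0) *
            (nuG (eta r t p) r l).coeff (YY r t l)) := by
          rw [Ex_mul_const, ← hl, Ex_ratio_block]
      _ = Ex p n (fun l' => ev (nuG (eta r t p) r l') (F l')) := by
          refine Ex_congr p fun l' _ => ?_
          simp only [F]
          rw [ev_const_mul, ← coeff_eq_ev]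
          by_cases h : l'.map r = l.map r
          · rw [nuG_eta_congr r t p h]
          · rw [if_neg h, zero_mul, zero_mul]
      _ = Ex p n (fun l' => F l' (YY r t l')) := (disint hg t n F hF).symm
      _ ≤ G l := by
          refine Ex_mono hp0 fun l' _ => ?_
          simp only [F]
          by_cases h : l'.map r = l.map r
          · by_cases h' : YY r t l' = YY r t l
            · rw [if_pos h, if_pos h', if_pos, one_mul]
              funext x
              rw [awm_eq, awm_eq, RR_congr_block r h, h']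
            · rw [if_neg h', mul_zero]; split_ifs <;> norm_num
          · rw [if_neg h, zero_mul]; split_ifs <;> norm_num
  have e1 : Ex p n (fun l => -log (G l)) ≤ Ex p n (fun l =>
      (l.map fun a => -log (Pr r p (r a))).sum +
        -log ((nuG (eta r t p) r l).coeff (YY r t l))) := by
    refine Ex_mono hp0 fun l hl => ?_
    obtain ⟨k1, k2⟩ := log_prod_block hg l
    have k3 := coeff_YY_pos hg t l
    have := log_le_log (mul_pos k1 k3) (hG l hl)
    rw [log_mul k1.ne' k3.ne'] at this
    rw [← k2]
    linarith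
  have e2 : Ex p n (fun l => -log ((nuG (eta r t p) r l).coeff (YY r t l))) =
      Ex p n (fun l => Sh (nuG (eta r t p) r l)) := by
    rw [disint hg t n (fun l y => -log ((nuG (eta r t p) r l).coeff y)) fun l l' h => by
      simp only [nuG_eta_congr r t p h]]
    simp only [Sh_eq_ev]
  rw [Ex_add, Ex_sum_map hg.hp1, e2] at e1
  rw [e0]
  refine e1.trans (add_le_add_left ?_ _)
  exact mul_le_mul_of_nonneg_left (ratio_entropy_block hg) (Nat.cast_nonneg n)

end Crest.Agent.R098
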