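import Crest.Agent.R098.Count

/-! Entropy hidden at small scales is controlled by the total local variance. -/

set_option autoImplicit false

open MeasureTheory Real Crest.AnalysisR

namespace Crest.Agent.R098

lemma small_hidden {ν : FM} (hν : Prob ν) {σ s : ℝ} (hσ : 0 < σ) (h1 : 2 * σ ≤ s) (h2 : s ≤ 4 * σ)
    {i : ℕ} (hw : wv ν s ≤ (1 / 64) ^ i) : Es ν σ ≤ 34 * (1 / 2) ^ i := by
  set t : ℝ := (1 / 2) ^ i with ht
  have t0 : 0 < t := by positivity
  have t1 : t ≤ 1 := pow_le_one₀ (by norm_num) (by norm_num)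
  have e : (1 / 64 : ℝ) ^ i = t ^ 6 := by rw [ht, ← pow_mul, mul_comm, pow_mul]; norm_num
  have h3 : s ^ 3 * wv ν s / (2 * (t ^ 2) ^ 2 * σ ^ 3) ≤ 32 * t ^ 2 := by
    rw [div_le_iff₀ (by positivity)]
    calc s ^ 3 * wv ν s ≤ (4 * σ) ^ 3 * t ^ 6 :=
          mul_le_mul (pow_le_pow_left₀ (by linarith) h2 3) (e ▸ hw)
            (wv_nonneg hν.nn (by linarith)) (by positivity)
      _ = _ := by ring
  have h4 : log (1 / t) ≤ 1 / t := (log_le_sub_one_of_pos (by positivity)).trans (by linarith)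
  refine (Es_le_wv hν hσ h1 (τ := t ^ 2) (by positivity) t0 t1).trans ?_
  calc _ ≤ (t ^ 2 + 32 * t ^ 2) * (1 / t) + t := by
        gcongr
        exact log_nonneg (one_le_one_div t0 t1)
    _ = _ := by field_simp; ring

lemma split_hidden {E w : ℝ} (hw : 0 ≤ w) (hE : E ≤ 1)
    (h : ∀ i : ℕ, w ≤ (1 / 64) ^ i → E ≤ 34 * (1 / 2) ^ i) {i₀ I : ℕ} (hI : i₀ ≤ I) :
    E ≤ 64 ^ i₀ * w + ∑ i ∈ Finset.Ico i₀ I,
      34 * (1 / 2 : ℝ) ^ i * (if (1 / 64 : ℝ) ^ (i + 1) ≤ w then 1 else 0) + 34 * (1 / 2) ^ I := by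
  have nn : ∀ I, 0 ≤ 64 ^ i₀ * w + ∑ i ∈ Finset.Ico i₀ I,
      34 * (1 / 2 : ℝ) ^ i * (if (1 / 64 : ℝ) ^ (i + 1) ≤ w then 1 else 0) := fun I => by
    positivity
  have key : E ≤ 64 ^ i₀ * w + ∑ i ∈ Finset.Ico i₀ I,
      34 * (1 / 2 : ℝ) ^ i * (if (1 / 64 : ℝ) ^ (i + 1) ≤ w then 1 else 0) ∨ w ≤ (1 / 64) ^ I := by
    induction I, hI using Nat.le_induction with
    | base =>
      refine (le_total w ((1 / 64) ^ i₀)).elim Or.inr fun h => Or.inl ?_
      rw [one_div, inv_pow, inv_le_iff_one_le_mul₀' (by positivity)] at h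
      simpa using hE.trans h
    | succ I hI ih =>
      rw [Finset.sum_Ico_succ_top hI, ← add_assoc]
      rcases ih with ih | ih
      · exact Or.inl (ih.trans (le_add_of_nonneg_right (by positivity)))
      · split_ifs with hc
        · exact Or.inl (by linarith [h I ih, nn I])
        · exact Or.inr (not_le.1 hc).le
  rcases key with h1 | h1
  · exact h1.trans (le_add_of_nonneg_right (by positivity))
  · linarith [h I h1, nn I]

lemma count_hidden {ν : FM} (hν : Prob ν) {B : ℝ} (hB : 0 ≤ B)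
    (h : ∀ (k : ℕ) (x : ℝ), Ks (ν ^ k) x ≤ B * log ((k : ℝ) + 1)) (x₀ : ℝ) (J i : ℕ) :
    (∑ j ∈ Finset.range J, if (1 / 64 : ℝ) ^ (i + 1) ≤ wv ν (exp (-(x₀ + j * log 2))) then (1 : ℝ)
      else 0) * log 2 ≤ 8 * (3 * i + 5) * (6 * i + 8) * B := by
  have hL : 0 < log 2 := log_pos one_lt_two
  have := count_scales hν (κ := (1 / 64) ^ (i + 1)) (B := B * ((6 * i + 8) * log 2))
    (k := 2 * 64 ^ (i + 1)) (g := 3 * (i + 1) + 1) (by positivity)
    (by push_cast; rw [mul_assoc, ← mul_pow]; norm_num)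
    (by
      rw [pow_succ, pow_mul]
      have : (0 : ℝ) < (1 / 64) ^ (i + 1) := by positivity
      norm_num
      linarith)
    (fun x => (h _ x).trans (mul_le_mul_of_nonneg_left (by
      have e : (2 : ℝ) ^ (6 * i + 8) = 4 * 64 ^ (i + 1) := by
        rw [show 6 * i + 8 = 2 + 6 * (i + 1) by ring, pow_add, pow_mul]; norm_num
      have h1 : (1 : ℝ) ≤ 64 ^ (i + 1) := one_le_pow₀ (by norm_num)
      have h2 := log_pow (2 : ℝ) (6 * i + 8)
      push_cast at h2 ⊢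
      rw [← h2, e]
      exact log_le_log (by positivity) (by linarith)) hB)) x₀ J
  push_cast at this
  refine le_of_mul_le_mul_right ?_ hL
  nlinarith

theorem hidden {ε : ℝ} (hε : 0 < ε) : ∃ Λ : ℝ, 0 ≤ Λ ∧ ∀ (ν : FM), Prob ν → ∀ B : ℝ, 0 ≤ B →
    (∀ (k : ℕ) (x : ℝ), Ks (ν ^ k) x ≤ B * log ((k : ℝ) + 1)) → ∀ (x₀ : ℝ) (J : ℕ),
    Ks ν (x₀ + (J + 1) * log 2) - Ks ν (x₀ + log 2) ≤
      ε * B + Λ * ∑ j ∈ Finset.range J, wv ν (exp (-(x₀ + j * log 2))) + 1 := by
  have hs : Summable fun i : ℕ => 34 * (1 / 2 : ℝ) ^ i * (8 * (3 * i + 5) * (6 * i + 8)) := by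
    have h := fun k => summable_pow_mul_geometric_of_norm_lt_one (R := ℝ) k (r := 1 / 2)
      (by norm_num)
    refine ((((h 2).mul_left 4896).add ((h 1).mul_left 14688)).add ((h 0).mul_left 10880)).congr
      fun i => by ring
  obtain ⟨S, hS⟩ := hs.vanishing (Iio_mem_nhds hε)
  refine ⟨64 ^ (S.sup id + 1), by positivity, fun ν hν B hB h x₀ J => ?_⟩
  set i₀ := S.sup id + 1 with hi₀
  obtain ⟨I, hI1, hI⟩ : ∃ I, 34 * (1 / 2 : ℝ) ^ I * J ≤ 1 ∧ i₀ ≤ I := by
    have := ((tendsto_pow_atTop_nhds_zero_of_lt_one (r := (1 / 2 : ℝ)) (by norm_num)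
      (by norm_num)).const_mul 34).mul_const (J : ℝ)
    exact ((this.eventually (ge_mem_nhds (by norm_num))).and (Filter.eventually_ge_atTop i₀)).exists
  have hL : 0 < log 2 := log_pos one_lt_two
  have hL1 : log 2 ≤ 1 := by linarith [log_two_lt_d9]
  have hw : ∀ j : ℕ, 0 ≤ wv ν (exp (-(x₀ + j * log 2))) := fun j => wv_nonneg hν.nn (exp_pos _)
  have step : ∀ j : ℕ, Ks ν (x₀ + (((j + 1 : ℕ) : ℝ) + 1) * log 2) - Ks ν (x₀ + (j + 1) * log 2) ≤
      log 2 * (64 ^ i₀ * wv ν (exp (-(x₀ + j * log 2))) + ∑ i ∈ Finset.Ico i₀ I,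
        34 * (1 / 2 : ℝ) ^ i * (if (1 / 64 : ℝ) ^ (i + 1) ≤ wv ν (exp (-(x₀ + j * log 2))) then 1
          else 0) + 34 * (1 / 2) ^ I) := fun j => by
    rw [Ks_sub hν]
    refine (intervalIntegral.integral_mono_on (by push_cast; linarith)
      (intervalIntegrable_Es hν.nn _ _) intervalIntegrable_const fun y hy =>
        split_hidden (hw j) ?_ (fun i => small_hidden hν (exp_pos _) ?_ ?_) hI).trans_eq ?_
    · have := Es_le hν.nn (exp_pos (-y))
      rw [hν.tot_eq] at this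
      linarith
    · rw [← exp_log two_pos, ← exp_add, log_exp, exp_le_exp]
      linarith [hy.1]
    · rw [show (4 : ℝ) = exp (log 2 + log 2) by rw [exp_add, exp_log two_pos]; norm_num, ← exp_add,
        exp_le_exp]
      have := hy.2
      push_cast at this
      linarith
    · rw [intervalIntegral.integral_const, smul_eq_mul]
      congr 1
      push_cast
      ring
  have h1 := Finset.sum_le_sum fun j (_ : j ∈ Finset.range J) => step j
  rw [Finset.sum_range_sub (fun j : ℕ => Ks ν (x₀ + ((j : ℝ) + 1) * log 2)), ← Finset.mul_sum,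
    Finset.sum_add_distrib, Finset.sum_add_distrib, ← Finset.mul_sum, Finset.sum_comm,
    Finset.sum_const, Finset.card_range, nsmul_eq_mul, mul_add, mul_add,
    Finset.mul_sum (Finset.Ico i₀ I)] at h1
  have h2 : ∑ i ∈ Finset.Ico i₀ I, log 2 * ∑ j ∈ Finset.range J, 34 * (1 / 2 : ℝ) ^ i *
      (if (1 / 64 : ℝ) ^ (i + 1) ≤ wv ν (exp (-(x₀ + j * log 2))) then 1 else 0) ≤ ε * B := by
    refine le_trans ?_ (mul_le_mul_of_nonneg_right (hS (Finset.Ico i₀ I) ?_).le hB)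
    · rw [Finset.sum_mul]
      refine Finset.sum_le_sum fun i _ => ?_
      rw [← Finset.mul_sum, mul_left_comm, mul_assoc _ _ B, mul_comm (log 2)]
      exact mul_le_mul_of_nonneg_left (count_hidden hν hB h x₀ J i) (by positivity)
    · refine Finset.disjoint_left.2 fun i hi hi' => ?_
      have := Finset.le_sup (f := id) hi'
      have := (Finset.mem_Ico.1 hi).1
      simp only [id] at *
      omega
  have h3 : 0 ≤ 64 ^ i₀ * ∑ j ∈ Finset.range J, wv ν (exp (-(x₀ + j * log 2))) :=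
    mul_nonneg (by positivity) (Finset.sum_nonneg fun j _ => hw j)
  have h4 : (0 : ℝ) ≤ J * (34 * (1 / 2) ^ I) := by positivity
  simp only [Nat.cast_zero, zero_add, one_mul] at h1
  linarith [mul_le_of_le_one_left h3 hL1, mul_le_of_le_one_left h4 hL1]

end Crest.Agent.R098
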