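import Crest.Agent.R098.CoreV
import Crest.Agent.R098.Hidden

/-! The core estimate. -/

set_option autoImplicit false

open MeasureTheory Real Crest.AnalysisR

namespace Crest.Agent.R098

variable {ι : Type*} [Fintype ι] {e : ι → FM} {r p : ι → ℝ}

theorem exists_level_core (he : ∀ a, Prob (e a)) (hg : Good r p) :
    ∃ α' : ℝ, ∀ δ : ℝ, 0 < δ → (∃ u₀, ∀ m, α' - δ ≤ AA e r p m u₀) ∧
      ∀ x, ∃ m, AA e r p m x ≤ α' + δ := by
  have hb : ∀ x, BddBelow (Set.range fun m => AA e r p m x) := fun x =>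
    ⟨0, by rintro _ ⟨m, rfl⟩; exact AA_nonneg he hg m x⟩
  have ha : BddAbove (Set.range fun x => ⨅ m, AA e r p m x) :=
    ⟨_, by rintro _ ⟨x, rfl⟩; exact (ciInf_le (hb x) 0).trans (AA_le he hg 0 x)⟩
  refine ⟨⨆ x, ⨅ m, AA e r p m x, fun δ hδ => ⟨?_, fun x => ?_⟩⟩
  · obtain ⟨u₀, hu⟩ := exists_lt_of_lt_ciSup
      (show (⨆ x, ⨅ m, AA e r p m x) - δ < ⨆ x, ⨅ m, AA e r p m x by linarith)
    exact ⟨u₀, fun m => hu.le.trans (ciInf_le (hb u₀) m)⟩
  · have h1 := le_ciSup ha x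
    obtain ⟨m, hm⟩ := exists_lt_of_ciInf_lt
      (show (⨅ m, AA e r p m x) < (⨆ x, ⨅ m, AA e r p m x) + δ by linarith)
    exact ⟨m, hm.le⟩

theorem core (he : ∀ a, Prob (e a)) (hg : Good r p) {ε : ℝ} (hε : 0 < ε) :
    ∃ C : ℝ, ∀ n : ℕ,
      min (n * lyapunovExp r p * log 2) (log 2 * Ex p n (fun l => Sh (nuG e r l))) - ε * n - C ≤
        Ex p n (fun l => Ks (nuG e r l) (SS r l)) := by
  obtain ⟨α', hα'⟩ := exists_level_core he hg
  have hL : 0 < log 2 := log_pos one_lt_two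
  have hp : ∀ i, 0 ≤ p i := fun i => (hg.hp i).le
  have hν : ∀ l, Prob (nuG e r l) := nuG_prob he r
  rcases le_or_gt (lyapunovExp r p * log 2) α' with hc | hc
  · obtain ⟨⟨u₀, hu⟩, -⟩ := hα' ε hε
    refine ⟨log 2 * |u₀|, fun n => ?_⟩
    have h1 := TT_lower he hg hu n 0
    have h2 : TT e r p n 0 u₀ ≤
        Ex p n (fun l => Ks (nuG e r l) (SS r l) + log 2 * |u₀|) := by
      refine Ex_mono hp fun l _ => ?_
      have := Ks_lip (hν l) (SS r l) (u₀ + SS r l)
      simpa [Ex, nuG, Ks_one] using this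
    rw [Ex_add, Ex_const hg.hp1] at h2
    have h3 := min_le_left (n * lyapunovExp r p * log 2)
      (log 2 * Ex p n (fun l => Sh (nuG e r l)))
    have h4 : (n : ℝ) * (lyapunovExp r p * log 2) ≤ n * α' :=
      mul_le_mul_of_nonneg_left hc (Nat.cast_nonneg n)
    nlinarith
  · obtain ⟨A, hA⟩ : ∃ A : ℕ, ∀ a, (e a).coeff.support.card ≤ A :=
      ⟨Finset.univ.sup fun a => (e a).coeff.support.card,
        fun a => Finset.le_sup (f := fun a => (e a).coeff.support.card) (Finset.mem_univ a)⟩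
    have hη : 0 < (lyapunovExp r p * log 2 - α') / 2 := by linarith
    have hA0 : 0 < log 2 * A + 1 := by positivity
    obtain ⟨Λ, hΛ, hhid⟩ := hidden (ε := ε / (2 * (log 2 * A + 1))) (by positivity)
    obtain ⟨d, c, hc0, hvar⟩ := var_bound he hg hη
    have hΛc : 0 < Λ * c + 1 := by positivity
    obtain ⟨δ, hδ, hδ1, hδ2⟩ : ∃ δ : ℝ, 0 < δ ∧ δ ≤ (lyapunovExp r p * log 2 - α') / 2 ∧
        δ ≤ ε / (4 * (Λ * c + 1)) :=
      ⟨min _ _, lt_min hη (by positivity), min_le_left _ _, min_le_right _ _⟩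
    obtain ⟨⟨u₀, hu⟩, hx⟩ := hα' δ hδ
    refine ⟨log 2 * |u₀ + d + log 2| + 1, fun n => ?_⟩
    obtain ⟨x₁, hx₁⟩ := exists_forall_words n
      (fun l x => Ks (nuG e r l) x = log 2 * Sh (nuG e r l)) fun l => Ks_eq_Sh _
    obtain ⟨J, hJ⟩ := exists_nat_ge ((x₁ - (u₀ + d)) / log 2)
    rw [div_le_iff₀ hL] at hJ
    have h1 := hvar u₀ (α' - δ) (α' + δ) n J hu hx (by linarith)
    have h2 : Ex p n (fun l => log 2 * Sh (nuG e r l)) ≤
        Ex p n (fun l => Ks (nuG e r l) (SS r l) + (Λ * ∑ j ∈ Finset.range J,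
          wv (nuG e r l) (exp (-(SS r l + u₀ + d + j * log 2))) +
          (ε / (2 * (log 2 * A + 1)) * (log 2 * (n * A)) + (log 2 * |u₀ + d + log 2| + 1)))) := by
      refine Ex_mono hp fun l hl => ?_
      have a1 := hhid (nuG e r l) (hν l) (log 2 * (n * A)) (by positivity)
        (fun k x => hl ▸ Ks_pow_nuG he (fun a => (hg.hr a).1) hA l k x) (SS r l + u₀ + d) J
      have a2 := hx₁ l hl (SS r l + u₀ + d + (J + 1) * log 2)
        (by linarith [SS_nonneg hg l])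
      have a3 := Ks_lip (hν l) (SS r l) (SS r l + u₀ + d + log 2)
      have a4 : SS r l + u₀ + d + log 2 - SS r l = u₀ + d + log 2 := by ring
      rw [a4] at a3
      linarith
    rw [Ex_add, Ex_add, Ex_const hg.hp1, Ex_const_mul, Ex_const_mul, Ex_sum] at h2
    have h3 := min_le_right (n * lyapunovExp r p * log 2)
      (log 2 * Ex p n (fun l => Sh (nuG e r l)))
    have hn : (0 : ℝ) ≤ n := Nat.cast_nonneg n
    have h4 : ε / (2 * (log 2 * A + 1)) * (log 2 * (n * A)) ≤ ε / 2 * n := by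
      have : ε / (2 * (log 2 * A + 1)) * (log 2 * (n * A)) =
          ε / 2 * n * (log 2 * A / (log 2 * A + 1)) := by field_simp
      rw [this]
      exact mul_le_of_le_one_right (by positivity) ((div_le_one hA0).2 (by linarith))
    have h5 : Λ * (c * n * (α' + δ - (α' - δ))) ≤ ε / 2 * n := by
      rw [le_div_iff₀ (by positivity)] at hδ2
      have : Λ * (c * n * (α' + δ - (α' - δ))) = (2 * (Λ * c) * δ) * n := by ring
      rw [this]
      exact mul_le_mul_of_nonneg_right (by nlinarith) hn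
    have h6 := mul_le_mul_of_nonneg_left h1 hΛ
    linarith

end Crest.Agent.R098
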