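import Crest.Agent.R098.Nu

/-! Properties of the averaged gains `AA` and `TT`. -/

set_option autoImplicit false

open MeasureTheory Real Crest.AnalysisR

namespace Crest.Agent.R098

variable {ι : Type*} [Fintype ι] {e : ι → FM} {r p : ι → ℝ}

theorem gainA_eq_corea (hg : Good r p) (a : ι) (l : List ι) (x : ℝ) :
    gainA e r a l x = Ks (e a * scale (r a) (nuG e r l)) (x - log |r a|) -
      Ks (scale (r a) (nuG e r l)) (x - log |r a|) := by
  rw [Ks_scale _ (hg.hr a).1, gainA, nuG_cons]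

theorem TT_zero_corea (hg : Good r p) (m : ℕ) (x : ℝ) : TT e r p 0 m x = 0 := by
  simp [TT, Ex_const hg.hp1]

theorem gainA_nonneg (he : ∀ a, Prob (e a)) (hg : Good r p) (a : ι) (l : List ι) (x : ℝ) :
    0 ≤ gainA e r a l x := by
  rw [gainA_eq_corea hg]
  exact sub_nonneg.2 (Ks_mul_ge (he a) ((nuG_prob he r l).scale _) _)

theorem gainA_le (he : ∀ a, Prob (e a)) (hg : Good r p) (a : ι) (l : List ι) (x : ℝ) :
    gainA e r a l x ≤ log 2 * Sh (e a) := by
  rw [gainA_eq_corea hg]
  have := Ks_mul_le (he a) ((nuG_prob he r l).scale (r a)) (x - log |r a|)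
  linarith

theorem gainA_mono (he : ∀ a, Prob (e a)) (hg : Good r p) (a : ι) (l : List ι) {x x' : ℝ}
    (h : x ≤ x') : gainA e r a l x ≤ gainA e r a l x' := by
  rw [gainA_eq_corea hg, gainA_eq_corea hg]
  exact Ks_gain_mono (he a) ((nuG_prob he r l).scale _) (by linarith)

theorem gainA_append (he : ∀ a, Prob (e a)) (hg : Good r p) (a : ι) (l l' : List ι) (x : ℝ) :
    gainA e r a (l ++ l') x ≤ gainA e r a l x := by
  rw [gainA_eq_corea hg, gainA_eq_corea hg, nuG_append, map_mul, ← mul_assoc]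
  have := Ks_submod (he a) ((nuG_prob he r l).scale (r a))
    (((nuG_prob he r l').scale (RR r l)).scale (r a)) (x - log |r a|)
  linarith

theorem AA_nonneg (he : ∀ a, Prob (e a)) (hg : Good r p) (m : ℕ) (x : ℝ) :
    0 ≤ AA e r p m x := by
  exact Finset.sum_nonneg fun a _ => mul_nonneg (hg.hp a).le
    (Ex_nonneg (fun i => (hg.hp i).le) fun l _ => gainA_nonneg he hg a l x)

theorem AA_le (he : ∀ a, Prob (e a)) (hg : Good r p) (m : ℕ) (x : ℝ) :
    AA e r p m x ≤ ∑ a, p a * (log 2 * Sh (e a)) := by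
  refine Finset.sum_le_sum fun a _ => mul_le_mul_of_nonneg_left ?_ (hg.hp a).le
  rw [← Ex_const hg.hp1 m (log 2 * Sh (e a))]
  exact Ex_mono (fun i => (hg.hp i).le) fun l _ => gainA_le he hg a l x

theorem AA_mono (he : ∀ a, Prob (e a)) (hg : Good r p) (m : ℕ) {x x' : ℝ} (h : x ≤ x') :
    AA e r p m x ≤ AA e r p m x' := by
  exact Finset.sum_le_sum fun a _ => mul_le_mul_of_nonneg_left
    (Ex_mono (fun i => (hg.hp i).le) fun l _ => gainA_mono he hg a l h) (hg.hp a).le

theorem AA_anti (he : ∀ a, Prob (e a)) (hg : Good r p) {m m' : ℕ} (h : m ≤ m') (x : ℝ) :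
    AA e r p m' x ≤ AA e r p m x := by
  obtain ⟨k, rfl⟩ := Nat.exists_eq_add_of_le h
  refine Finset.sum_le_sum fun a _ => mul_le_mul_of_nonneg_left ?_ (hg.hp a).le
  rw [Ex_append]
  refine Ex_mono (fun i => (hg.hp i).le) fun l _ => ?_
  rw [← Ex_const hg.hp1 k (gainA e r a l x)]
  exact Ex_mono (fun i => (hg.hp i).le) fun l' _ => gainA_append he hg a l l' x

theorem TT_succ (hg : Good r p) (n m : ℕ) (x : ℝ) :
    TT e r p (n + 1) m x = (∑ a, p a * Ex p n (fun l => Ex p m
      (fun l' => gainA e r a (l ++ l') (x + SS r l)))) + TT e r p n m x := by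
  have h1 : TT e r p n m x = ∑ a, p a * TT e r p n m x := by
    rw [← Finset.sum_mul, hg.hp1, one_mul]
  rw [h1, ← Finset.sum_add_distrib]
  unfold TT
  rw [Ex_succ]
  refine Finset.sum_congr rfl fun a _ => ?_
  rw [← mul_add, ← Ex_add]
  congr 2
  funext l
  rw [← Ex_add]
  congr 1
  funext l'
  rw [SS_cons (fun i => (hg.hr i).1), List.cons_append, gainA,
    show x + (-log |r a| + SS r l) = x + SS r l - log |r a| by ring]
  ring

theorem TT_lower (he : ∀ a, Prob (e a)) (hg : Good r p) {a₀ x : ℝ}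
    (h : ∀ m, a₀ ≤ AA e r p m x) (n m : ℕ) : n * a₀ ≤ TT e r p n m x := by
  induction n with
  | zero => rw [TT_zero_corea hg]; simp
  | succ n ih =>
    rw [TT_succ hg]
    have h1 : AA e r p (n + m) x ≤ ∑ a, p a * Ex p n (fun l => Ex p m
        (fun l' => gainA e r a (l ++ l') (x + SS r l))) := by
      refine Finset.sum_le_sum fun a _ => mul_le_mul_of_nonneg_left ?_ (hg.hp a).le
      rw [Ex_append]
      exact Ex_mono (fun i => (hg.hp i).le) fun l _ => Ex_mono (fun i => (hg.hp i).le)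
        fun l' _ => gainA_mono he hg a _ (by linarith [SS_nonneg hg l])
    have h2 := h (n + m)
    push_cast
    linarith

theorem TT_upper (he : ∀ a, Prob (e a)) (hg : Good r p) {C : ℝ} (hC : ∀ a, -log |r a| ≤ C)
    (n m : ℕ) (x : ℝ) : TT e r p n m x ≤ n * AA e r p m (x + n * C) := by
  have hC0 : 0 ≤ C := by
    have hne : Nonempty ι := by
      by_contra h
      rw [not_nonempty_iff] at h
      have := hg.hp1
      simp at this
    obtain ⟨a⟩ := hne
    have h1 : log |r a| ≤ 0 := log_nonpos (abs_nonneg _) (hg.hr a).2.le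
    linarith [hC a]
  induction n with
  | zero => rw [TT_zero_corea hg]; simp
  | succ n ih =>
    rw [TT_succ hg]
    have h1 : ∑ a, p a * Ex p n (fun l => Ex p m
        (fun l' => gainA e r a (l ++ l') (x + SS r l))) ≤ AA e r p (n + m) (x + n * C) := by
      refine Finset.sum_le_sum fun a _ => mul_le_mul_of_nonneg_left ?_ (hg.hp a).le
      rw [Ex_append]
      refine Ex_mono (fun i => (hg.hp i).le) fun l hl => Ex_mono (fun i => (hg.hp i).le)
        fun l' _ => gainA_mono he hg a _ ?_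
      have := SS_le (fun i => (hg.hr i).1) hC l
      rw [hl] at this
      linarith
    have h2 := AA_anti he hg (Nat.le_add_left m n) (x + n * C)
    have h3 := AA_mono he hg m (show x + n * C ≤ x + ((n + 1 : ℕ) : ℝ) * C by push_cast; linarith)
    have h4 := mul_le_mul_of_nonneg_left h3 (Nat.cast_nonneg n)
    have h5 : ((n + 1 : ℕ) : ℝ) * AA e r p m (x + ((n + 1 : ℕ) : ℝ) * C) =
        n * AA e r p m (x + ((n + 1 : ℕ) : ℝ) * C) + AA e r p m (x + ((n + 1 : ℕ) : ℝ) * C) := by
      push_cast; ring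
    linarith

theorem TT_mono (he : ∀ a, Prob (e a)) (hg : Good r p) (n m : ℕ) {x x' : ℝ} (h : x ≤ x') :
    TT e r p n m x ≤ TT e r p n m x' := by
  refine Ex_mono (fun i => (hg.hp i).le) fun l _ => Ex_mono (fun i => (hg.hp i).le) fun l' _ => ?_
  have key : ∀ y, Ks (nuG e r l') y = Ks (scale (RR r l) (nuG e r l')) (y + SS r l) := fun y => by
    rw [← Ks_scale (nuG e r l') (RR_ne_zero (fun i => (hg.hr i).1) l) y, SS, sub_eq_add_neg]
  rw [nuG_append, key x, key x']
  exact Ks_gain_mono (nuG_prob he r l) ((nuG_prob he r l').scale _) (by linarith)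

theorem beta_bound (he : ∀ a, Prob (e a)) (hg : Good r p) {C : ℝ} (hC : ∀ a, -log |r a| ≤ C)
    (m : ℕ) (x : ℝ) :
    lyapunovExp r p * log 2 - AA e r p m x ≤
      C * log 2 - Ex p (m + 1) (fun l => Ks (nuG e r l) (x + C) - Ks (nuG e r l) x) := by
  have hp : ∀ i, 0 ≤ p i := fun i => (hg.hp i).le
  have h1 : Ex p m (fun l => Ks (nuG e r l) x) ≤ Ex p (m + 1) (fun l => Ks (nuG e r l) x) := by
    rw [Ex_append]
    refine Ex_mono hp fun l _ => ?_
    rw [← Ex_const hg.hp1 1 (Ks (nuG e r l) x)]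
    refine Ex_mono hp fun l' _ => ?_
    rw [nuG_append, mul_comm]
    exact Ks_mul_ge ((nuG_prob he r l').scale _) (nuG_prob he r l) x
  have h2 : Ex p (m + 1) (fun l => Ks (nuG e r l) (x + C)) ≤
      ∑ a, p a * (Ex p m (fun l => gainA e r a l x) +
        (Ex p m (fun l => Ks (nuG e r l) x) + log 2 * C) - log 2 * (-log |r a|)) := by
    rw [Ex_succ]
    refine Finset.sum_le_sum fun a _ => mul_le_mul_of_nonneg_left ?_ (hp a)
    have h3 : Ex p m (fun l => gainA e r a l x) +
        (Ex p m (fun l => Ks (nuG e r l) x) + log 2 * C) - log 2 * (-log |r a|) =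
        Ex p m (fun l => gainA e r a l x + Ks (nuG e r l) x + log 2 * (C + log |r a|)) := by
      rw [Ex_add, Ex_add, Ex_const hg.hp1]; ring
    rw [h3]
    refine Ex_mono hp fun l _ => ?_
    have h4 := Ks_sub_le (nuG_prob he r (a :: l)) (show x - log |r a| ≤ x + C by linarith [hC a])
    unfold gainA
    linarith
  have h5 : ∑ a, p a * (Ex p m (fun l => gainA e r a l x) +
        (Ex p m (fun l => Ks (nuG e r l) x) + log 2 * C) - log 2 * (-log |r a|)) =
      AA e r p m x + (Ex p m (fun l => Ks (nuG e r l) x) + log 2 * C) -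
        log 2 * lyapunovExp r p := by
    rw [lyap_eq, Finset.mul_sum, AA]
    simp only [mul_sub, mul_add, Finset.sum_sub_distrib, Finset.sum_add_distrib, ← Finset.sum_mul,
      hg.hp1, one_mul]
    congr 1
    exact Finset.sum_congr rfl fun a _ => by ring
  rw [Ex_sub]
  linarith

end Crest.Agent.R098
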