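import Crest.Agent.R098.Pair
import Crest.Agent.R098.KK

/-! Counting the scales at which the local variance is not small. -/

set_option autoImplicit false

open MeasureTheory Real Crest.AnalysisR

namespace Crest.Agent.R098

theorem tele_eq_count (Γ : ℕ → ℝ) (L J : ℕ) :
    ∑ j ∈ Finset.range J, (Γ (j + L) - Γ j) = ∑ i ∈ Finset.range L, (Γ (J + i) - Γ i) := by
  have h1 := Finset.sum_range_add Γ J L
  have h2 := Finset.sum_range_add Γ L J
  rw [add_comm L J] at h2
  rw [Finset.sum_sub_distrib, Finset.sum_sub_distrib]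
  have h3 : ∑ j ∈ Finset.range J, Γ (j + L) = ∑ j ∈ Finset.range J, Γ (L + j) :=
    Finset.sum_congr rfl fun j _ => by rw [add_comm]
  rw [h3]
  linarith

theorem tele (Γ : ℕ → ℝ) (hΓ : Monotone Γ) (L J : ℕ) :
    ∑ j ∈ Finset.range J, (Γ (j + L) - Γ j) ≤ L * (Γ (J + L) - Γ 0) := by
  rw [tele_eq_count]
  calc ∑ i ∈ Finset.range L, (Γ (J + i) - Γ i)
      ≤ ∑ _i ∈ Finset.range L, (Γ (J + L) - Γ 0) := by
        refine Finset.sum_le_sum fun i hi => ?_
        have hi' := Finset.mem_range.1 hi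
        have a1 : Γ (J + i) ≤ Γ (J + L) := hΓ (by omega)
        have a2 : Γ 0 ≤ Γ i := hΓ (Nat.zero_le i)
        linarith
    _ = L * (Γ (J + L) - Γ 0) := by
        rw [Finset.sum_const, Finset.card_range, nsmul_eq_mul]

theorem pow_split_count {a b : FM} (ha : NN a) (hb : NN b) (k : ℕ) :
    ∃ G : FM, NN G ∧ (a + b) ^ k = a ^ k + G * b := by
  induction k with
  | zero => exact ⟨0, NN.zero, by simp⟩
  | succ k ih =>
    obtain ⟨G, hG, h⟩ := ih
    refine ⟨a ^ k + G * (a + b), (ha.pow k).add (hG.mul (ha.add hb)), ?_⟩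
    rw [pow_succ, h]
    ring

theorem bern_count {p : ℝ} (h0 : 0 ≤ p) (h1 : p ≤ 1) (k : ℕ) :
    (1 - p) ^ k * (1 + k * p) ≤ 1 := by
  induction k with
  | zero => simp
  | succ k ih =>
    have hk : (0 : ℝ) ≤ k := Nat.cast_nonneg k
    have hp : 0 ≤ (1 - p) ^ k := pow_nonneg (by linarith) k
    have : (1 - p) * (1 + ((k : ℝ) + 1) * p) ≤ 1 + k * p := by
      nlinarith [mul_nonneg h0 h0, mul_nonneg hk (mul_nonneg h0 h0)]
    calc (1 - p) ^ (k + 1) * (1 + ((k + 1 : ℕ) : ℝ) * p)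
        = (1 - p) ^ k * ((1 - p) * (1 + ((k : ℝ) + 1) * p)) := by
          rw [pow_succ]; push_cast; ring
      _ ≤ (1 - p) ^ k * (1 + k * p) := mul_le_mul_of_nonneg_left this hp
      _ ≤ 1 := ih

theorem two_window_count {y z x : ℝ} {g : ℕ} (h1 : |y - z| ≤ exp (-x))
    (h2 : (1 / 4 : ℝ) ^ g * exp (-x) ^ 2 ≤ (y - z) ^ 2) :
    log 2 ^ 2 / 4 ≤ ∫ t in (x - log 2)..(x + g * log 2), Es (two y z) (exp (-t)) := by
  set D := |y - z| with hD
  have hs : 0 < exp (-x) := exp_pos _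
  have hl2 : 0 < log 2 := log_pos (by norm_num)
  have hDlow : (1 / 2 : ℝ) ^ g * exp (-x) ≤ D := by
    have e : ((1 / 2 : ℝ) ^ g * exp (-x)) ^ 2 = (1 / 4 : ℝ) ^ g * exp (-x) ^ 2 := by
      rw [mul_pow, ← pow_mul, mul_comm g 2, pow_mul]; norm_num
    have : ((1 / 2 : ℝ) ^ g * exp (-x)) ^ 2 ≤ D ^ 2 := by rw [e, hD, sq_abs]; exact h2
    exact (pow_le_pow_iff_left₀ (by positivity) (abs_nonneg _) two_ne_zero).1 this
  have hD0 : 0 < D := lt_of_lt_of_le (by positivity) hDlow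
  have hlo : x - log 2 ≤ -log D - log 2 := by
    have := log_le_log hD0 h1
    rw [log_exp] at this
    linarith
  have hhi : -log D ≤ x + g * log 2 := by
    have := log_le_log (by positivity) hDlow
    rw [log_mul (by positivity) hs.ne', log_exp, log_pow, one_div, log_inv] at this
    linarith
  have hint := intervalIntegrable_Es (NN.two y z)
  have hnn : ∀ t, 0 ≤ Es (two y z) (exp (-t)) := fun t => Es_nonneg (NN.two y z) (exp_pos _)
  have hmid : log 2 ^ 2 / 4 ≤ ∫ t in (-log D - log 2)..(-log D), Es (two y z) (exp (-t)) := by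
    have : ∫ _t in (-log D - log 2)..(-log D), log 2 / 4 = log 2 ^ 2 / 4 := by
      rw [intervalIntegral.integral_const, smul_eq_mul]; ring
    rw [← this]
    refine intervalIntegral.integral_mono_on (by linarith) intervalIntegrable_const (hint _ _)
      fun t ht => Es_two hD0 ?_ ?_
    · calc D = exp (log D) := (exp_log hD0).symm
        _ ≤ exp (-t) := exp_le_exp.2 (by linarith [ht.2])
    · calc exp (-t) ≤ exp (log D + log 2) := exp_le_exp.2 (by linarith [ht.1])
        _ = 2 * D := by rw [exp_add, exp_log hD0, exp_log (by norm_num)]; ring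
  refine hmid.trans ?_
  exact intervalIntegral.integral_mono_interval hlo (by linarith) hhi
    (Filter.Eventually.of_forall fun t => hnn t) (hint _ _)

theorem count_window {ν : FM} (hν : Prob ν) {κ x : ℝ} {k g : ℕ} (hκ : 0 < κ)
    (hw : κ ≤ wv ν (exp (-x))) (hk : 2 ≤ (k : ℝ) * κ) (hg : (1 / 4 : ℝ) ^ g ≤ κ / 2) :
    log 2 ^ 2 / 8 ≤ Ks (ν ^ k) (x + g * log 2) - Ks (ν ^ k) (x - log 2) := by
  classical
  have hs : 0 < exp (-x) := exp_pos _
  have hl2 : 0 < log 2 := log_pos (by norm_num)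
  obtain ⟨P, wt, hwt, hD, hdec, hsum, hvar⟩ := pair_decomp hν hs
  set s := exp (-x) with hsdef
  set P1 := P.filter fun q => κ / 2 * s ^ 2 ≤ (q.1 - q.2) ^ 2 with hP1
  set P0 := P.filter fun q => ¬ (κ / 2 * s ^ 2 ≤ (q.1 - q.2) ^ 2) with hP0
  have hP1s : ∀ q ∈ P1, q ∈ P := fun q hq => (Finset.mem_filter.1 hq).1
  have hP0s : ∀ q ∈ P0, q ∈ P := fun q hq => (Finset.mem_filter.1 hq).1
  set π₁ := ∑ q ∈ P1, wt q with hπ₁
  set π₀ := ∑ q ∈ P0, wt q with hπ₀
  have hππ : π₁ + π₀ = 1 := by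
    rw [← hsum]; exact Finset.sum_filter_add_sum_filter_not _ _ _
  have hπ₁0 : 0 ≤ π₁ := Finset.sum_nonneg fun q hq => hwt q (hP1s q hq)
  have hπ₀0 : 0 ≤ π₀ := Finset.sum_nonneg fun q hq => hwt q (hP0s q hq)
  have hπ : κ / 2 ≤ π₁ := by
    have e := Finset.sum_filter_add_sum_filter_not P
      (fun q => κ / 2 * s ^ 2 ≤ (q.1 - q.2) ^ 2) (fun q => wt q * (q.1 - q.2) ^ 2)
    have a1 : ∑ q ∈ P1, wt q * (q.1 - q.2) ^ 2 ≤ π₁ * s ^ 2 := by
      rw [hπ₁, Finset.sum_mul]
      refine Finset.sum_le_sum fun q hq => mul_le_mul_of_nonneg_left ?_ (hwt q (hP1s q hq))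
      rw [← sq_abs]
      exact pow_le_pow_left₀ (abs_nonneg _) (hD q (hP1s q hq)) 2
    have a0 : ∑ q ∈ P0, wt q * (q.1 - q.2) ^ 2 ≤ π₀ * (κ / 2 * s ^ 2) := by
      rw [hπ₀, Finset.sum_mul]
      refine Finset.sum_le_sum fun q hq => mul_le_mul_of_nonneg_left ?_ (hwt q (hP0s q hq))
      exact (not_le.1 (Finset.mem_filter.1 hq).2).le
    have a2 : κ * s ^ 2 ≤ wv ν s * s ^ 2 := mul_le_mul_of_nonneg_right hw (by positivity)
    have a3 : π₀ * (κ / 2 * s ^ 2) ≤ 1 * (κ / 2 * s ^ 2) :=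
      mul_le_mul_of_nonneg_right (by linarith) (by positivity)
    have a4 : κ / 2 * s ^ 2 ≤ π₁ * s ^ 2 := by
      rw [← hP1, ← hP0, hvar] at e
      linarith
    exact le_of_mul_le_mul_right a4 (by positivity)
  set ν₁ : FM := ∑ q ∈ P1, wt q • two q.1 q.2 with hν₁
  set ν₀ : FM := ∑ q ∈ P0, wt q • two q.1 q.2 with hν₀
  have hsplit : ν = ν₀ + ν₁ := by
    rw [hdec, add_comm]; exact (Finset.sum_filter_add_sum_filter_not _ _ _).symm
  have n1 : ∀ q ∈ P1, NN (wt q • two q.1 q.2) := fun q hq =>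
    NN.smul (hwt q (hP1s q hq)) (NN.two _ _)
  have hn1 : NN ν₁ := NN.sum n1
  have hn0 : NN ν₀ := NN.sum fun q hq => NN.smul (hwt q (hP0s q hq)) (NN.two _ _)
  have ht1 : tot ν₁ = π₁ := by
    rw [hν₁, tot_sum]
    exact Finset.sum_congr rfl fun q _ => by rw [tot_smul, tot_two, mul_one]
  have ht0 : tot ν₀ = 1 - π₁ := by
    have : tot ν₀ = π₀ := by
      rw [hν₀, tot_sum]
      exact Finset.sum_congr rfl fun q _ => by rw [tot_smul, tot_two, mul_one]
    linarith
  obtain ⟨G, hG, hpow⟩ := pow_split_count hn0 hn1 k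
  rw [← hsplit] at hpow
  have hG0 := hG.tot_nonneg
  have htG : 1 / 2 ≤ tot G * π₁ := by
    have e := (hν.pow k).tot_eq
    rw [hpow, tot_add, tot_pow, tot_mul, ht0, ht1] at e
    have b := bern_count hπ₁0 (by linarith) k
    have hk' : 1 ≤ (k : ℝ) * π₁ := by
      have := mul_le_mul_of_nonneg_left hπ (Nat.cast_nonneg k : (0 : ℝ) ≤ k)
      linarith
    have hp : 0 ≤ (1 - π₁) ^ k := pow_nonneg (by linarith) k
    nlinarith [mul_le_mul_of_nonneg_left hk' hp]
  have hpt : ∀ t, tot G * ∑ q ∈ P1, wt q * Es (two q.1 q.2) (exp (-t)) ≤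
      Es (ν ^ k) (exp (-t)) := fun t => by
    have ht : 0 < exp (-t) := exp_pos _
    have c1 : ∑ q ∈ P1, wt q * Es (two q.1 q.2) (exp (-t)) ≤ Es ν₁ (exp (-t)) := by
      have := Es_sum P1 n1 ht
      simp only [Es_smul] at this
      exact this
    have c2 := Es_mul_ge hG hn1 ht
    have c3 := Es_add (hn0.pow k) (hG.mul hn1) ht
    have c4 := Es_nonneg (hn0.pow k) ht
    have c5 := mul_le_mul_of_nonneg_left c1 hG0
    rw [hpow]
    linarith
  have hab : x - log 2 ≤ x + g * log 2 := by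
    have : 0 ≤ (g : ℝ) * log 2 := by positivity
    linarith
  have hi : ∀ q ∈ P1, IntervalIntegrable (fun t => wt q * Es (two q.1 q.2) (exp (-t))) volume
      (x - log 2) (x + g * log 2) := fun q _ =>
    (intervalIntegrable_Es (NN.two _ _) _ _).const_mul _
  rw [Ks_sub (hν.pow k)]
  calc log 2 ^ 2 / 8 = 1 / 2 * (log 2 ^ 2 / 4) := by ring
    _ ≤ tot G * π₁ * (log 2 ^ 2 / 4) := mul_le_mul_of_nonneg_right htG (by positivity)
    _ = tot G * ∑ q ∈ P1, wt q * (log 2 ^ 2 / 4) := by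
        rw [hπ₁, mul_assoc, Finset.sum_mul]
    _ ≤ tot G * ∑ q ∈ P1, wt q *
          ∫ t in (x - log 2)..(x + g * log 2), Es (two q.1 q.2) (exp (-t)) := by
        refine mul_le_mul_of_nonneg_left (Finset.sum_le_sum fun q hq =>
          mul_le_mul_of_nonneg_left ?_ (hwt q (hP1s q hq))) hG0
        refine two_window_count (hD q (hP1s q hq)) ?_
        exact le_trans (mul_le_mul_of_nonneg_right hg (by positivity))
          (Finset.mem_filter.1 hq).2
    _ = ∫ t in (x - log 2)..(x + g * log 2),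
          tot G * ∑ q ∈ P1, wt q * Es (two q.1 q.2) (exp (-t)) := by
        rw [intervalIntegral.integral_const_mul, intervalIntegral.integral_finsetSum hi]
        simp only [intervalIntegral.integral_const_mul]
    _ ≤ ∫ t in (x - log 2)..(x + g * log 2), Es (ν ^ k) (exp (-t)) := by
        refine intervalIntegral.integral_mono_on hab ?_
          (intervalIntegrable_Es (hν.pow k).nn _ _) fun t _ => hpt t
        refine IntervalIntegrable.const_mul ?_ _
        have := IntervalIntegrable.sum P1 hi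
        have e : (∑ q ∈ P1, fun t => wt q * Es (two q.1 q.2) (exp (-t))) =
            fun t => ∑ q ∈ P1, wt q * Es (two q.1 q.2) (exp (-t)) := by
          funext t
          rw [Finset.sum_apply]
        rw [e] at this
        exact this

theorem count_scales {ν : FM} (hν : Prob ν) {κ B : ℝ} {k g : ℕ} (hκ : 0 < κ)
    (hk : 2 ≤ (k : ℝ) * κ) (hg : (1 / 4 : ℝ) ^ g ≤ κ / 2) (hB : ∀ x, Ks (ν ^ k) x ≤ B)
    (x₀ : ℝ) (J : ℕ) :
    (∑ j ∈ Finset.range J, if κ ≤ wv ν (exp (-(x₀ + j * log 2))) then (1 : ℝ) else 0) *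
      (log 2 ^ 2 / 8) ≤ (g + 1) * B := by
  have hl2 : 0 < log 2 := log_pos (by norm_num)
  set Γ : ℕ → ℝ := fun j => Ks (ν ^ k) (x₀ + j * log 2 - log 2) with hΓ
  have hmono : Monotone Γ := fun i j hij => Ks_mono (hν.pow k) (by
    have : (i : ℝ) * log 2 ≤ j * log 2 :=
      mul_le_mul_of_nonneg_right (Nat.cast_le.2 hij) hl2.le
    linarith)
  have ht := tele Γ hmono (g + 1) J
  rw [Finset.sum_mul]
  calc _ ≤ ∑ j ∈ Finset.range J, (Γ (j + (g + 1)) - Γ j) := by
        refine Finset.sum_le_sum fun j _ => ?_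
        split_ifs with h
        · have := count_window hν hκ h hk hg
          have e : Γ (j + (g + 1)) = Ks (ν ^ k) (x₀ + j * log 2 + g * log 2) := by
            simp only [hΓ]; congr 1; push_cast; ring
          rw [e, one_mul]
          exact this
        · have := hmono (Nat.le_add_right j (g + 1))
          linarith
    _ ≤ ((g + 1 : ℕ) : ℝ) * (Γ (J + (g + 1)) - Γ 0) := ht
    _ ≤ (g + 1) * B := by
        push_cast
        refine mul_le_mul_of_nonneg_left ?_ (by positivity)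
        have a1 : Γ (J + (g + 1)) ≤ B := hB _
        have a2 : 0 ≤ Γ 0 := Ks_nonneg (hν.pow k) _
        linarith

end Crest.Agent.R098
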