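import Crest.Agent.R098.Defs

/-! Pointwise inequalities for `Psi`. -/

set_option autoImplicit false

open MeasureTheory Real Crest.AnalysisR

namespace Crest.Agent.R098

theorem Psi_eq_psi (a b : ℝ) : Psi a b = -(a * log a) - b * log b + (a + b) * log (a + b) := by
  simp only [Psi, negMulLog]; ring

theorem Psi_comm_psi (a b : ℝ) : Psi a b = Psi b a := by
  simp only [Psi, add_comm]

theorem gibbs1_psi {c d m : ℝ} (hc : 0 ≤ c) (hd : 0 < d) (hcm : c ≤ m) (hdm : d ≤ m) :
    c * log d - c * log c ≤ d - c - (c - d) ^ 2 / (4 * m) := by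
  have hm : 0 < m := lt_of_lt_of_le hd hdm
  obtain ⟨u, hu0, rfl⟩ : ∃ u, 0 ≤ u ∧ c = u ^ 2 := ⟨√c, sqrt_nonneg _, (sq_sqrt hc).symm⟩
  obtain ⟨v, hv0, rfl⟩ : ∃ v, 0 < v ∧ d = v ^ 2 := ⟨√d, sqrt_pos.2 hd, (sq_sqrt hd.le).symm⟩
  have h1 : (u ^ 2 - v ^ 2) ^ 2 / (4 * m) ≤ (u - v) ^ 2 := by
    rw [div_le_iff₀ (by positivity), show (u ^ 2 - v ^ 2) ^ 2 = (u - v) ^ 2 * (u + v) ^ 2 by ring]
    refine mul_le_mul_of_nonneg_left ?_ (sq_nonneg _)
    nlinarith [sq_nonneg (u - v)]
  have h2 : u ^ 2 * log (v ^ 2) - u ^ 2 * log (u ^ 2) ≤ 2 * u * v - 2 * u ^ 2 := by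
    rcases hu0.eq_or_lt with h | h
    · simp [← h]
    · have h3 := log_le_sub_one_of_pos (show 0 < v / u by positivity)
      rw [log_div hv0.ne' h.ne'] at h3
      rw [log_pow, log_pow]
      have h4 := mul_le_mul_of_nonneg_left h3 (show 0 ≤ 2 * u ^ 2 by positivity)
      have h5 : 2 * u ^ 2 * (v / u - 1) = 2 * u * v - 2 * u ^ 2 := by field_simp
      push_cast
      linarith
  nlinarith

theorem gibbs2_psi {a b y : ℝ} (ha : 0 ≤ a) (hb : 0 ≤ b) (h : 0 < a + b) (hy0 : 0 < y)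
    (hy1 : y < 1) :
    Psi a b ≤ -a * log y - b * log (1 - y) - (a + b) * (a / (a + b) - y) ^ 2 / 2 := by
  have hy2 : 0 < 1 - y := by linarith
  have h1 := gibbs1_psi (m := a + b) ha (mul_pos h hy0) (by linarith) (by nlinarith)
  have h2 := gibbs1_psi (m := a + b) hb (mul_pos h hy2) (by linarith) (by nlinarith)
  rw [log_mul h.ne' hy0.ne'] at h1
  rw [log_mul h.ne' hy2.ne'] at h2
  have h3 : (a + b) * (a / (a + b) - y) ^ 2 / 2 =
      (a - (a + b) * y) ^ 2 / (4 * (a + b)) + (b - (a + b) * (1 - y)) ^ 2 / (4 * (a + b)) := by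
    field_simp; ring
  rw [Psi_eq_psi, h3]
  linarith

theorem Psi_opt_psi {a b : ℝ} (ha : 0 < a) (hb : 0 < b) :
    0 < a / (a + b) ∧ a / (a + b) < 1 ∧
      Psi a b = -a * log (a / (a + b)) - b * log (1 - a / (a + b)) := by
  have h : 0 < a + b := by linarith
  refine ⟨by positivity, by rw [div_lt_one h]; linarith, ?_⟩
  rw [show 1 - a / (a + b) = b / (a + b) by field_simp; ring, log_div ha.ne' h.ne',
    log_div hb.ne' h.ne', Psi_eq_psi]
  ring

theorem Psi_zero : Psi 0 0 = 0 := by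
  simp [Psi]

/-- Gibbs bound -/
theorem Psi_le_gibbs {a b y : ℝ} (ha : 0 ≤ a) (hb : 0 ≤ b) (hy0 : 0 < y) (hy1 : y < 1) :
    Psi a b ≤ -a * log y - b * log (1 - y) := by
  rcases (add_nonneg ha hb).eq_or_lt with h | h
  · have h1 : a = 0 := by linarith
    have h2 : b = 0 := by linarith
    simp [Psi, h1, h2]
  · have h1 := gibbs2_psi ha hb h hy0 hy1
    have h2 : 0 ≤ (a + b) * (a / (a + b) - y) ^ 2 / 2 := by positivity
    linarith

theorem Psi_nonneg {a b : ℝ} (ha : 0 ≤ a) (hb : 0 ≤ b) : 0 ≤ Psi a b := by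
  rw [Psi_eq_psi]
  have h1 : a * log a ≤ a * log (a + b) := by
    rcases ha.eq_or_lt with h | h
    · simp [← h]
    · exact mul_le_mul_of_nonneg_left (log_le_log h (by linarith)) ha
  have h2 : b * log b ≤ b * log (a + b) := by
    rcases hb.eq_or_lt with h | h
    · simp [← h]
    · exact mul_le_mul_of_nonneg_left (log_le_log h (by linarith)) hb
  linarith

theorem Psi_le {a b : ℝ} (ha : 0 ≤ a) (hb : 0 ≤ b) : Psi a b ≤ log 2 * (a + b) := by
  have h := Psi_le_gibbs ha hb (y := 1 / 2) (by norm_num) (by norm_num)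
  rw [show (1 : ℝ) - 1 / 2 = 1 / 2 by norm_num, one_div, log_inv] at h
  linarith

theorem Psi_self (a : ℝ) : Psi a a = log 2 * (a + a) := by
  rw [Psi_eq_psi]
  rcases eq_or_ne a 0 with h | h
  · simp [h]
  · rw [← two_mul, log_mul (by norm_num) h]; ring

theorem Psi_smul (c a b : ℝ) : Psi (c * a) (c * b) = c * Psi a b := by
  unfold Psi
  rw [← mul_add, negMulLog_mul, negMulLog_mul, negMulLog_mul]
  ring

theorem Psi_add {a b a' b' : ℝ} (ha : 0 ≤ a) (hb : 0 ≤ b) (ha' : 0 ≤ a') (hb' : 0 ≤ b') :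
    Psi a b + Psi a' b' ≤ Psi (a + a') (b + b') := by
  rcases (add_nonneg ha ha').eq_or_lt with h | h
  · have h1 : a = 0 := by linarith
    have h2 : a' = 0 := by linarith
    simp [Psi, h1, h2]
  rcases (add_nonneg hb hb').eq_or_lt with h' | h'
  · have h1 : b = 0 := by linarith
    have h2 : b' = 0 := by linarith
    simp [Psi, h1, h2]
  obtain ⟨y0, y1, e⟩ := Psi_opt_psi h h'
  have h1 := Psi_le_gibbs ha hb y0 y1
  have h2 := Psi_le_gibbs ha' hb' y0 y1
  rw [e]
  linarith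

theorem Psi_le_min {a b lam : ℝ} (ha : 0 ≤ a) (hb : 0 ≤ b) (hl : 0 < lam) :
    Psi a b ≤ min a b * log (1 / lam) + lam * (a + b) := by
  have key : ∀ {a b : ℝ}, 0 ≤ a → 0 ≤ b → Psi a b ≤ a * log (1 / lam) + lam * (a + b) := by
    intro a b ha hb
    have h0 : 0 < 1 + lam := by linarith
    have h := Psi_le_gibbs ha hb (y := lam / (1 + lam)) (by positivity)
      (by rw [div_lt_one h0]; linarith)
    rw [show 1 - lam / (1 + lam) = (1 + lam)⁻¹ by field_simp; ring, log_inv,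
      log_div hl.ne' h0.ne'] at h
    rw [one_div, log_inv]
    have h1 := log_le_sub_one_of_pos h0
    have h2 : (a + b) * log (1 + lam) ≤ (a + b) * lam :=
      mul_le_mul_of_nonneg_left (by linarith) (by linarith)
    linarith
  rcases le_total a b with h | h
  · rw [min_eq_left h]; exact key ha hb
  · rw [min_eq_right h]
    have h1 := key hb ha
    rw [Psi_comm_psi, add_comm b a] at h1
    exact h1

theorem Psi_defect {a b : ℝ} (ha : 0 ≤ a) (hb : 0 ≤ b) :
    log 2 * (a + b) - Psi a b ≤ (a - b) ^ 2 / (a + b) := by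
  rcases (add_nonneg ha hb).eq_or_lt with h | h
  · have h1 : a = 0 := by linarith
    have h2 : b = 0 := by linarith
    simp [Psi, h1, h2]
  have key : ∀ {c : ℝ}, 0 ≤ c →
      c * log 2 + c * log c - c * log (a + b) ≤ c * (2 * c / (a + b) - 1) := by
    intro c hc
    rcases hc.eq_or_lt with h0 | h0
    · simp [← h0]
    · have h1 := log_le_sub_one_of_pos (show 0 < 2 * c / (a + b) by positivity)
      rw [log_div (by positivity) h.ne', log_mul (by norm_num) h0.ne'] at h1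
      have := mul_le_mul_of_nonneg_left h1 hc
      linarith
  have h1 := key ha
  have h2 := key hb
  have h3 : (a - b) ^ 2 / (a + b) = a * (2 * a / (a + b) - 1) + b * (2 * b / (a + b) - 1) := by
    field_simp; ring
  rw [Psi_eq_psi, h3]
  linarith

theorem Psi_gain {a b a' b' : ℝ} (ha : 0 ≤ a) (hb : 0 ≤ b) (ha' : 0 ≤ a') (hb' : 0 ≤ b') :
    min (a + b) (a' + b') * (a / (a + b) - a' / (a' + b')) ^ 2 / 16 ≤
      Psi ((a + a') / 2) ((b + b') / 2) - (Psi a b + Psi a' b') / 2 := by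
  have e0 : Psi ((a + a') / 2) ((b + b') / 2) = Psi (a + a') (b + b') / 2 := by
    have := Psi_smul (1 / 2) (a + a') (b + b')
    rw [show (a + a') / 2 = 1 / 2 * (a + a') by ring, show (b + b') / 2 = 1 / 2 * (b + b') by ring,
      this]
    ring
  have hadd := Psi_add ha hb ha' hb'
  rw [e0]
  rcases (add_nonneg ha hb).eq_or_lt with m0 | m0
  · rw [← m0, min_eq_left (add_nonneg ha' hb'), zero_mul]; linarith
  rcases (add_nonneg ha' hb').eq_or_lt with m1 | m1
  · rw [← m1, min_eq_right (add_nonneg ha hb), zero_mul]; linarith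
  rcases (add_nonneg ha ha').eq_or_lt with h | h
  · have h1 : a = 0 := by linarith
    have h2 : a' = 0 := by linarith
    have h3 : a / (a + b) - a' / (a' + b') = 0 := by simp [h1, h2]
    rw [h3]; linarith
  rcases (add_nonneg hb hb').eq_or_lt with h' | h'
  · have h1 : b = 0 := by linarith
    have h2 : b' = 0 := by linarith
    have h3 : a / (a + b) - a' / (a' + b') = 0 := by
      rw [h1, add_zero] at m0 ⊢
      rw [h2, add_zero] at m1 ⊢
      rw [div_self m0.ne', div_self m1.ne', sub_self]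
    rw [h3]; linarith
  obtain ⟨y0, y1, e⟩ := Psi_opt_psi h h'
  have h1 := gibbs2_psi ha hb m0 y0 y1
  have h2 := gibbs2_psi ha' hb' m1 y0 y1
  rw [e]
  set y := (a + a') / (a + a' + (b + b'))
  set x := a / (a + b)
  set x' := a' / (a' + b')
  have h3 : min (a + b) (a' + b') * (x - y) ^ 2 ≤ (a + b) * (x - y) ^ 2 :=
    mul_le_mul_of_nonneg_right (min_le_left _ _) (sq_nonneg _)
  have h4 : min (a + b) (a' + b') * (x' - y) ^ 2 ≤ (a' + b') * (x' - y) ^ 2 :=
    mul_le_mul_of_nonneg_right (min_le_right _ _) (sq_nonneg _)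
  have h5 : (x - x') ^ 2 ≤ 2 * (x - y) ^ 2 + 2 * (x' - y) ^ 2 := by
    nlinarith [sq_nonneg (x + x' - 2 * y)]
  have h6 : 0 ≤ min (a + b) (a' + b') := le_min m0.le m1.le
  have h7 := mul_le_mul_of_nonneg_left h5 h6
  have h8 : 0 ≤ min (a + b) (a' + b') * (x - x') ^ 2 := by positivity
  linarith

end Crest.Agent.R098
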