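import Crest.Agent.R098.Ev
import Crest.Agent.R098.Psi

/-! The pair decomposition and the bound of `Es` by the local variance. -/

set_option autoImplicit false

open MeasureTheory Real Crest.AnalysisR

namespace Crest.Agent.R098

theorem Vloc_nonneg_pair {ν : FM} (hν : NN ν) (s u : ℝ) : 0 ≤ Vloc ν s u :=
  div_nonneg (ev_nonneg hν fun _ _ => ev_nonneg hν fun _ _ =>
    mul_nonneg (mul_nonneg (ind_nonneg _ _ _) (ind_nonneg _ _ _)) (sq_nonneg _))
    (fI_nonneg hν s u)

theorem step_Vloc (m : FM) (s : ℝ) : Step (fun u => Vloc m s u) := by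
  unfold Vloc
  exact Step.div (Step.ev m fun y => Step.ev m fun z =>
    ((step_ind s y).mul (step_ind s z)).mul_const _) (step_fI m s)

theorem wv_nonneg {ν : FM} (hν : NN ν) {s : ℝ} (hs : 0 < s) : 0 ≤ wv ν s := by
  unfold wv
  exact mul_nonneg (by positivity) (integral_nonneg fun u => Vloc_nonneg_pair hν s u)

/-- pair weights -/
noncomputable def wtPair (ν : FM) (s : ℝ) (q : ℝ × ℝ) : ℝ :=
  (1 / s) * ∫ u, ν.coeff q.1 * ν.coeff q.2 * (ind s u q.1 * ind s u q.2 / fI ν s u)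

theorem step_wtPair (ν : FM) (s y z : ℝ) :
    Step (fun u => ν.coeff y * ν.coeff z * (ind s u y * ind s u z / fI ν s u)) :=
  (((step_ind s y).mul (step_ind s z)).div (step_fI ν s)).const_mul _

theorem wtPair_nonneg {ν : FM} (hν : NN ν) {s : ℝ} (hs : 0 < s) (q : ℝ × ℝ) :
    0 ≤ wtPair ν s q :=
  mul_nonneg (by positivity) (integral_nonneg fun u =>
    mul_nonneg (mul_nonneg (hν _) (hν _))
      (div_nonneg (mul_nonneg (ind_nonneg _ _ _) (ind_nonneg _ _ _)) (fI_nonneg hν s u)))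

theorem wtPair_symm (ν : FM) (s y z : ℝ) : wtPair ν s (y, z) = wtPair ν s (z, y) := by
  unfold wtPair
  congr 2
  funext u
  ring

theorem wtPair_far (ν : FM) {s : ℝ} {q : ℝ × ℝ} (h : ¬ |q.1 - q.2| ≤ s) : wtPair ν s q = 0 := by
  unfold wtPair
  have : ∀ u, ind s u q.1 * ind s u q.2 = 0 := by
    intro u
    simp only [ind_eq]
    split_ifs with h1 h2
    · exact absurd (abs_le.2 ⟨by linarith [h1.1, h2.2], by linarith [h1.2, h2.1]⟩) h
    all_goals simp
  simp [this]

theorem wtPair_marg {ν : FM} (hν : NN ν) {s : ℝ} (hs : 0 < s) {y : ℝ}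
    (hy : y ∈ ν.coeff.support) : ∑ z ∈ ν.coeff.support, wtPair ν s (y, z) = ν.coeff y := by
  unfold wtPair
  rw [← Finset.mul_sum, ← integral_finsetSum _ fun z _ => (step_wtPair ν s y z).integrable]
  have : ∀ u, ∑ z ∈ ν.coeff.support,
      ν.coeff y * ν.coeff z * (ind s u y * ind s u z / fI ν s u) = ν.coeff y * ind s u y := by
    intro u
    have h1 : ∑ z ∈ ν.coeff.support,
        ν.coeff y * ν.coeff z * (ind s u y * ind s u z / fI ν s u) =
        ν.coeff y * ind s u y * (fI ν s u / fI ν s u) := by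
      conv_rhs => rw [mul_div_assoc', fI, ev, Finset.mul_sum, Finset.sum_div]
      refine Finset.sum_congr rfl fun z _ => ?_
      rw [fI, ev]
      ring
    rw [h1]
    by_cases h0 : ind s u y = 0
    · simp [h0]
    · have hpos : 0 < ν.coeff y * ind s u y :=
        mul_pos (lt_of_le_of_ne (hν y) (Finsupp.mem_support_iff.1 hy).symm)
          (lt_of_le_of_ne (ind_nonneg _ _ _) (Ne.symm h0))
      have hle : ν.coeff y * ind s u y ≤ fI ν s u :=
        Finset.single_le_sum (f := fun z => ν.coeff z * ind s u z)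
          (fun z _ => mul_nonneg (hν z) (ind_nonneg _ _ _)) hy
      rw [div_self (by linarith), mul_one]
  simp only [this]
  rw [integral_const_mul, integral_ind hs.le]
  field_simp

theorem wtPair_var (ν : FM) {s : ℝ} (hs : 0 < s) :
    ∑ y ∈ ν.coeff.support, ∑ z ∈ ν.coeff.support, wtPair ν s (y, z) * (y - z) ^ 2 =
      wv ν s * s ^ 2 := by
  have h1 : ∀ u, Vloc ν s u = ∑ y ∈ ν.coeff.support, ∑ z ∈ ν.coeff.support,
      ν.coeff y * ν.coeff z * (ind s u y * ind s u z / fI ν s u) * (y - z) ^ 2 := by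
    intro u
    rw [Vloc, ev, Finset.sum_div]
    refine Finset.sum_congr rfl fun y _ => ?_
    rw [ev, Finset.mul_sum, Finset.sum_div]
    refine Finset.sum_congr rfl fun z _ => ?_
    ring
  unfold wv
  simp only [h1]
  rw [integral_finsetSum _ fun y _ =>
    (Step.sum _ fun z _ => (step_wtPair ν s y z).mul_const _).integrable,
    Finset.mul_sum, Finset.sum_mul]
  refine Finset.sum_congr rfl fun y _ => ?_
  rw [integral_finsetSum _ fun z _ => ((step_wtPair ν s y z).mul_const _).integrable,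
    Finset.mul_sum, Finset.sum_mul]
  refine Finset.sum_congr rfl fun z _ => ?_
  rw [integral_mul_const, wtPair]
  field_simp

theorem pair_decomp {ν : FM} (hν : Prob ν) {s : ℝ} (hs : 0 < s) :
    ∃ (P : Finset (ℝ × ℝ)) (wt : ℝ × ℝ → ℝ), (∀ q ∈ P, 0 ≤ wt q) ∧ (∀ q ∈ P, |q.1 - q.2| ≤ s) ∧
      ν = ∑ q ∈ P, wt q • two q.1 q.2 ∧ ∑ q ∈ P, wt q = 1 ∧
      ∑ q ∈ P, wt q * (q.1 - q.2) ^ 2 = wv ν s * s ^ 2 := by
  classical
  have key : ∀ F : ℝ × ℝ → ℝ,
      ∑ q ∈ (ν.coeff.support ×ˢ ν.coeff.support).filter (fun q => |q.1 - q.2| ≤ s),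
        wtPair ν s q * F q =
      ∑ y ∈ ν.coeff.support, ∑ z ∈ ν.coeff.support, wtPair ν s (y, z) * F (y, z) := by
    intro F
    rw [Finset.sum_filter, Finset.sum_product]
    refine Finset.sum_congr rfl fun y _ => Finset.sum_congr rfl fun z _ => ?_
    split_ifs with h
    · rfl
    · rw [wtPair_far ν h, zero_mul]
  have m1 : ∀ g : ℝ → ℝ, ∑ y ∈ ν.coeff.support, ∑ z ∈ ν.coeff.support,
      wtPair ν s (y, z) * g y = ev ν g := by
    intro g
    refine Finset.sum_congr rfl fun y hy => ?_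
    rw [← Finset.sum_mul, wtPair_marg hν.nn hs hy]
  have m2 : ∀ g : ℝ → ℝ, ∑ y ∈ ν.coeff.support, ∑ z ∈ ν.coeff.support,
      wtPair ν s (y, z) * g z = ev ν g := by
    intro g
    rw [Finset.sum_comm, ← m1 g]
    refine Finset.sum_congr rfl fun y _ => Finset.sum_congr rfl fun z _ => ?_
    rw [wtPair_symm]
  refine ⟨(ν.coeff.support ×ˢ ν.coeff.support).filter (fun q => |q.1 - q.2| ≤ s), wtPair ν s,
    fun q _ => wtPair_nonneg hν.nn hs q, fun q hq => (Finset.mem_filter.1 hq).2, ?_, ?_, ?_⟩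
  · refine ext_ev fun g => ?_
    rw [ev_sum]
    simp only [ev_smul, ev_two]
    rw [key (fun q => (g q.1 + g q.2) / 2)]
    have : ∀ y z, wtPair ν s (y, z) * ((g y + g z) / 2) =
        (wtPair ν s (y, z) * g y + wtPair ν s (y, z) * g z) / 2 := fun y z => by ring
    simp only [this, ← Finset.sum_div, Finset.sum_add_distrib, m1, m2]
    ring
  · have := key (fun _ => 1)
    simp only [mul_one] at this
    rw [this]
    have h := m1 (fun _ => 1)
    simp only [mul_one] at h
    rw [h]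
    exact hν.tot_eq
  · rw [key (fun q => (q.1 - q.2) ^ 2)]
    exact wtPair_var ν hs

theorem min_le_c_pair {ν : FM} (hν : NN ν) {σ s δ : ℝ} (hσ : 0 < σ) (hs : 2 * σ ≤ s)
    (hδ : 0 < δ) (u c : ℝ) :
    min (fI ν σ u) (fI ν σ (u + σ)) ≤
      fI ν (2 * δ) (u + σ - δ) + ev ν (fun y => ind s u y * (c - y) ^ 2) / δ ^ 2 := by
  have hδ2 : 0 < δ ^ 2 := by positivity
  rw [← ev_div_const, fI.eq_1 ν (2 * δ), ← ev_fun_add]
  have hnn : ∀ y, 0 ≤ ind s u y * (c - y) ^ 2 / δ ^ 2 := fun y =>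
    div_nonneg (mul_nonneg (ind_nonneg _ _ _) (sq_nonneg _)) hδ2.le
  rcases le_or_gt c (u + σ) with hc | hc
  · refine (min_le_right _ _).trans (ev_mono hν fun y _ => ?_)
    by_cases h : u + σ < y ∧ y ≤ u + σ + σ
    · rw [ind_eq σ, if_pos h]
      by_cases h2 : y ≤ u + σ + δ
      · rw [ind_eq (2 * δ), if_pos ⟨by linarith [h.1], by linarith⟩]
        linarith [hnn y]
      · rw [ind_eq s, if_pos ⟨by linarith [h.1], by linarith [h.2]⟩, one_mul]
        have : 1 ≤ (c - y) ^ 2 / δ ^ 2 := by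
          rw [le_div_iff₀ hδ2]
          push Not at h2
          nlinarith
        linarith [ind_nonneg (2 * δ) (u + σ - δ) y]
    · rw [ind_eq σ, if_neg h]
      linarith [hnn y, ind_nonneg (2 * δ) (u + σ - δ) y]
  · refine (min_le_left _ _).trans (ev_mono hν fun y _ => ?_)
    by_cases h : u < y ∧ y ≤ u + σ
    · rw [ind_eq σ, if_pos h]
      by_cases h2 : u + σ - δ < y
      · rw [ind_eq (2 * δ), if_pos ⟨h2, by linarith [h.2]⟩]
        linarith [hnn y]
      · rw [ind_eq s, if_pos ⟨h.1, by linarith [h.2]⟩, one_mul]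
        have : 1 ≤ (c - y) ^ 2 / δ ^ 2 := by
          rw [le_div_iff₀ hδ2]
          push Not at h2
          nlinarith
        linarith [ind_nonneg (2 * δ) (u + σ - δ) y]
    · rw [ind_eq σ, if_neg h]
      linarith [hnn y, ind_nonneg (2 * δ) (u + σ - δ) y]

theorem min_le_pair {ν : FM} (hν : NN ν) {σ s δ : ℝ} (hσ : 0 < σ) (hs : 2 * σ ≤ s)
    (hδ : 0 < δ) (u : ℝ) :
    min (fI ν σ u) (fI ν σ (u + σ)) ≤ fI ν (2 * δ) (u + σ - δ) + Vloc ν s u / δ ^ 2 := by
  have hδ2 : 0 < δ ^ 2 := by positivity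
  rcases (fI_nonneg hν s u).eq_or_lt with h0 | hpos
  · have h1 : fI ν σ u ≤ fI ν s u := fI_mono hν le_rfl (by linarith)
    have h2 := min_le_left (fI ν σ u) (fI ν σ (u + σ))
    have h3 := fI_nonneg hν (2 * δ) (u + σ - δ)
    have h4 := div_nonneg (Vloc_nonneg_pair hν s u) hδ2.le
    linarith
  · have h1 : ev ν (fun c => ind s u c * min (fI ν σ u) (fI ν σ (u + σ))) ≤
        ev ν (fun c => ind s u c * fI ν (2 * δ) (u + σ - δ) +
          ev ν (fun y => ind s u c * ind s u y * (c - y) ^ 2) / δ ^ 2) := by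
      refine ev_mono hν fun c _ => ?_
      have h2 := mul_le_mul_of_nonneg_left (min_le_c_pair hν hσ hs hδ u c) (ind_nonneg s u c)
      have h3 : ev ν (fun y => ind s u c * ind s u y * (c - y) ^ 2) =
          ind s u c * ev ν (fun y => ind s u y * (c - y) ^ 2) := by
        rw [← ev_const_mul]
        exact ev_congr fun y _ => by ring
      rw [h3, mul_div_assoc, ← mul_add]
      exact h2
    rw [ev_fun_add, ev_mul_const, ev_mul_const, ev_div_const] at h1
    change fI ν s u * _ ≤ fI ν s u * _ + _ at h1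
    have h4 : ev ν (fun c => ev ν (fun y => ind s u c * ind s u y * (c - y) ^ 2)) =
        fI ν s u * Vloc ν s u := by
      rw [Vloc]
      field_simp
    rw [h4, mul_div_assoc, ← mul_add] at h1
    exact le_of_mul_le_mul_left h1 hpos

theorem Es_le_wv {ν : FM} (hν : Prob ν) {σ s τ lam : ℝ} (hσ : 0 < σ) (hs : 2 * σ ≤ s)
    (hτ : 0 < τ) (hl : 0 < lam) (hl1 : lam ≤ 1) :
    Es ν σ ≤ (τ + s ^ 3 * wv ν s / (2 * τ ^ 2 * σ ^ 3)) * log (1 / lam) + lam := by
  have hδ : 0 < τ * σ := mul_pos hτ hσ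
  have hlog : 0 ≤ log (1 / lam) := log_nonneg (by rw [le_div_iff₀ hl]; linarith)
  have hs0 : 0 < s := by linarith
  have i1 := (step_fI ν σ).integrable
  have i2 := ((step_fI ν σ).shift σ).integrable
  have i3 : Integrable (fun u => fI ν (2 * (τ * σ)) (u + σ - τ * σ)) := by
    have := ((step_fI ν (2 * (τ * σ))).shift (σ - τ * σ)).integrable
    simpa only [add_sub_assoc] using this
  have i4 := (step_Vloc ν s).integrable
  have i5 : Integrable (fun u => (fI ν (2 * (τ * σ)) (u + σ - τ * σ) +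
      Vloc ν s u / (τ * σ) ^ 2) * log (1 / lam)) := (i3.add (i4.div_const _)).mul_const _
  have i6 : Integrable (fun u => lam * (fI ν σ u + fI ν σ (u + σ))) := (i1.add i2).const_mul _
  have h1 : ∫ u, Psi (fI ν σ u) (fI ν σ (u + σ)) ≤
      ∫ u, ((fI ν (2 * (τ * σ)) (u + σ - τ * σ) + Vloc ν s u / (τ * σ) ^ 2) * log (1 / lam) +
        lam * (fI ν σ u + fI ν σ (u + σ))) := by
    refine integral_mono
      ((step_fI ν σ).comp₂ ((step_fI ν σ).shift σ) Psi Psi_zero).integrable
      (i5.add i6) fun u => ?_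
    have h2 := Psi_le_min (fI_nonneg hν.nn σ u) (fI_nonneg hν.nn σ (u + σ)) hl
    have h3 := mul_le_mul_of_nonneg_right (min_le_pair hν.nn hσ hs hδ u) hlog
    beta_reduce
    linarith
  have e1 : ∫ u, fI ν σ (u + σ) = σ := by
    rw [integral_add_right_eq_self (fun u => fI ν σ u) σ, integral_fI ν hσ.le, hν.tot_eq, mul_one]
  have e2 : ∫ u, fI ν (2 * (τ * σ)) (u + σ - τ * σ) = 2 * (τ * σ) := by
    simp only [add_sub_assoc]
    rw [integral_add_right_eq_self (fun u => fI ν (2 * (τ * σ)) u) (σ - τ * σ),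
      integral_fI ν (by positivity), hν.tot_eq, mul_one]
  have e3 : ∫ u, Vloc ν s u = s ^ 3 * wv ν s := by
    rw [wv]
    field_simp
  rw [integral_add i5 i6,
    integral_mul_const, integral_const_mul, integral_add i3 (i4.div_const _), integral_add i1 i2,
    integral_div, e1, e2, e3, integral_fI ν hσ.le, hν.tot_eq] at h1
  unfold Es
  calc _ ≤ 1 / (2 * σ) * ((2 * (τ * σ) + s ^ 3 * wv ν s / (τ * σ) ^ 2) * log (1 / lam) +
        lam * (σ * 1 + σ)) := mul_le_mul_of_nonneg_left h1 (by positivity)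
    _ = _ := by field_simp; ring

end Crest.Agent.R098
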