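import Crest.Agent.R098.Gain
import Crest.Agent.R098.Pair
import Crest.Agent.R098.KK

/-! Entropy gain in terms of the local variance; window form. -/

set_option autoImplicit false

open MeasureTheory Real Crest.AnalysisR

namespace Crest.Agent.R098

theorem gain_wv {ν W : FM} (hν : Prob ν) (hW : Prob W) {s σ σm θ : ℝ} (hs : 0 < s) (hθ : 0 < θ)
    (hθ1 : θ ≤ 1) (h4 : 4 * s ≤ θ * σ) (hm : σ ≤ σm) :
    θ / 16 * (s / σm) ^ 2 * wv ν s * (log 2 - Es W σ - θ) ≤ Es (ν * W) σ - Es W σ := by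
  have hσ : 0 < σ := by
    by_contra h
    nlinarith [mul_nonneg hθ.le (neg_nonneg.2 (not_lt.1 h))]
  have hw := wv_nonneg hν.nn hs
  set β := log 2 - Es W σ - θ with hβ
  rcases le_or_gt β 0 with hb | hb
  · have h1 := Es_mul_ge hν.nn hW.nn hσ
    rw [hν.tot_eq, one_mul] at h1
    have h2 : 0 ≤ θ / 16 * (s / σm) ^ 2 * wv ν s := by positivity
    nlinarith [mul_nonneg h2 (neg_nonneg.2 hb)]
  obtain ⟨P, wt, h1, h2, h3, h5, h6⟩ := pair_decomp hν hs
  have e : ν * W = ∑ q ∈ P, wt q • (two q.1 q.2 * W) := by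
    conv_lhs => rw [h3]
    rw [Finset.sum_mul]
    exact Finset.sum_congr rfl fun q _ => smul_mul_assoc _ _ _
  have h7 := Es_sum P (m := fun q => wt q • (two q.1 q.2 * W))
    (fun q hq => ((NN.two _ _).mul hW.nn).smul (h1 q hq)) hσ
  rw [← e] at h7
  have h8 : ∑ q ∈ P, wt q * (θ / 16 * ((q.1 - q.2) / σ) ^ 2 * β + Es W σ) ≤
      ∑ q ∈ P, Es (wt q • (two q.1 q.2 * W)) σ := Finset.sum_le_sum fun q hq => by
    rw [Es_smul]
    have := gain_two hW hσ hθ hθ1 (y := q.1) (z := q.2) (by linarith [h2 q hq])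
    exact mul_le_mul_of_nonneg_left (by linarith) (h1 q hq)
  have h9 : ∑ q ∈ P, wt q * (θ / 16 * ((q.1 - q.2) / σ) ^ 2 * β + Es W σ) =
      θ / 16 * (s / σ) ^ 2 * wv ν s * β + Es W σ := by
    have : ∀ q : ℝ × ℝ, wt q * (θ / 16 * ((q.1 - q.2) / σ) ^ 2 * β + Es W σ) =
        θ / 16 / σ ^ 2 * β * (wt q * (q.1 - q.2) ^ 2) + Es W σ * wt q := fun q => by
      rw [div_pow]; ring
    simp only [this]
    rw [Finset.sum_add_distrib, ← Finset.mul_sum, ← Finset.mul_sum, h5, h6, div_pow]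
    ring
  have h10 : (s / σm) ^ 2 ≤ (s / σ) ^ 2 := by
    have : 0 < σm := hσ.trans_le hm
    gcongr
  have h11 : θ / 16 * (s / σm) ^ 2 * wv ν s * β ≤ θ / 16 * (s / σ) ^ 2 * wv ν s * β := by
    gcongr
  linarith

theorem gain_window {ν W : FM} (hν : Prob ν) (hW : Prob W) {s x C θ : ℝ} (hs : 0 < s)
    (hθ : 0 < θ) (hθ1 : θ ≤ 1) (hC : 0 ≤ C) (h4 : 4 * s ≤ θ * exp (-(x + C))) :
    θ / 16 * (s * exp x) ^ 2 * wv ν s * (C * log 2 - (Ks W (x + C) - Ks W x) - θ * C) ≤
      (Ks (ν * W) (x + C) - Ks W (x + C)) - (Ks (ν * W) x - Ks W x) := by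
  have h1 := Ks_sub (hν.mul hW) x (x + C)
  have h2 := Ks_sub hW x (x + C)
  have i1 := intervalIntegrable_Es (hν.mul hW).nn x (x + C)
  have i2 := intervalIntegrable_Es hW.nn x (x + C)
  have i3 : IntervalIntegrable (fun _ : ℝ => log 2 - θ) volume x (x + C) :=
    intervalIntegrable_const
  have h3 := intervalIntegral.integral_mono_on (μ := volume) (a := x) (b := x + C) (by linarith)
    (f := fun y => θ / 16 * (s * exp x) ^ 2 * wv ν s * ((log 2 - θ) - Es W (exp (-y))))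
    (g := fun y => Es (ν * W) (exp (-y)) - Es W (exp (-y)))
    ((i3.sub i2).const_mul _) (i1.sub i2) fun y hy => by
      have := gain_wv hν hW (σ := exp (-y)) (σm := exp (-x)) hs hθ hθ1
        (h4.trans (mul_le_mul_of_nonneg_left (exp_le_exp.2 (by linarith [hy.2])) hθ.le))
        (exp_le_exp.2 (by linarith [hy.1]))
      rw [exp_neg x, div_inv_eq_mul] at this
      calc _ = θ / 16 * (s * exp x) ^ 2 * wv ν s * (log 2 - Es W (exp (-y)) - θ) := by ring
        _ ≤ _ := this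
  rw [intervalIntegral.integral_const_mul, intervalIntegral.integral_sub i3 i2,
    intervalIntegral.integral_sub i1 i2, intervalIntegral.integral_const, ← h1, ← h2] at h3
  calc _ = θ / 16 * (s * exp x) ^ 2 * wv ν s *
        ((x + C - x) • (log 2 - θ) - (Ks W (x + C) - Ks W x)) := by
        rw [smul_eq_mul]; ring
    _ ≤ _ := h3
    _ = _ := by ring

end Crest.Agent.R098
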