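import Crest.Agent.R098.CoreA
import Crest.Agent.R098.GainWin
import Crest.Agent.R098.Count

/-! Bound for the total local variance at small scales. -/

set_option autoImplicit false

open MeasureTheory Real Crest.AnalysisR

namespace Crest.Agent.R098

variable {ι : Type*} [Fintype ι] {e : ι → FM} {r p : ι → ℝ}

theorem step_corev (he : ∀ a, Prob (e a)) (hg : Good r p) {η C θ α x : ℝ} (hC0 : 0 ≤ C)
    (hC : ∀ a, -log |r a| ≤ C) (hθ : 0 < θ) (hθ1 : θ ≤ 1) (hθC : θ * C ≤ η / 2) (n m : ℕ)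
    (hα : AA e r p m x ≤ α) (hη : α + η ≤ lyapunovExp r p * log 2) :
    θ / 16 * exp (-(C + log (4 / θ))) ^ 2 * (η / 2) *
      Ex p n (fun l => wv (nuG e r l) (exp (-(SS r l + x + (C + log (4 / θ)))))) ≤
      TT e r p n (m + 1) (x + C) - TT e r p n (m + 1) x := by
  have hp : ∀ i, 0 ≤ p i := fun i => (hg.hp i).le
  set d := C + log (4 / θ) with hd
  unfold TT
  rw [← Ex_sub, ← Ex_const_mul]
  refine Ex_mono hp fun l _ => ?_
  rw [← Ex_sub]
  set s := exp (-(SS r l + x + d)) with hs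
  have hs0 : 0 < s := exp_pos _
  have hw : 0 ≤ wv (nuG e r l) s := wv_nonneg (nuG_prob he r l).nn hs0
  have hR : RR r l ≠ 0 := RR_ne_zero (fun i => (hg.hr i).1) l
  have h4 : 4 * s ≤ θ * exp (-(x + SS r l + C)) := by
    have : s = exp (-(x + SS r l + C)) * exp (-log (4 / θ)) := by
      rw [hs, hd, ← exp_add]
      congr 1
      ring
    rw [this, exp_neg (log _), exp_log (by positivity)]
    apply le_of_eq
    field_simp
  have hse : s * exp (x + SS r l) = exp (-d) := by
    rw [hs, ← exp_add]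
    congr 1
    ring
  set A := θ / 16 * exp (-d) ^ 2 * wv (nuG e r l) s with hA
  have hA0 : 0 ≤ A := by positivity
  have key : ∀ l' : List ι,
      A * (C * log 2 - θ * C) - A * (Ks (nuG e r l') (x + C) - Ks (nuG e r l') x) ≤
      (Ks (nuG e r (l ++ l')) (x + C + SS r l) - Ks (nuG e r l') (x + C)) -
        (Ks (nuG e r (l ++ l')) (x + SS r l) - Ks (nuG e r l') x) := by
    intro l'
    have h := gain_window (nuG_prob he r l) ((nuG_prob he r l').scale (RR r l)) hs0 hθ hθ1 hC0 h4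
    have e1 : Ks (scale (RR r l) (nuG e r l')) (x + SS r l + C) = Ks (nuG e r l') (x + C) := by
      rw [← Ks_scale (nuG e r l') hR (x + C)]
      congr 1
      unfold SS
      ring
    have e2 : Ks (scale (RR r l) (nuG e r l')) (x + SS r l) = Ks (nuG e r l') x := by
      rw [← Ks_scale (nuG e r l') hR x]
      congr 1
    rw [e1, e2, hse, ← nuG_append, ← hA] at h
    rw [show x + C + SS r l = x + SS r l + C by ring]
    linarith
  refine le_trans ?_ (Ex_mono hp fun l' _ => key l')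
  rw [Ex_sub, Ex_const hg.hp1, Ex_const_mul]
  have hb := beta_bound he hg hC m x
  have h5 : η / 2 ≤ C * log 2 - θ * C -
      Ex p (m + 1) (fun l => Ks (nuG e r l) (x + C) - Ks (nuG e r l) x) := by linarith
  have h6 := mul_le_mul_of_nonneg_left h5 hA0
  calc θ / 16 * exp (-d) ^ 2 * (η / 2) * wv (nuG e r l) s = A * (η / 2) := by rw [hA]; ring
    _ ≤ _ := h6
    _ = _ := by ring

theorem var_bound (he : ∀ a, Prob (e a)) (hg : Good r p) {η : ℝ} (hη : 0 < η) :
    ∃ d c : ℝ, 0 ≤ c ∧ ∀ (u₀ a₀ α : ℝ) (n J : ℕ), (∀ m, a₀ ≤ AA e r p m u₀) →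
      (∀ x, ∃ m, AA e r p m x ≤ α) → α + η ≤ lyapunovExp r p * log 2 →
      ∑ j ∈ Finset.range J,
        Ex p n (fun l => wv (nuG e r l) (exp (-(SS r l + u₀ + d + j * log 2)))) ≤
          c * n * (α - a₀) := by
  have hL : 0 < log 2 := log_pos one_lt_two
  obtain ⟨B, hB⟩ := (Set.finite_range fun a => -log |r a|).bddAbove
  obtain ⟨c0, hc0⟩ := exists_nat_gt (|B| / log 2)
  have hc0' : |B| < c0 * log 2 := by rwa [div_lt_iff₀ hL] at hc0
  set C : ℝ := c0 * log 2 with hCdef
  have hCpos : 0 < C := (abs_nonneg B).trans_lt hc0'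
  have hC : ∀ a, -log |r a| ≤ C := fun a =>
    (hB ⟨a, rfl⟩).trans ((le_abs_self B).trans hc0'.le)
  set θ := min 1 (η / (2 * C)) with hθdef
  have hθ : 0 < θ := lt_min one_pos (by positivity)
  have hθ1 : θ ≤ 1 := min_le_left _ _
  have hθC : θ * C ≤ η / 2 := by
    have : θ ≤ η / (2 * C) := min_le_right _ _
    rw [le_div_iff₀ (by positivity)] at this
    linarith
  set d := C + log (4 / θ) with hd
  set κ := θ / 16 * exp (-d) ^ 2 * (η / 2) with hκ
  have hκ0 : 0 < κ := by positivity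
  refine ⟨d, c0 / κ, by positivity, fun u₀ a₀ α n J hlow hup hχ => ?_⟩
  obtain ⟨m, hm⟩ := hup (u₀ + ((J + c0 : ℕ) : ℝ) * log 2 + n * C)
  set Γ : ℕ → ℝ := fun j => TT e r p n (m + 1) (u₀ + j * log 2) with hΓ
  have hmono : Monotone Γ := fun j j' h => TT_mono he hg n (m + 1) (by gcongr)
  have h1 : ∀ j ∈ Finset.range J,
      κ * Ex p n (fun l => wv (nuG e r l) (exp (-(SS r l + u₀ + d + j * log 2)))) ≤
        Γ (j + c0) - Γ j := by
    intro j hj
    have hj' : (j : ℝ) ≤ ((J + c0 : ℕ) : ℝ) := by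
      have := Finset.mem_range.1 hj
      exact_mod_cast (by omega : j ≤ J + c0)
    have hα : AA e r p m (u₀ + j * log 2) ≤ α := by
      refine le_trans (AA_mono he hg m ?_) hm
      have : (j : ℝ) * log 2 ≤ ((J + c0 : ℕ) : ℝ) * log 2 := by gcongr
      have : 0 ≤ n * C := by positivity
      linarith
    have h := step_corev he hg hCpos.le hC hθ hθ1 hθC n m hα hχ
    simp only [hΓ]
    rw [show u₀ + ((j + c0 : ℕ) : ℝ) * log 2 = u₀ + j * log 2 + C by rw [hCdef]; push_cast; ring]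
    refine le_trans (le_of_eq ?_) h
    congr 2
    funext l
    congr 3
    ring
  have h2 := (Finset.sum_le_sum h1).trans (tele Γ hmono c0 J)
  have h3 : Γ (J + c0) ≤ n * α := by
    refine (TT_upper he hg hC n (m + 1) _).trans ?_
    exact mul_le_mul_of_nonneg_left ((AA_anti he hg (Nat.le_succ m) _).trans hm) (Nat.cast_nonneg n)
  have h4 : n * a₀ ≤ Γ 0 := by
    simp only [hΓ, Nat.cast_zero, zero_mul, add_zero]
    exact TT_lower he hg hlow n (m + 1)
  rw [← Finset.mul_sum] at h2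
  have h5 : (c0 : ℝ) * (Γ (J + c0) - Γ 0) ≤ c0 * (n * (α - a₀)) :=
    mul_le_mul_of_nonneg_left (by linarith) (Nat.cast_nonneg c0)
  rw [show (c0 : ℝ) / κ * n * (α - a₀) = c0 * (n * (α - a₀)) / κ by ring, le_div_iff₀ hκ0]
  linarith

end Crest.Agent.R098
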