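import Crest.Prelude.Def_SelfSimilar

/-!
Definitions for row 98 (dimension of self-similar measures).

Finitely supported signed measures on the line are elements of `FM = AddMonoidAlgebra ℝ ℝ`;
the product is convolution, `AddMonoidAlgebra.single y c` is `c • δ_y`, and `1 = δ_0`.
-/

set_option autoImplicit false

open MeasureTheory Real

namespace Crest.Agent.R098

/-- finitely supported signed measures on the line (product = convolution) -/
abbrev FM := AddMonoidAlgebra ℝ ℝ

/-- `ev m g = ∑_y m(y) g(y)` -/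
noncomputable def ev (m : FM) (g : ℝ → ℝ) : ℝ := ∑ y ∈ m.coeff.support, m.coeff y * g y

/-- nonnegative measure -/
def NN (m : FM) : Prop := ∀ y, 0 ≤ m.coeff y

/-- total mass -/
noncomputable def tot (m : FM) : ℝ := ev m (fun _ => 1)

/-- probability measure -/
structure Prob (m : FM) : Prop where
  nn : NN m
  tot_eq : tot m = 1

/-- push-forward under `y ↦ ρ * y`, an algebra homomorphism -/
noncomputable def scale (ρ : ℝ) : FM →ₐ[ℝ] FM :=
  AddMonoidAlgebra.mapDomainAlgHom ℝ ℝ (AddMonoidHom.mulLeft ρ)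

/-- the two-point measure `(δ_y + δ_z)/2` -/
noncomputable def two (y z : ℝ) : FM :=
  AddMonoidAlgebra.single y (1 / 2) + AddMonoidAlgebra.single z (1 / 2)

/-- indicator of the window `(u, u + s]` -/
noncomputable def ind (s u y : ℝ) : ℝ := (Set.Ioc u (u + s)).indicator 1 y

/-- mass of the window `(u, u + s]` -/
noncomputable def fI (m : FM) (s u : ℝ) : ℝ := ev m (ind s u)

/-- `Ψ(a,b) = φ(a) + φ(b) - φ(a+b)` with `φ(x) = -x log x` -/
noncomputable def Psi (a b : ℝ) : ℝ := negMulLog a + negMulLog b - negMulLog (a + b)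

/-- average entropy at scale `s` -/
noncomputable def Hs (m : FM) (s : ℝ) : ℝ := (1 / s) * ∫ u, negMulLog (fI m s u)

/-- average entropy between the scales `s` and `2 s` -/
noncomputable def Es (m : FM) (s : ℝ) : ℝ :=
  (1 / (2 * s)) * ∫ u, Psi (fI m s u) (fI m s (u + s))

/-- `Hs` integrated over the logarithmic window of scales `[e^{-x}, 2 e^{-x}]` -/
noncomputable def Ks (m : FM) (x : ℝ) : ℝ := ∫ y in (x - log 2)..x, Hs m (exp (-y))

/-- Shannon entropy -/
noncomputable def Sh (m : FM) : ℝ := ∑ y ∈ m.coeff.support, negMulLog (m.coeff y)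

/-- `∑_{y,z in (u,u+s]} m(y) m(z) (y-z)^2 / m((u,u+s])` -/
noncomputable def Vloc (m : FM) (s u : ℝ) : ℝ :=
  ev m (fun y => ev m (fun z => ind s u y * ind s u z * (y - z) ^ 2)) / fI m s u

/-- normalised local variance at scale `s` -/
noncomputable def wv (m : FM) (s : ℝ) : ℝ := (1 / s ^ 3) * ∫ u, Vloc m s u

/-- mass of the closed ball -/
noncomputable def bm (m : FM) (y ρ : ℝ) : ℝ := ev m ((Metric.closedBall y ρ).indicator 1)

/-- `-∑_y m(y) log m(closedBall y ρ)` -/
noncomputable def Qb (m : FM) (ρ : ℝ) : ℝ := ev m (fun y => -log (bm m y ρ))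

/-- expectation of `F` over random words of length `n` with independent letters of law `p` -/
noncomputable def Ex {ι : Type*} [Fintype ι] (p : ι → ℝ) : ℕ → (List ι → ℝ) → ℝ
  | 0, F => F []
  | n + 1, F => ∑ a, p a * Ex p n (fun l => F (a :: l))

/-- `ν [] = δ_0`, `ν (a :: l) = e a * scale (r a) (ν l)` -/
noncomputable def nuG {ι : Type*} (e : ι → FM) (r : ι → ℝ) : List ι → FM
  | [] => 1
  | a :: l => e a * scale (r a) (nuG e r l)

/-- ratio of a word -/
noncomputable def RR {ι : Type*} (r : ι → ℝ) (l : List ι) : ℝ := (l.map r).prod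

/-- `-log |ratio|` of a word -/
noncomputable def SS {ι : Type*} (r : ι → ℝ) (l : List ι) : ℝ := -log |RR r l|

/-- translation part of a word -/
noncomputable def YY {ι : Type*} (r t : ι → ℝ) (l : List ι) : ℝ :=
  Crest.AnalysisR.affineWordMap r t l 0

/-- total weight of the letters with ratio `ρ` -/
noncomputable def Pr {ι : Type*} [Fintype ι] (r p : ι → ℝ) (ρ : ℝ) : ℝ :=
  ∑ i, if r i = ρ then p i else 0

/-- law of the translation of a random letter conditioned on having the ratio of `a` -/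
noncomputable def eta {ι : Type*} [Fintype ι] (r t p : ι → ℝ) (a : ι) : FM :=
  ∑ i, if r i = r a then AddMonoidAlgebra.single (t i) (p i / Pr r p (r a)) else 0

/-- standing hypotheses on the ratios and weights -/
structure Good {ι : Type*} [Fintype ι] (r p : ι → ℝ) : Prop where
  hr : ∀ i, r i ≠ 0 ∧ |r i| < 1
  hp : ∀ i, 0 < p i
  hp1 : ∑ i, p i = 1

/-- ratios of the `k`-th iterate -/
noncomputable def itR {ι : Type*} (r : ι → ℝ) (k : ℕ) (w : Fin k → ι) : ℝ := RR r (List.ofFn w)

/-- translations of the `k`-th iterate -/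
noncomputable def itT {ι : Type*} (r t : ι → ℝ) (k : ℕ) (w : Fin k → ι) : ℝ :=
  YY r t (List.ofFn w)

/-- weights of the `k`-th iterate -/
noncomputable def itP {ι : Type*} (p : ι → ℝ) (k : ℕ) (w : Fin k → ι) : ℝ := ∏ j, p (w j)

/-- one-step entropy gain -/
noncomputable def gainA {ι : Type*} (e : ι → FM) (r : ι → ℝ) (a : ι) (l : List ι) (x : ℝ) : ℝ :=
  Ks (nuG e r (a :: l)) (x - log |r a|) - Ks (nuG e r l) x

/-- averaged one-step entropy gain -/
noncomputable def AA {ι : Type*} [Fintype ι] (e : ι → FM) (r p : ι → ℝ) (m : ℕ) (x : ℝ) : ℝ :=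
  ∑ a, p a * Ex p m (fun l => gainA e r a l x)

/-- averaged `n`-step entropy gain -/
noncomputable def TT {ι : Type*} [Fintype ι] (e : ι → FM) (r p : ι → ℝ) (n m : ℕ) (x : ℝ) : ℝ :=
  Ex p n (fun l => Ex p m (fun l' => Ks (nuG e r (l ++ l')) (x + SS r l) - Ks (nuG e r l') x))

end Crest.Agent.R098
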