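import Crest.Agent.R098.Ev
import Crest.Agent.R098.Psi

/-! Basic properties of `Es`. -/

set_option autoImplicit false

open MeasureTheory Real Crest.AnalysisR

namespace Crest.Agent.R098

theorem step_Psi_ente (m : FM) (s : ℝ) : Step (fun u => Psi (fI m s u) (fI m s (u + s))) :=
  (step_fI m s).comp₂ ((step_fI m s).shift s) Psi (by simp [Psi])

theorem step_nml_ente (m : FM) (s : ℝ) : Step (fun u => negMulLog (fI m s u)) :=
  (step_fI m s).comp negMulLog negMulLog_zero

theorem Es_eq (m : FM) {s : ℝ} (hs : 0 < s) : Es m s = Hs m s - Hs m (2 * s) := by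
  unfold Es Hs
  have h1 := (step_nml_ente m s).integrable
  have h2 := ((step_nml_ente m s).shift s).integrable
  have h3 := (step_nml_ente m (2 * s)).integrable
  have e : ∀ u, Psi (fI m s u) (fI m s (u + s)) =
      negMulLog (fI m s u) + negMulLog (fI m s (u + s)) - negMulLog (fI m (2 * s) u) := by
    intro u
    rw [two_mul, fI_split m hs.le hs.le]
    rfl
  simp only [e]
  rw [integral_sub ((step_nml_ente m s).add ((step_nml_ente m s).shift s)).integrable h3,
    integral_add h1 h2,
    integral_add_right_eq_self (fun u => negMulLog (fI m s u)) s]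
  field_simp
  ring

theorem Es_nonneg {m : FM} (hm : NN m) {s : ℝ} (hs : 0 < s) : 0 ≤ Es m s := 
  mul_nonneg (by positivity)
    (integral_nonneg fun u => Psi_nonneg (fI_nonneg hm s u) (fI_nonneg hm s (u + s)))

theorem Es_le {m : FM} (hm : NN m) {s : ℝ} (hs : 0 < s) : Es m s ≤ log 2 * tot m := by
  unfold Es
  have h1 := (step_fI m s).integrable
  have h2 := ((step_fI m s).shift s).integrable
  have h : ∫ u, Psi (fI m s u) (fI m s (u + s)) ≤ ∫ u, log 2 * (fI m s u + fI m s (u + s)) := by
    refine integral_mono (step_Psi_ente m s).integrable ((h1.add h2).const_mul _) fun u => ?_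
    have := Psi_le (fI_nonneg hm s u) (fI_nonneg hm s (u + s))
    simp only
    linarith
  rw [integral_const_mul, integral_add h1 h2, integral_add_right_eq_self (fun u => fI m s u) s,
    integral_fI m hs.le] at h
  calc _ ≤ 1 / (2 * s) * (log 2 * (s * tot m + s * tot m)) := by gcongr
    _ = _ := by field_simp; ring

theorem Es_smul (c : ℝ) (m : FM) (s : ℝ) : Es (c • m) s = c * Es m s := by
  unfold Es
  simp only [fI_smul, Psi_smul, integral_const_mul]
  ring

theorem Es_add {m m' : FM} (hm : NN m) (hm' : NN m') {s : ℝ} (hs : 0 < s) :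
    Es m s + Es m' s ≤ Es (m + m') s := by
  unfold Es
  rw [← mul_add, ← integral_add (step_Psi_ente m s).integrable (step_Psi_ente m' s).integrable]
  refine mul_le_mul_of_nonneg_left ?_ (by positivity)
  refine integral_mono ((step_Psi_ente m s).integrable.add (step_Psi_ente m' s).integrable)
    (step_Psi_ente (m + m') s).integrable fun u => ?_
  simp only [fI_add]
  exact Psi_add (fI_nonneg hm _ _) (fI_nonneg hm _ _) (fI_nonneg hm' _ _) (fI_nonneg hm' _ _)

theorem Es_sum {α : Type*} (S : Finset α) {m : α → FM} (hm : ∀ a ∈ S, NN (m a)) {s : ℝ}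
    (hs : 0 < s) : ∑ a ∈ S, Es (m a) s ≤ Es (∑ a ∈ S, m a) s := by
  classical
  induction S using Finset.induction_on with
  | empty => simpa using Es_nonneg NN.zero hs
  | insert a S ha ih =>
    rw [Finset.sum_insert ha, Finset.sum_insert ha]
    have h1 : ∀ b ∈ S, NN (m b) := fun b hb => hm b (Finset.mem_insert_of_mem hb)
    exact (add_le_add le_rfl (ih h1)).trans
      (Es_add (hm a (Finset.mem_insert_self _ _)) (NN.sum h1) hs)

theorem Es_single_mul (y : ℝ) (W : FM) (s : ℝ) :
    Es (AddMonoidAlgebra.single y 1 * W) s = Es W s := by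
  unfold Es
  simp only [fI_mul, ev_single, one_mul]
  rw [← integral_sub_right_eq_self (fun u => Psi (fI W s u) (fI W s (u + s))) y]
  simp only [add_sub_right_comm]

theorem Es_mul_ge {ν W : FM} (hν : NN ν) (hW : NN W) {s : ℝ} (hs : 0 < s) :
    tot ν * Es W s ≤ Es (ν * W) s := by
  conv_rhs => rw [eq_sum_single ν, Finset.sum_mul]
  refine le_trans (le_of_eq ?_) (Es_sum _ (fun y _ => ?_) hs)
  · rw [tot_eq_sum, Finset.sum_mul]
    refine Finset.sum_congr rfl fun y _ => ?_
    rw [smul_mul_assoc, Es_smul, Es_single_mul]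
  · exact ((NN.single y zero_le_one).smul (hν y)).mul hW

theorem Es_two_ente {y z σ : ℝ} (h0 : y < z) (h1 : z - y ≤ σ) (h2 : σ ≤ 2 * (z - y)) :
    log 2 / 4 ≤ Es (two y z) σ := by
  have hσ : 0 < σ := by linarith
  have hl : 0 < log 2 := log_pos one_lt_two
  have hP : Psi (1 / 2) (1 / 2) = log 2 := by
    rw [Psi_self]; ring
  have h : ∫ u, (Set.Ico (y - σ) (z - σ)).indicator (fun _ => log 2) u ≤
      ∫ u, Psi (fI (two y z) σ u) (fI (two y z) σ (u + σ)) := by
    refine integral_mono ((integrable_indicator_iff measurableSet_Ico).2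
      (integrableOn_const (by simp))) (step_Psi_ente _ σ).integrable fun u => ?_
    by_cases hu : u ∈ Set.Ico (y - σ) (z - σ)
    · obtain ⟨a, b⟩ := hu
      rw [Set.indicator_of_mem (show u ∈ Set.Ico (y - σ) (z - σ) from ⟨a, b⟩)]
      have e1 : fI (two y z) σ u = 1 / 2 := by
        rw [fI, ev_two, ind_eq, ind_eq, if_pos ⟨by linarith, by linarith⟩,
          if_neg (fun h => by linarith [h.2])]
        norm_num
      have e2 : fI (two y z) σ (u + σ) = 1 / 2 := by
        rw [fI, ev_two, ind_eq, ind_eq, if_neg (fun h => by linarith [h.1]),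
          if_pos ⟨by linarith, by linarith⟩]
        norm_num
      simp only [e1, e2, hP, le_refl]
    · rw [Set.indicator_of_notMem hu]
      exact Psi_nonneg (fI_nonneg (NN.two y z) _ _) (fI_nonneg (NN.two y z) _ _)
  rw [integral_indicator measurableSet_Ico, setIntegral_const, smul_eq_mul,
    Real.volume_real_Ico_of_le (by linarith)] at h
  unfold Es
  calc log 2 / 4 ≤ 1 / (2 * σ) * ((z - σ - (y - σ)) * log 2) := by
        rw [one_div, inv_mul_eq_div, div_le_div_iff₀ (by norm_num) (by positivity)]
        nlinarith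
    _ ≤ _ := by gcongr

/-- two-point measure at scales comparable with the gap -/
theorem Es_two {y z σ : ℝ} (h0 : 0 < |y - z|) (h1 : |y - z| ≤ σ) (h2 : σ ≤ 2 * |y - z|) :
    log 2 / 4 ≤ Es (two y z) σ := by
  rcases lt_trichotomy y z with h | h | h
  · rw [abs_sub_comm, abs_of_pos (sub_pos.2 h)] at h1 h2
    exact Es_two_ente h h1 h2
  · simp [h] at h0
  · rw [abs_of_pos (sub_pos.2 h)] at h1 h2
    rw [show two y z = two z y from add_comm _ _]
    exact Es_two_ente h h1 h2

end Crest.Agent.R098
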