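import Crest.Agent.R098.Defs

/-! Basic API: `ev`, `NN`, `tot`, `Prob`, `scale`, `ind`, `fI`, step functions. -/

set_option autoImplicit false

open MeasureTheory Real

namespace Crest.Agent.R098

/-! ### `ev` -/

theorem ev_eq_sum {m : FM} {S : Finset ℝ} (hS : m.coeff.support ⊆ S) (g : ℝ → ℝ) :
    ev m g = ∑ y ∈ S, m.coeff y * g y := by
  unfold ev
  refine Finset.sum_subset hS fun y _ hy => ?_
  rw [Finsupp.notMem_support_iff.1 hy, zero_mul]

theorem ev_eq_finsupp_sum (m : FM) (g : ℝ → ℝ) :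
    ev m g = m.coeff.sum fun y c => c * g y := rfl

@[simp] theorem ev_zero (g : ℝ → ℝ) : ev 0 g = 0 := by simp [ev]

theorem ev_add (m m' : FM) (g : ℝ → ℝ) : ev (m + m') g = ev m g + ev m' g := by
  classical
  rw [ev_eq_sum (S := m.coeff.support ∪ m'.coeff.support) (m := m + m')
      (by rw [AddMonoidAlgebra.coeff_add]; exact Finsupp.support_add),
    ev_eq_sum (S := m.coeff.support ∪ m'.coeff.support) (m := m) Finset.subset_union_left,
    ev_eq_sum (S := m.coeff.support ∪ m'.coeff.support) (m := m') Finset.subset_union_right,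
    ← Finset.sum_add_distrib]
  refine Finset.sum_congr rfl fun y _ => ?_
  simp [add_mul]

theorem ev_smul (c : ℝ) (m : FM) (g : ℝ → ℝ) : ev (c • m) g = c * ev m g := by
  rw [ev_eq_sum (S := m.coeff.support) (m := c • m)
      (by rw [AddMonoidAlgebra.coeff_smul]; exact Finsupp.support_smul), ev, Finset.mul_sum]
  refine Finset.sum_congr rfl fun y _ => ?_
  simp [mul_assoc]

theorem ev_sub (m m' : FM) (g : ℝ → ℝ) : ev (m - m') g = ev m g - ev m' g := by
  have := ev_add (m - m') m' g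
  rw [sub_add_cancel] at this
  linarith

theorem ev_sum {α : Type*} (s : Finset α) (m : α → FM) (g : ℝ → ℝ) :
    ev (∑ a ∈ s, m a) g = ∑ a ∈ s, ev (m a) g := by
  classical
  induction s using Finset.induction_on with
  | empty => simp
  | insert a s ha ih => rw [Finset.sum_insert ha, Finset.sum_insert ha, ev_add, ih]

@[simp] theorem ev_single (y c : ℝ) (g : ℝ → ℝ) :
    ev (AddMonoidAlgebra.single y c) g = c * g y := by
  rw [ev_eq_sum (S := {y})
    (by rw [AddMonoidAlgebra.coeff_single]; exact Finsupp.support_single_subset)]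
  simp

@[simp] theorem ev_one (g : ℝ → ℝ) : ev 1 g = g 0 := by
  rw [AddMonoidAlgebra.one_def, ev_single, one_mul]

theorem ev_two (y z : ℝ) (g : ℝ → ℝ) : ev (two y z) g = (g y + g z) / 2 := by
  rw [two, ev_add, ev_single, ev_single]; ring

theorem ev_congr {m : FM} {g h : ℝ → ℝ} (H : ∀ y ∈ m.coeff.support, g y = h y) :
    ev m g = ev m h :=
  Finset.sum_congr rfl fun y hy => by rw [H y hy]

@[simp] theorem ev_fun_zero (m : FM) : ev m (fun _ => 0) = 0 := by simp [ev]

theorem ev_fun_add (m : FM) (g h : ℝ → ℝ) :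
    ev m (fun y => g y + h y) = ev m g + ev m h := by
  simp [ev, mul_add, Finset.sum_add_distrib]

theorem ev_fun_sub (m : FM) (g h : ℝ → ℝ) :
    ev m (fun y => g y - h y) = ev m g - ev m h := by
  simp [ev, mul_sub, Finset.sum_sub_distrib]

theorem ev_fun_neg (m : FM) (g : ℝ → ℝ) : ev m (fun y => -g y) = -ev m g := by
  simp [ev]

theorem ev_const_mul (m : FM) (c : ℝ) (g : ℝ → ℝ) :
    ev m (fun y => c * g y) = c * ev m g := by
  simp only [ev, Finset.mul_sum]
  exact Finset.sum_congr rfl fun y _ => by ring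

theorem ev_mul_const (m : FM) (c : ℝ) (g : ℝ → ℝ) :
    ev m (fun y => g y * c) = ev m g * c := by
  simp only [ev, Finset.sum_mul]
  exact Finset.sum_congr rfl fun y _ => by ring

theorem ev_div_const (m : FM) (c : ℝ) (g : ℝ → ℝ) :
    ev m (fun y => g y / c) = ev m g / c := by
  simp only [div_eq_mul_inv, ev_mul_const]

theorem ev_const (m : FM) (c : ℝ) : ev m (fun _ => c) = tot m * c := by
  rw [tot, ← ev_mul_const]; simp

theorem ev_fun_sum {α : Type*} (m : FM) (s : Finset α) (g : α → ℝ → ℝ) :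
    ev m (fun y => ∑ a ∈ s, g a y) = ∑ a ∈ s, ev m (g a) := by
  simp only [ev, Finset.mul_sum]
  exact Finset.sum_comm

theorem ev_comm (m m' : FM) (g : ℝ → ℝ → ℝ) :
    ev m (fun y => ev m' (fun z => g y z)) = ev m' (fun z => ev m (fun y => g y z)) := by
  simp only [ev, Finset.mul_sum]
  rw [Finset.sum_comm]
  exact Finset.sum_congr rfl fun z _ => Finset.sum_congr rfl fun y _ => by ring

theorem ev_mono {m : FM} (hm : NN m) {g h : ℝ → ℝ} (H : ∀ y ∈ m.coeff.support, g y ≤ h y) :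
    ev m g ≤ ev m h :=
  Finset.sum_le_sum fun y hy => mul_le_mul_of_nonneg_left (H y hy) (hm y)

theorem ev_nonneg {m : FM} (hm : NN m) {g : ℝ → ℝ} (H : ∀ y ∈ m.coeff.support, 0 ≤ g y) :
    0 ≤ ev m g :=
  Finset.sum_nonneg fun y hy => mul_nonneg (hm y) (H y hy)

theorem eq_sum_single (m : FM) :
    m = ∑ y ∈ m.coeff.support, m.coeff y • AddMonoidAlgebra.single y (1 : ℝ) := by
  conv_lhs => rw [← AddMonoidAlgebra.sum_coeff_single m]
  rw [Finsupp.sum]
  refine Finset.sum_congr rfl fun y _ => ?_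
  rw [AddMonoidAlgebra.smul_single, smul_eq_mul, mul_one]

theorem ev_mul (m m' : FM) (g : ℝ → ℝ) :
    ev (m * m') g = ev m (fun y => ev m' (fun z => g (y + z))) := by
  conv_lhs => rw [eq_sum_single m, eq_sum_single m', Finset.sum_mul_sum]
  rw [ev_sum]
  unfold ev
  refine Finset.sum_congr rfl fun y _ => ?_
  change ev _ g = _
  rw [ev_sum, Finset.mul_sum]
  refine Finset.sum_congr rfl fun z _ => ?_
  rw [smul_mul_smul_comm, AddMonoidAlgebra.single_mul_single, ev_smul, ev_single]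
  ring

theorem scale_single (ρ y c : ℝ) :
    scale ρ (AddMonoidAlgebra.single y c) = AddMonoidAlgebra.single (ρ * y) c := by
  simp [scale]

theorem ev_scale (ρ : ℝ) (m : FM) (g : ℝ → ℝ) :
    ev (scale ρ m) g = ev m (fun y => g (ρ * y)) := by
  conv_lhs => rw [eq_sum_single m]
  rw [map_sum, ev_sum]
  refine Finset.sum_congr rfl fun y _ => ?_
  rw [map_smul, scale_single, ev_smul, ev_single, one_mul]

theorem coeff_eq_ev (m : FM) (x : ℝ) : m.coeff x = ev m (fun y => if y = x then 1 else 0) := by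
  classical
  rw [ev_eq_sum (S := insert x m.coeff.support) (Finset.subset_insert _ _)]
  simp

theorem ext_ev {m m' : FM} (H : ∀ g, ev m g = ev m' g) : m = m' := by
  ext x
  rw [coeff_eq_ev, coeff_eq_ev, H]

theorem scale_scale (ρ ρ' : ℝ) (m : FM) : scale ρ (scale ρ' m) = scale (ρ * ρ') m :=
  ext_ev fun g => by simp only [ev_scale, mul_assoc]

@[simp] theorem scale_one_left (m : FM) : scale 1 m = m :=
  ext_ev fun g => by simp only [ev_scale, one_mul]

/-! ### `NN`, `tot`, `Prob` -/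

theorem NN.of_ev {m : FM} (H : ∀ g : ℝ → ℝ, (∀ y, 0 ≤ g y) → 0 ≤ ev m g) : NN m := fun y => by
  rw [coeff_eq_ev]
  exact H _ fun z => by split_ifs <;> norm_num

theorem NN.zero : NN 0 := fun y => by simp

theorem NN.add {m m' : FM} (h : NN m) (h' : NN m') : NN (m + m') := fun y => by
  simpa using add_nonneg (h y) (h' y)

theorem NN.smul {m : FM} {c : ℝ} (hc : 0 ≤ c) (h : NN m) : NN (c • m) := fun y => by
  simpa using mul_nonneg hc (h y)

theorem NN.sum {α : Type*} {s : Finset α} {m : α → FM} (h : ∀ a ∈ s, NN (m a)) :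
    NN (∑ a ∈ s, m a) :=
  NN.of_ev fun g hg => by
    rw [ev_sum]
    exact Finset.sum_nonneg fun a ha => ev_nonneg (h a ha) fun y _ => hg y

theorem NN.single (y : ℝ) {c : ℝ} (hc : 0 ≤ c) : NN (AddMonoidAlgebra.single y c) :=
  NN.of_ev fun g hg => by rw [ev_single]; exact mul_nonneg hc (hg y)

theorem NN.one : NN 1 := NN.of_ev fun g hg => by rw [ev_one]; exact hg 0

theorem NN.mul {m m' : FM} (h : NN m) (h' : NN m') : NN (m * m') :=
  NN.of_ev fun g hg => by
    rw [ev_mul]
    exact ev_nonneg h fun y _ => ev_nonneg h' fun z _ => hg _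

theorem NN.pow {m : FM} (h : NN m) (k : ℕ) : NN (m ^ k) := by
  induction k with
  | zero => simpa using NN.one
  | succ k ih => rw [pow_succ]; exact ih.mul h

theorem NN.scale {m : FM} (h : NN m) (ρ : ℝ) : NN (scale ρ m) :=
  NN.of_ev fun g hg => by
    rw [ev_scale]
    exact ev_nonneg h fun y _ => hg _

theorem NN.two (y z : ℝ) : NN (two y z) :=
  (NN.single y (by norm_num)).add (NN.single z (by norm_num))

@[simp] theorem tot_zero : tot 0 = 0 := ev_zero _
theorem tot_add (m m' : FM) : tot (m + m') = tot m + tot m' := ev_add _ _ _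
theorem tot_sub (m m' : FM) : tot (m - m') = tot m - tot m' := ev_sub _ _ _
theorem tot_smul (c : ℝ) (m : FM) : tot (c • m) = c * tot m := ev_smul _ _ _
theorem tot_sum {α : Type*} (s : Finset α) (m : α → FM) :
    tot (∑ a ∈ s, m a) = ∑ a ∈ s, tot (m a) := ev_sum _ _ _
@[simp] theorem tot_single (y c : ℝ) : tot (AddMonoidAlgebra.single y c) = c := by
  simp [tot]
@[simp] theorem tot_one : tot 1 = 1 := by simp [tot]
theorem tot_mul (m m' : FM) : tot (m * m') = tot m * tot m' := by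
  rw [tot, ev_mul]
  exact ev_const m (tot m')
theorem tot_pow (m : FM) (k : ℕ) : tot (m ^ k) = tot m ^ k := by
  induction k with
  | zero => simp
  | succ k ih => rw [pow_succ, tot_mul, ih, pow_succ]
@[simp] theorem tot_scale (ρ : ℝ) (m : FM) : tot (scale ρ m) = tot m := ev_scale _ _ _
@[simp] theorem tot_two (y z : ℝ) : tot (two y z) = 1 := by
  rw [tot, ev_two]; norm_num
theorem tot_eq_sum (m : FM) : tot m = ∑ y ∈ m.coeff.support, m.coeff y := by
  simp [tot, ev]
theorem NN.tot_nonneg {m : FM} (h : NN m) : 0 ≤ tot m := ev_nonneg h fun _ _ => zero_le_one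

theorem Prob.one : Prob 1 := ⟨NN.one, tot_one⟩
theorem Prob.single (y : ℝ) : Prob (AddMonoidAlgebra.single y 1) :=
  ⟨NN.single y zero_le_one, tot_single _ _⟩
theorem Prob.two (y z : ℝ) : Prob (two y z) := ⟨NN.two y z, tot_two y z⟩
theorem Prob.mul {m m' : FM} (h : Prob m) (h' : Prob m') : Prob (m * m') :=
  ⟨h.nn.mul h'.nn, by rw [tot_mul, h.tot_eq, h'.tot_eq, one_mul]⟩
theorem Prob.pow {m : FM} (h : Prob m) (k : ℕ) : Prob (m ^ k) :=
  ⟨h.nn.pow k, by rw [tot_pow, h.tot_eq, one_pow]⟩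
theorem Prob.scale {m : FM} (h : Prob m) (ρ : ℝ) : Prob (scale ρ m) :=
  ⟨h.nn.scale ρ, by rw [tot_scale, h.tot_eq]⟩
theorem Prob.ev_const {m : FM} (h : Prob m) (c : ℝ) : ev m (fun _ => c) = c := by
  rw [Crest.Agent.R098.ev_const, h.tot_eq, one_mul]
theorem Prob.sum_coeff {m : FM} (h : Prob m) : ∑ y ∈ m.coeff.support, m.coeff y = 1 := by
  rw [← tot_eq_sum, h.tot_eq]

/-- Jensen's inequality for a concave function -/
theorem Prob.ev_le_concave {m : FM} (h : Prob m) {φ : ℝ → ℝ} {S : Set ℝ} (hφ : ConcaveOn ℝ S φ)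
    {g : ℝ → ℝ} (hg : ∀ y ∈ m.coeff.support, g y ∈ S) :
    ev m (fun y => φ (g y)) ≤ φ (ev m g) := by
  have := hφ.le_map_sum (t := m.coeff.support) (w := fun y => m.coeff y) (p := g)
    (fun y _ => h.nn y) h.sum_coeff hg
  simpa [ev, smul_eq_mul] using this

/-! ### integrals of `ev` -/

theorem integrable_ev {X : Type*} [MeasurableSpace X] {μ : Measure X} (m : FM) {g : X → ℝ → ℝ}
    (H : ∀ y ∈ m.coeff.support, Integrable (fun u => g u y) μ) :
    Integrable (fun u => ev m (g u)) μ := by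
  unfold ev
  exact integrable_finsetSum _ fun y hy => (H y hy).const_mul _

theorem integral_ev {X : Type*} [MeasurableSpace X] {μ : Measure X} (m : FM) {g : X → ℝ → ℝ}
    (H : ∀ y ∈ m.coeff.support, Integrable (fun u => g u y) μ) :
    ∫ u, ev m (g u) ∂μ = ev m (fun y => ∫ u, g u y ∂μ) := by
  unfold ev
  rw [integral_finsetSum _ fun y hy => (H y hy).const_mul _]
  exact Finset.sum_congr rfl fun y _ => integral_const_mul _ _

theorem measurable_ev {X : Type*} [MeasurableSpace X] (m : FM) {g : X → ℝ → ℝ}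
    (H : ∀ y, Measurable (fun u => g u y)) : Measurable (fun u => ev m (g u)) := by
  unfold ev
  exact Finset.measurable_sum _ fun y _ => (H y).const_mul _

/-! ### step functions -/

/-- finite range, measurable fibres, bounded support -/
def Step {β : Type*} [Zero β] (g : ℝ → β) : Prop :=
  (Set.range g).Finite ∧ (∀ b, MeasurableSet (g ⁻¹' {b})) ∧ ∃ R : ℝ, ∀ u, R < |u| → g u = 0

theorem Step.comp {β γ : Type*} [Zero β] [Zero γ] {g : ℝ → β} (hg : Step g) (F : β → γ)
    (hF : F 0 = 0) : Step (fun u => F (g u)) := by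
  obtain ⟨h1, h2, R, h3⟩ := hg
  refine ⟨?_, fun c => ?_, R, fun u hu => by beta_reduce; rw [h3 u hu, hF]⟩
  · exact (h1.image F).subset (by rintro _ ⟨u, rfl⟩; exact ⟨g u, ⟨u, rfl⟩, rfl⟩)
  · have : (fun u => F (g u)) ⁻¹' {c} = ⋃ b ∈ {b ∈ Set.range g | F b = c}, g ⁻¹' {b} := by
      ext u; simp
    rw [this]
    exact Set.Finite.measurableSet_biUnion (h1.subset fun b hb => hb.1) fun b _ => h2 b

theorem Step.prod {β γ : Type*} [Zero β] [Zero γ] {g : ℝ → β} {h : ℝ → γ} (hg : Step g)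
    (hh : Step h) : Step (fun u => (g u, h u)) := by
  obtain ⟨h1, h2, R, h3⟩ := hg
  obtain ⟨k1, k2, R', k3⟩ := hh
  refine ⟨?_, fun c => ?_, max R R', fun u hu => ?_⟩
  · exact (h1.prod k1).subset (by rintro _ ⟨u, rfl⟩; exact ⟨⟨u, rfl⟩, ⟨u, rfl⟩⟩)
  · have : (fun u => (g u, h u)) ⁻¹' {c} = g ⁻¹' {c.1} ∩ h ⁻¹' {c.2} := by
      ext u; simp [Prod.ext_iff]
    rw [this]
    exact (h2 _).inter (k2 _)
  · beta_reduce
    rw [h3 u (lt_of_le_of_lt (le_max_left _ _) hu), k3 u (lt_of_le_of_lt (le_max_right _ _) hu)]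
    rfl

theorem Step.comp₂ {β γ δ : Type*} [Zero β] [Zero γ] [Zero δ] {g : ℝ → β} {h : ℝ → γ}
    (hg : Step g) (hh : Step h) (F : β → γ → δ) (hF : F 0 0 = 0) :
    Step (fun u => F (g u) (h u)) :=
  (hg.prod hh).comp (fun q : β × γ => F q.1 q.2) hF

theorem Step.comp₃ {g h k : ℝ → ℝ} (hg : Step g) (hh : Step h) (hk : Step k)
    (F : ℝ → ℝ → ℝ → ℝ) (hF : F 0 0 0 = 0) : Step (fun u => F (g u) (h u) (k u)) :=
  (hg.prod hh).comp₂ hk (fun q c => F q.1 q.2 c) hF

theorem Step.comp₄ {g h k l : ℝ → ℝ} (hg : Step g) (hh : Step h) (hk : Step k) (hl : Step l)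
    (F : ℝ → ℝ → ℝ → ℝ → ℝ) (hF : F 0 0 0 0 = 0) :
    Step (fun u => F (g u) (h u) (k u) (l u)) :=
  (hg.prod hh).comp₂ (hk.prod hl) (fun q q' => F q.1 q.2 q'.1 q'.2) hF

theorem Step.shift {β : Type*} [Zero β] {g : ℝ → β} (hg : Step g) (a : ℝ) :
    Step (fun u => g (u + a)) := by
  obtain ⟨h1, h2, R, h3⟩ := hg
  refine ⟨h1.subset (by rintro _ ⟨u, rfl⟩; exact ⟨u + a, rfl⟩), fun b => ?_, R + |a|,
    fun u hu => h3 _ ?_⟩
  · exact (measurable_add_const a) (h2 b)
  · have : |u| ≤ |u + a| + |a| := by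
      calc |u| = |(u + a) + (-a)| := by ring_nf
        _ ≤ |u + a| + |-a| := abs_add_le _ _
        _ = _ := by rw [abs_neg]
    linarith

theorem Step.shift_sub {β : Type*} [Zero β] {g : ℝ → β} (hg : Step g) (a : ℝ) :
    Step (fun u => g (u - a)) := by
  simpa [sub_eq_add_neg] using hg.shift (-a)

theorem Step.zero {β : Type*} [Zero β] : Step (fun _ : ℝ => (0 : β)) := by
  refine ⟨(Set.finite_singleton 0).subset (by rintro _ ⟨u, rfl⟩; rfl), fun b => ?_, 0,
    fun _ _ => rfl⟩
  exact MeasurableSet.const _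

theorem Step.add {g h : ℝ → ℝ} (hg : Step g) (hh : Step h) : Step (fun u => g u + h u) :=
  hg.comp₂ hh (· + ·) (by simp)

theorem Step.sub {g h : ℝ → ℝ} (hg : Step g) (hh : Step h) : Step (fun u => g u - h u) :=
  hg.comp₂ hh (· - ·) (by simp)

theorem Step.mul {g h : ℝ → ℝ} (hg : Step g) (hh : Step h) : Step (fun u => g u * h u) :=
  hg.comp₂ hh (· * ·) (by simp)

theorem Step.div {g h : ℝ → ℝ} (hg : Step g) (hh : Step h) : Step (fun u => g u / h u) :=
  hg.comp₂ hh (· / ·) (by simp)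

theorem Step.const_mul {g : ℝ → ℝ} (hg : Step g) (c : ℝ) : Step (fun u => c * g u) :=
  hg.comp (c * ·) (by simp)

theorem Step.mul_const {g : ℝ → ℝ} (hg : Step g) (c : ℝ) : Step (fun u => g u * c) :=
  hg.comp (· * c) (by simp)

theorem Step.sum {α : Type*} (s : Finset α) {g : α → ℝ → ℝ} (hg : ∀ a ∈ s, Step (g a)) :
    Step (fun u => ∑ a ∈ s, g a u) := by
  classical
  induction s using Finset.induction_on with
  | empty => simpa using Step.zero
  | insert a s ha ih =>
    simp only [Finset.sum_insert ha]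
    exact (hg a (Finset.mem_insert_self _ _)).add
      (ih fun b hb => hg b (Finset.mem_insert_of_mem hb))

theorem Step.ev (m : FM) {g : ℝ → ℝ → ℝ} (hg : ∀ y, Step (fun u => g u y)) :
    Step (fun u => ev m (g u)) :=
  Step.sum _ fun y _ => (hg y).const_mul _

theorem Step.measurable {g : ℝ → ℝ} (hg : Step g) : Measurable g := by
  obtain ⟨h1, h2, -⟩ := hg
  intro S _
  have : g ⁻¹' S = ⋃ b ∈ {b ∈ Set.range g | b ∈ S}, g ⁻¹' {b} := by
    ext u; simp
  rw [this]
  exact Set.Finite.measurableSet_biUnion (h1.subset fun b hb => hb.1) fun b _ => h2 b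

theorem Step.integrable {g : ℝ → ℝ} (hg : Step g) : Integrable g := by
  have hm := hg.measurable
  obtain ⟨h1, -, R, h3⟩ := hg
  obtain ⟨M, hM⟩ := (h1.image abs).bddAbove
  have hb : ∀ u, |g u| ≤ M := fun u => hM ⟨g u, ⟨u, rfl⟩, rfl⟩
  have : Integrable ((Set.Icc (-R) R).indicator (fun _ => M)) :=
    (integrable_indicator_iff measurableSet_Icc).2 (integrableOn_const (by simp))
  refine this.mono' hm.aestronglyMeasurable (Filter.Eventually.of_forall fun u => ?_)
  by_cases hu : u ∈ Set.Icc (-R) R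
  · rw [Set.indicator_of_mem hu]; exact hb u
  · rw [Set.indicator_of_notMem hu, h3 u]
    · simp
    · by_contra h
      exact hu (abs_le.1 (not_lt.1 h))

/-! ### `ind` and `fI` -/

theorem ind_eq (s u y : ℝ) : ind s u y = if u < y ∧ y ≤ u + s then 1 else 0 := by
  unfold ind
  by_cases h : u < y ∧ y ≤ u + s
  · rw [if_pos h, Set.indicator_of_mem (show y ∈ Set.Ioc u (u + s) from h)]; rfl
  · rw [if_neg h, Set.indicator_of_notMem (show y ∉ Set.Ioc u (u + s) from h)]

theorem ind_nonneg (s u y : ℝ) : 0 ≤ ind s u y := by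
  rw [ind_eq]; split_ifs <;> norm_num

theorem ind_le_one (s u y : ℝ) : ind s u y ≤ 1 := by
  rw [ind_eq]; split_ifs <;> norm_num

theorem ind_mul_self (s u y : ℝ) : ind s u y * ind s u y = ind s u y := by
  rw [ind_eq]; split_ifs <;> norm_num

theorem ind_add_right (s u y z : ℝ) : ind s u (y + z) = ind s (u - y) z := by
  simp only [ind_eq]
  congr 1
  apply propext
  constructor <;> rintro ⟨h1, h2⟩ <;> constructor <;> linarith

theorem ind_split {s s' : ℝ} (hs : 0 ≤ s) (hs' : 0 ≤ s') (u y : ℝ) :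
    ind (s + s') u y = ind s u y + ind s' (u + s) y := by
  simp only [ind_eq]
  by_cases h1 : u < y <;> by_cases h2 : y ≤ u + s <;> by_cases h3 : y ≤ u + (s + s') <;>
    simp [h1, h2, h3, add_assoc, not_le.1, not_lt.2] <;> linarith

theorem ind_as_u (s y : ℝ) :
    (fun u => ind s u y) = (Set.Ico (y - s) y).indicator (fun _ => (1 : ℝ)) := by
  funext u
  rw [ind_eq]
  by_cases h : u ∈ Set.Ico (y - s) y
  · rw [Set.indicator_of_mem h, if_pos ⟨h.2, by linarith [h.1]⟩]
  · rw [Set.indicator_of_notMem h, if_neg]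
    exact fun h' => h ⟨by linarith [h'.2], h'.1⟩

theorem step_ind (s y : ℝ) : Step (fun u => ind s u y) := by
  refine ⟨(Set.toFinite {(0 : ℝ), 1}).subset ?_, fun b => ?_, |y| + |s|, fun u hu => ?_⟩
  · rintro _ ⟨u, rfl⟩
    simp only [ind_eq]
    split_ifs <;> simp
  · rw [ind_as_u]
    exact (measurable_const.indicator measurableSet_Ico) (measurableSet_singleton b)
  · beta_reduce
    rw [ind_eq, if_neg]
    rintro ⟨h1, h2⟩
    have := abs_lt.2 (show -(|y| + |s| + (|u| - (|y| + |s|))) < u ∧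
      u < |y| + |s| + (|u| - (|y| + |s|)) from
      ⟨by linarith [le_abs_self s, neg_abs_le y], by linarith [le_abs_self y, abs_nonneg s]⟩)
    linarith

theorem integral_ind {s : ℝ} (hs : 0 ≤ s) (y : ℝ) : ∫ u, ind s u y = s := by
  rw [ind_as_u, integral_indicator measurableSet_Ico]
  simp [hs]

/-- joint measurability in (scale, position) -/
theorem measurable_ind₂ (y : ℝ) : Measurable (fun q : ℝ × ℝ => ind q.1 q.2 y) := by
  simp only [ind_eq]
  refine Measurable.ite ?_ measurable_const measurable_const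
  exact (measurableSet_lt measurable_snd measurable_const).inter
    (measurableSet_le measurable_const (measurable_snd.add measurable_fst))

theorem step_fI (m : FM) (s : ℝ) : Step (fun u => fI m s u) :=
  Step.ev m fun y => step_ind s y

theorem measurable_fI₂ (m : FM) : Measurable (fun q : ℝ × ℝ => fI m q.1 q.2) :=
  measurable_ev m fun y => measurable_ind₂ y

theorem fI_nonneg {m : FM} (hm : NN m) (s u : ℝ) : 0 ≤ fI m s u :=
  ev_nonneg hm fun y _ => ind_nonneg s u y

theorem fI_le_tot {m : FM} (hm : NN m) (s u : ℝ) : fI m s u ≤ tot m :=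
  ev_mono hm fun y _ => ind_le_one s u y

theorem Prob.fI_le_one {m : FM} (hm : Prob m) (s u : ℝ) : fI m s u ≤ 1 :=
  hm.tot_eq ▸ fI_le_tot hm.nn s u

theorem fI_mono {m : FM} (hm : NN m) {s u s' u' : ℝ} (h1 : u' ≤ u) (h2 : u + s ≤ u' + s') :
    fI m s u ≤ fI m s' u' :=
  ev_mono hm fun y _ => by
    simp only [ind_eq]
    by_cases h : u < y ∧ y ≤ u + s
    · rw [if_pos h, if_pos ⟨by linarith [h.1], by linarith [h.2]⟩]
    · rw [if_neg h]; split_ifs <;> norm_num

theorem integral_fI (m : FM) {s : ℝ} (hs : 0 ≤ s) : ∫ u, fI m s u = s * tot m := by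
  unfold fI
  rw [integral_ev m fun y _ => (step_ind s y).integrable]
  simp only [integral_ind hs]
  rw [ev_const, mul_comm]

theorem fI_add (m m' : FM) (s u : ℝ) : fI (m + m') s u = fI m s u + fI m' s u := ev_add _ _ _

theorem fI_smul (c : ℝ) (m : FM) (s u : ℝ) : fI (c • m) s u = c * fI m s u := ev_smul _ _ _

theorem fI_sum {α : Type*} (S : Finset α) (m : α → FM) (s u : ℝ) :
    fI (∑ a ∈ S, m a) s u = ∑ a ∈ S, fI (m a) s u := ev_sum _ _ _

theorem fI_mul (m W : FM) (s u : ℝ) : fI (m * W) s u = ev m (fun y => fI W s (u - y)) := by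
  unfold fI
  rw [ev_mul]
  simp only [ind_add_right]

theorem fI_split (m : FM) {s s' : ℝ} (hs : 0 ≤ s) (hs' : 0 ≤ s') (u : ℝ) :
    fI m (s + s') u = fI m s u + fI m s' (u + s) := by
  unfold fI
  rw [← ev_fun_add]
  exact ev_congr fun y _ => ind_split hs hs' u y

end Crest.Agent.R098
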