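import Crest.Agent.R098.Defs

/-! A mass distribution principle along a sequence of scales. -/

set_option autoImplicit false

open MeasureTheory Real Crest.AnalysisR

namespace Crest.Agent.R098

theorem heavy_md (μ g b : Measure ℝ) [IsFiniteMeasure μ] {r : ℝ} (hr : 0 < r) {m : ENNReal}
    (hμ : μ ≤ g + b) (hg : ∀ x, g (Metric.closedBall x r) ≤ m) :
    ∃ H : Set ℝ, MeasurableSet H ∧ μ H ≤ 2 * b Set.univ ∧
      ∀ S : Set ℝ, Metric.ediam S ≤ ENNReal.ofReal r → μ (S ∩ Hᶜ) ≤ 6 * m := by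
  set c : ℤ → Set ℝ := fun j => (fun x : ℝ => ⌊x / r⌋) ⁻¹' {j} with hc
  have hf : Measurable fun x : ℝ => ⌊x / r⌋ := Int.measurable_floor.comp (measurable_id.div_const r)
  have hcm : ∀ j, MeasurableSet (c j) := fun j => hf (measurableSet_singleton j)
  have hcb : ∀ j, c j ⊆ Metric.closedBall (j * r) r := fun j x hx => by
    have hx' : ⌊x / r⌋ = j := hx
    have h1 := Int.floor_le (x / r)
    have h2 := Int.lt_floor_add_one (x / r)
    rw [hx', le_div_iff₀ hr] at h1
    rw [hx', div_lt_iff₀ hr] at h2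
    rw [Metric.mem_closedBall, Real.dist_eq, abs_le]
    constructor <;> linarith
  refine ⟨(fun x : ℝ => ⌊x / r⌋) ⁻¹' {j | 2 * m < μ (c j)}, hf (MeasurableSet.of_discrete), ?_, ?_⟩
  · set H := (fun x : ℝ => ⌊x / r⌋) ⁻¹' {j | 2 * m < μ (c j)} with hH
    calc μ H ≤ μ (⋃ j, H ∩ c j) := measure_mono fun x hx => Set.mem_iUnion.2 ⟨⌊x / r⌋, hx, rfl⟩
      _ ≤ ∑' j, μ (H ∩ c j) := measure_iUnion_le _
      _ ≤ ∑' j, 2 * b (c j) := ENNReal.tsum_le_tsum fun j => by
          by_cases h : 2 * m < μ (c j)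
          · refine (measure_mono Set.inter_subset_right).trans ?_
            have h1 : μ (c j) ≤ m + b (c j) := by
              refine (hμ (c j)).trans ?_
              rw [Measure.add_apply]
              gcongr
              exact (measure_mono (hcb j)).trans (hg _)
            have h2 : μ (c j) + μ (c j) ≤ μ (c j) + 2 * b (c j) :=
              calc μ (c j) + μ (c j) ≤ (m + b (c j)) + (m + b (c j)) := add_le_add h1 h1
                _ = 2 * m + 2 * b (c j) := by ring
                _ ≤ _ := by gcongr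
            exact (ENNReal.add_le_add_iff_left (measure_ne_top _ _)).1 h2
          · have : H ∩ c j = ∅ := Set.eq_empty_of_forall_notMem fun x hx => by
              have hx' : ⌊x / r⌋ = j := hx.2
              exact h (hx' ▸ hx.1)
            simp [this]
      _ = 2 * b (⋃ j, c j) := by
          rw [ENNReal.tsum_mul_left, measure_iUnion _ hcm]
          intro i j hij
          exact Set.disjoint_left.2 fun x hi hj => hij ((show ⌊x / r⌋ = i from hi).symm.trans hj)
      _ ≤ _ := by gcongr; exact Set.subset_univ _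
  · intro S hS
    set H := (fun x : ℝ => ⌊x / r⌋) ⁻¹' {j | 2 * m < μ (c j)} with hH
    rcases S.eq_empty_or_nonempty with rfl | ⟨x₀, hx₀⟩
    · simp
    have h1 : ∀ j, μ (c j ∩ Hᶜ) ≤ 2 * m := fun j => by
      by_cases h : 2 * m < μ (c j)
      · have : c j ∩ Hᶜ = ∅ := Set.eq_empty_of_forall_notMem fun x hx => by
          have hx' : ⌊x / r⌋ = j := hx.1
          exact hx.2 (show 2 * m < μ (c ⌊x / r⌋) from hx' ▸ h)
        simp [this]
      · exact (measure_mono Set.inter_subset_left).trans (not_lt.1 h)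
    have h2 : S ∩ Hᶜ ⊆ (c (⌊x₀ / r⌋ - 1) ∩ Hᶜ ∪ c ⌊x₀ / r⌋ ∩ Hᶜ) ∪ c (⌊x₀ / r⌋ + 1) ∩ Hᶜ := by
      intro x hx
      have h3 := (Metric.edist_le_ediam_of_mem hx.1 hx₀).trans hS
      rw [edist_dist, ENNReal.ofReal_le_ofReal_iff hr.le, Real.dist_eq, abs_le] at h3
      have h4 : ⌊x₀ / r - 1⌋ ≤ ⌊x / r⌋ := Int.floor_mono (by
        rw [div_sub_one hr.ne']; gcongr; linarith)
      have h5 : ⌊x / r⌋ ≤ ⌊x₀ / r + 1⌋ := Int.floor_mono (by
        rw [div_add_one hr.ne']; gcongr; linarith)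
      rw [Int.floor_sub_one] at h4
      rw [Int.floor_add_one] at h5
      have h6 : ⌊x / r⌋ = ⌊x₀ / r⌋ - 1 ∨ ⌊x / r⌋ = ⌊x₀ / r⌋ ∨ ⌊x / r⌋ = ⌊x₀ / r⌋ + 1 := by omega
      rcases h6 with h | h | h
      · exact Or.inl (Or.inl ⟨h, hx.2⟩)
      · exact Or.inl (Or.inr ⟨h, hx.2⟩)
      · exact Or.inr ⟨h, hx.2⟩
    calc μ (S ∩ Hᶜ) ≤ _ := measure_mono h2
      _ ≤ _ := measure_union_le _ _
      _ ≤ (2 * m + 2 * m) + 2 * m :=
          add_le_add ((measure_union_le _ _).trans (add_le_add (h1 _) (h1 _))) (h1 _)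
      _ = 6 * m := by ring

theorem mass_dist (μ : Measure ℝ) [IsProbabilityMeasure μ] {d : ℝ} (ρ M : ℕ → ℝ)
    (g b : ℕ → Measure ℝ) (hρ : ∀ k, 0 < ρ k) (hρ0 : Filter.Tendsto ρ Filter.atTop (nhds 0))
    (hμ : ∀ k, μ ≤ g k + b k)
    (hg : ∀ k x, g k (Metric.closedBall x (ρ k)) ≤ ENNReal.ofReal (M k))
    (hb : ∑' k, b k Set.univ ≠ ⊤)
    (hM : ∀ᶠ k in Filter.atTop, M k ≤ ρ (k + 1) ^ d) :
    ENNReal.ofReal d ≤ lowerHausdorffDim μ := by
  rcases le_or_gt d 0 with hd | hd
  · simp [ENNReal.ofReal_of_nonpos hd]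
  choose H hH1 hH2 hH3 using fun k => heavy_md μ (g k) (b k) (hρ k) (hμ k) (hg k)
  refine le_iInf fun E => le_iInf fun hE => le_iInf fun hE0 => ?_
  have t1 := ENNReal.Tendsto.const_mul (a := 2) (ENNReal.tendsto_sum_nat_add _ hb) (Or.inr (by simp))
  rw [mul_zero] at t1
  obtain ⟨k₀, h1, h2⟩ := ((t1.eventually (gt_mem_nhds hE0)).and
    (Filter.eventually_forall_ge_atTop.2 hM)).exists
  set B := ⋃ k, H (k + k₀) with hB
  have hBm : MeasurableSet B := MeasurableSet.iUnion fun k => hH1 _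
  have hB1 : μ B < μ E := by
    refine lt_of_le_of_lt ((measure_iUnion_le _).trans ?_) h1
    rw [← ENNReal.tsum_mul_left]
    exact ENNReal.tsum_le_tsum fun k => hH2 _
  have hk : ∀ k, ∀ S : Set ℝ, Metric.ediam S ≤ ENNReal.ofReal (ρ (k + k₀)) →
      μ (S ∩ Bᶜ) ≤ 6 * ENNReal.ofReal (ρ (k + k₀ + 1) ^ d) := fun k S hS => by
    refine (measure_mono (Set.inter_subset_inter_right _ (Set.compl_subset_compl.2
      (Set.subset_iUnion (fun k => H (k + k₀)) k)))).trans ((hH3 _ S hS).trans ?_)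
    gcongr
    exact h2 _ (by omega)
  have t2 : Filter.Tendsto (fun k => ρ (k + k₀ + 1)) Filter.atTop (nhds 0) :=
    (Filter.tendsto_add_atTop_iff_nat (k₀ + 1)).2 hρ0
  have h3 : (6 : ENNReal)⁻¹ • μ.restrict Bᶜ ≤ Measure.hausdorffMeasure d := by
    refine Measure.le_hausdorffMeasure d _ (ENNReal.ofReal (ρ k₀)) (by simpa using hρ k₀)
      fun S hS => ?_
    rw [Measure.smul_apply, Measure.restrict_apply' hBm.compl, smul_eq_mul,
      ENNReal.inv_mul_le_iff (by simp) (by simp)]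
    have hne : Metric.ediam S ≠ ⊤ := ne_top_of_le_ne_top ENNReal.ofReal_ne_top hS
    rcases eq_or_ne (Metric.ediam S) 0 with h0 | h0
    · have t3 : Filter.Tendsto (fun k => 6 * ENNReal.ofReal (ρ (k + k₀ + 1) ^ d)) Filter.atTop
          (nhds (6 * ENNReal.ofReal ((0 : ℝ) ^ d))) :=
        ENNReal.Tendsto.const_mul (ENNReal.tendsto_ofReal (t2.rpow_const (Or.inr hd.le)))
          (Or.inr (by simp))
      rw [Real.zero_rpow hd.ne', ENNReal.ofReal_zero, mul_zero] at t3
      exact (ge_of_tendsto' t3 fun k => hk k S (by simp [h0])).trans (zero_le)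
    · have hδ : 0 < (Metric.ediam S).toReal := ENNReal.toReal_pos h0 hne
      have hex : ∃ k, ρ (k + k₀ + 1) < (Metric.ediam S).toReal :=
        (t2.eventually (gt_mem_nhds hδ)).exists
      classical
      have h4 := Nat.find_spec hex
      have h5 : Metric.ediam S ≤ ENNReal.ofReal (ρ (Nat.find hex + k₀)) := by
        rcases e : Nat.find hex with _ | n
        · rwa [zero_add]
        · have := Nat.find_min hex (show n < Nat.find hex by omega)
          rw [← ENNReal.ofReal_toReal hne, show n + 1 + k₀ = n + k₀ + 1 by omega]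
          exact ENNReal.ofReal_le_ofReal (not_lt.1 this)
      generalize Nat.find hex = n at h4 h5
      refine (hk _ S h5).trans ?_
      rw [← ENNReal.ofReal_toReal hne, ENNReal.ofReal_rpow_of_pos hδ]
      gcongr
      exact (hρ _).le
  have h4 : Measure.hausdorffMeasure (d.toNNReal : ℝ) E ≠ 0 := by
    rw [Real.coe_toNNReal _ hd.le]
    intro h0
    have h5 := h3 E
    rw [h0, Measure.smul_apply, Measure.restrict_apply hE, smul_eq_mul, nonpos_iff_eq_zero,
      mul_eq_zero] at h5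
    have h6 : μ (E ∩ Bᶜ) = 0 := h5.resolve_left (by simp)
    have h7 : μ E ≤ μ B + μ (E ∩ Bᶜ) :=
      (measure_mono fun x hx => by by_cases h : x ∈ B <;> simp [h, hx]).trans (measure_union_le _ _)
    rw [h6, add_zero] at h7
    exact absurd hB1 (not_lt.2 h7)
  exact le_dimH_of_hausdorffMeasure_ne_zero h4

end Crest.Agent.R098
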