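import Crest.Agent.R098.Iter
import Crest.Agent.R098.MD

/-! Lower bound for the dimension from one generation of overlapping cylinders. -/

set_option autoImplicit false

open MeasureTheory Real Crest.AnalysisR

namespace Crest.Agent.R098

variable {ι : Type*} [Fintype ι]

theorem D_nonneg_fh {r t p : ι → ℝ} (hg : Good r p) {D : ℝ}
    (hD : ∀ i, |r i| * D + |t i| ≤ D) : 0 ≤ D := by
  obtain ⟨i⟩ : Nonempty ι := by
    by_contra h
    rw [not_nonempty_iff] at h
    have := hg.hp1
    simp at this
  have h1 := hD i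
  have h2 := (hg.hr i).2
  have h3 := abs_nonneg (t i)
  by_contra h
  push Not at h
  nlinarith

omit [Fintype ι] in
theorem prod_pos_fh {q : ι → ℝ} (hq : ∀ i, 0 < q i) (l : List ι) : 0 < (l.map q).prod := by
  induction l with
  | nil => simp
  | cons a l ih => rw [List.map_cons, List.prod_cons]; exact mul_pos (hq a) ih

omit [Fintype ι] in
theorem prod_eq_exp_fh {q : ι → ℝ} (hq : ∀ i, 0 < q i) (l : List ι) :
    (l.map q).prod = exp (-(l.map fun i => -log (q i)).sum) := by
  induction l with
  | nil => simp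
  | cons a l ih =>
    rw [List.map_cons, List.prod_cons, List.map_cons, List.sum_cons, neg_add, exp_add, neg_neg,
      exp_log (hq a), ih]

open Classical in
theorem fh_F {r t p q : ι → ℝ} (hg : Good r p) {D : ℝ}
    (hD : ∀ i, |r i| * D + |t i| ≤ D) (hq : ∀ i, 0 < q i)
    (H : ∀ x, (∑ i, if |t i - x| ≤ (D + 1) * |r i| then p i / q i else 0) ≤ 1)
    (N : ℕ) (x ρ : ℝ) :
    Ex p N (fun l => if ρ ≤ |RR r l| ∧ ∃ z, |z| ≤ D ∧ |affineWordMap r t l z - x| ≤ ρ
      then 1 / (l.map q).prod else 0) ≤ 1 := by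
  have hD0 := D_nonneg_fh hg hD
  induction N generalizing x ρ with
  | zero =>
    rw [Ex_zero]
    split_ifs <;> simp
  | succ N ih =>
    rw [Ex_succ]
    refine le_trans (Finset.sum_le_sum fun a _ => ?_) (H x)
    have hra : 0 < |r a| := abs_pos.2 (hg.hr a).1
    have hpa := hg.hp a
    have hqa := hq a
    have key : Ex p N (fun l => if ρ ≤ |RR r (a :: l)| ∧
        ∃ z, |z| ≤ D ∧ |affineWordMap r t (a :: l) z - x| ≤ ρ
          then 1 / ((a :: l).map q).prod else 0) ≤
        Ex p N (fun l => (if |t a - x| ≤ (D + 1) * |r a| then 1 / q a else 0) *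
          (if ρ / |r a| ≤ |RR r l| ∧
            ∃ z, |z| ≤ D ∧ |affineWordMap r t l z - (x - t a) / r a| ≤ ρ / |r a|
          then 1 / (l.map q).prod else 0)) := by
      refine Ex_mono (fun i => (hg.hp i).le) fun l _ => ?_
      have hl := prod_pos_fh hq l
      by_cases hc : ρ ≤ |RR r (a :: l)| ∧ ∃ z, |z| ≤ D ∧ |affineWordMap r t (a :: l) z - x| ≤ ρ
      · rw [if_pos hc]
        obtain ⟨h1, z, hz, h2⟩ := hc
        rw [RR_cons, abs_mul] at h1
        rw [awm_cons] at h2
        have hR := abs_RR_le_one (fun i => (hg.hr i).2) l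
        have hφ : |affineWordMap r t l z| ≤ D := by
          rw [awm_eq]
          refine le_trans (abs_add_le _ _) (le_trans ?_ (word_invariant hD l))
          rw [abs_mul]
          have := mul_le_mul_of_nonneg_left hz (abs_nonneg (RR r l))
          linarith
        have c1 : |t a - x| ≤ (D + 1) * |r a| := by
          have e : t a - x = (r a * affineWordMap r t l z + t a - x) - r a * affineWordMap r t l z :=
            by ring
          rw [e]
          refine le_trans (abs_sub _ _) ?_
          rw [abs_mul]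
          have h3 := mul_le_mul_of_nonneg_left hφ hra.le
          have h4 := mul_le_mul_of_nonneg_left hR hra.le
          linarith
        have c2 : ρ / |r a| ≤ |RR r l| := by
          rw [div_le_iff₀ hra]; linarith
        have c3 : |affineWordMap r t l z - (x - t a) / r a| ≤ ρ / |r a| := by
          have e : affineWordMap r t l z - (x - t a) / r a =
              (r a * affineWordMap r t l z + t a - x) / r a := by
            have := (hg.hr a).1
            field_simp
            ring
          rw [e, abs_div]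
          exact div_le_div_of_nonneg_right h2 hra.le
        rw [if_pos c1, if_pos ⟨c2, z, hz, c3⟩, List.map_cons, List.prod_cons]
        rw [one_div_mul_one_div]
      · rw [if_neg hc]
        refine mul_nonneg ?_ ?_ <;> split_ifs <;> positivity
    rw [Ex_const_mul] at key
    have h1 := ih ((x - t a) / r a) (ρ / |r a|)
    refine le_trans (mul_le_mul_of_nonneg_left key hpa.le) ?_
    by_cases hc : |t a - x| ≤ (D + 1) * |r a|
    · rw [if_pos hc, if_pos hc]
      have := mul_le_mul_of_nonneg_left h1 (show 0 ≤ p a * (1 / q a) by positivity)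
      rw [← mul_assoc]
      refine le_trans this (le_of_eq ?_)
      field_simp
    · rw [if_neg hc, if_neg hc]
      simp

theorem itP_nonneg_fh {p : ι → ℝ} (hp : ∀ i, 0 ≤ p i) (N : ℕ) (w : Fin N → ι) :
    0 ≤ itP p N w := Finset.prod_nonneg fun j _ => hp (w j)

/-- sum of `ofReal`s as the `ofReal` of an expectation -/
theorem sum_ofReal_fh {p : ι → ℝ} (hp : ∀ i, 0 ≤ p i) (N : ℕ) (F : List ι → ℝ)
    (hF : ∀ l, 0 ≤ F l) :
    ∑ w : Fin N → ι, ENNReal.ofReal (itP p N w * F (List.ofFn w)) = ENNReal.ofReal (Ex p N F) := by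
  rw [Ex_eq_sum_fin, ENNReal.ofReal_sum_of_nonneg]
  · rfl
  · exact fun w _ => mul_nonneg (itP_nonneg_fh hp N w) (hF _)

open Classical in
/-- decomposition at one scale -/
theorem fh_scale {r t p q : ι → ℝ} (hg : Good r p) {μ : Measure ℝ}
    (hμ : IsSelfSimilarMeasure r t p μ) {D : ℝ} (hD : ∀ i, |r i| * D + |t i| ≤ D)
    (hsupp : μ (Set.Icc (-D) D)ᶜ = 0) (hq : ∀ i, 0 < q i)
    (H : ∀ x, (∑ i, if |t i - x| ≤ (D + 1) * |r i| then p i / q i else 0) ≤ 1)
    {ε : ℝ} (hε : 0 < ε) :
    ∃ V : ℝ, 0 ≤ V ∧ ∀ N : ℕ, 0 < N → ∃ g b : Measure ℝ, μ ≤ g + b ∧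
      (∀ x, g (Metric.closedBall x (exp (-(N * (lyapunovExp r p + ε))))) ≤
        ENNReal.ofReal (exp (-(N * ((∑ i, p i * (-log (q i))) - ε))))) ∧
      b Set.univ ≤ ENNReal.ofReal (V / N) := by
  have hp : ∀ i, 0 ≤ p i := fun i => (hg.hp i).le
  have hr0 : ∀ i, r i ≠ 0 := fun i => (hg.hr i).1
  obtain ⟨V₁, hV₁, h₁⟩ := wlln hp hg.hp1 (fun a => -log |r a|)
  obtain ⟨V₂, hV₂, h₂⟩ := wlln hp hg.hp1 (fun a => -log (q a))
  refine ⟨(V₁ + V₂) / ε ^ 2, by positivity, fun N hN => ?_⟩
  haveI := hμ.1
  set Hb := ∑ i, p i * (-log (q i)) with hHb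
  let good : List ι → Prop := fun l =>
    |(l.map fun a => -log |r a|).sum - N * ∑ i, p i * (-log |r i|)| ≤ ε * N ∧
      |(l.map fun a => -log (q a)).sum - N * Hb| ≤ ε * N
  let φ : (Fin N → ι) → ℝ → ℝ := fun w x => itR r N w * x + itT r t N w
  have hφm : ∀ w, Measurable (φ w) := fun w => by fun_prop
  have hφ : ∀ w x, φ w x = affineWordMap r t (List.ofFn w) x := fun w x => by
    rw [awm_eq]; rfl
  refine ⟨∑ w : Fin N → ι, if good (List.ofFn w) then
      ENNReal.ofReal (itP p N w) • μ.map (φ w) else 0,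
    ∑ w : Fin N → ι, if good (List.ofFn w) then 0 else
      ENNReal.ofReal (itP p N w) • μ.map (φ w), ?_, fun x => ?_, ?_⟩
  · rw [← Finset.sum_add_distrib]
    refine le_of_eq ((selfSimilar_iter hp hμ N).2.trans (Finset.sum_congr rfl fun w _ => ?_))
    split_ifs <;> simp [φ]
  · set ρ := exp (-(N * (lyapunovExp r p + ε))) with hρ
    set M := exp (-(N * (Hb - ε))) with hM
    have hM0 : 0 < M := exp_pos _
    let F : List ι → ℝ := fun l =>
      if ρ ≤ |RR r l| ∧ ∃ z, |z| ≤ D ∧ |affineWordMap r t l z - x| ≤ ρ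
        then 1 / (l.map q).prod else 0
    have hF0 : ∀ l, 0 ≤ F l := fun l => by
      have := prod_pos_fh hq l
      simp only [F]
      split_ifs <;> positivity
    have hF1 : Ex p N F ≤ 1 := fh_F hg hD hq H N x ρ
    calc (∑ w : Fin N → ι, if good (List.ofFn w) then
          ENNReal.ofReal (itP p N w) • μ.map (φ w) else 0 : Measure ℝ) (Metric.closedBall x ρ)
        ≤ ∑ w : Fin N → ι, ENNReal.ofReal (itP p N w * (M * F (List.ofFn w))) := by
          rw [Measure.finsetSum_apply]
          refine Finset.sum_le_sum fun w _ => ?_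
          by_cases hw : good (List.ofFn w)
          · rw [if_pos hw, Measure.smul_apply, smul_eq_mul,
              ENNReal.ofReal_mul (itP_nonneg_fh hp N w)]
            refine mul_le_mul_right ?_ _
            rw [Measure.map_apply (hφm w) Metric.isClosed_closedBall.measurableSet]
            by_cases hz : ∃ z, |z| ≤ D ∧ |affineWordMap r t (List.ofFn w) z - x| ≤ ρ
            · have c1 : ρ ≤ |RR r (List.ofFn w)| := by
                rw [← exp_neg_SS hr0, SS_eq_sum hr0, hρ, lyap_eq]
                refine exp_le_exp.2 ?_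
                have := (abs_le.1 hw.1).2
                linarith
              have c2 : (1 : ℝ) ≤ M * F (List.ofFn w) := by
                simp only [F]
                rw [if_pos ⟨c1, hz⟩, mul_one_div, le_div_iff₀ (prod_pos_fh hq _), one_mul,
                  prod_eq_exp_fh hq, hM]
                refine exp_le_exp.2 ?_
                have := (abs_le.1 hw.2).1
                linarith
              exact le_trans prob_le_one (ENNReal.one_le_ofReal.2 c2)
            · refine le_trans (le_of_eq (measure_mono_null ?_ hsupp)) zero_le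
              intro z hz1 hz2
              refine hz ⟨z, abs_le.2 hz2, ?_⟩
              rw [← hφ]
              simpa [Real.dist_eq] using hz1
          · rw [if_neg hw]
            exact zero_le
      _ = ENNReal.ofReal (Ex p N (fun l => M * F l)) :=
          sum_ofReal_fh hp N _ fun l => mul_nonneg hM0.le (hF0 l)
      _ ≤ ENNReal.ofReal M := by
          rw [Ex_const_mul]
          refine ENNReal.ofReal_le_ofReal ?_
          nlinarith
  · calc (∑ w : Fin N → ι, if good (List.ofFn w) then 0 else
          ENNReal.ofReal (itP p N w) • μ.map (φ w) : Measure ℝ) Set.univ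
        ≤ ∑ w : Fin N → ι, ENNReal.ofReal (itP p N w *
            (if good (List.ofFn w) then 0 else 1)) := by
          rw [Measure.finsetSum_apply]
          refine Finset.sum_le_sum fun w _ => ?_
          by_cases hw : good (List.ofFn w)
          · rw [if_pos hw]
            exact zero_le
          · rw [if_neg hw, if_neg hw, mul_one, Measure.smul_apply, smul_eq_mul,
              Measure.map_apply (hφm w) MeasurableSet.univ]
            simp
      _ = ENNReal.ofReal (Ex p N (fun l => if good l then 0 else 1)) :=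
          sum_ofReal_fh hp N (fun l => if good l then 0 else 1) fun l => by
            split_ifs <;> norm_num
      _ ≤ _ := by
          refine ENNReal.ofReal_le_ofReal ?_
          have e : (V₁ + V₂) / ε ^ 2 / N = V₁ / (ε ^ 2 * N) + V₂ / (ε ^ 2 * N) := by
            field_simp
          rw [e]
          refine le_trans ?_ (add_le_add (h₁ N ε hN hε) (h₂ N ε hN hε))
          rw [← Ex_add]
          refine Ex_mono hp fun l _ => ?_
          by_cases hl : good l
          · rw [if_pos hl]
            split_ifs <;> norm_num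
          · rw [if_neg hl]
            simp only [good, not_and_or, not_le] at hl
            rcases hl with hl | hl
            · rw [if_pos hl]
              split_ifs <;> norm_num
            · rw [if_pos hl]
              split_ifs <;> norm_num

theorem fh {r t p q : ι → ℝ} (hg : Good r p) {μ : Measure ℝ}
    (hμ : IsSelfSimilarMeasure r t p μ) {D : ℝ} (hD : ∀ i, |r i| * D + |t i| ≤ D)
    (hsupp : μ (Set.Icc (-D) D)ᶜ = 0) (hq : ∀ i, 0 < q i)
    (H : ∀ x, (∑ i, if |t i - x| ≤ (D + 1) * |r i| then p i / q i else 0) ≤ 1) :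
    ENNReal.ofReal ((∑ i, p i * (-log (q i))) / lyapunovExp r p) ≤ lowerHausdorffDim μ := by
  by_contra hcon
  rw [not_le, ENNReal.lt_iff_exists_real_btwn] at hcon
  obtain ⟨d, hd0, hd1, hd2⟩ := hcon
  rw [ENNReal.ofReal_lt_ofReal_iff_of_nonneg hd0] at hd2
  refine absurd hd1 (not_lt.2 ?_)
  haveI := hμ.1
  set Hb := ∑ i, p i * (-log (q i)) with hHb
  set χ := lyapunovExp r p with hχ
  have hχ0 : 0 < χ := lyap_pos hg
  rw [lt_div_iff₀ hχ0] at hd2
  set ε := (Hb - d * χ) / (2 * (d + 1)) with hε
  have hε0 : 0 < ε := div_pos (by linarith) (by linarith)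
  have hγ : Hb - ε - d * (χ + ε) = (Hb - d * χ) / 2 := by
    rw [hε]; field_simp; ring
  set γ := (Hb - d * χ) / 2 with hγdef
  have hγ0 : 0 < γ := by rw [hγdef]; linarith
  obtain ⟨V, hV, hS⟩ := fh_scale hg hμ hD hsupp hq H hε0
  choose g b h1 h2 h3 using fun k : ℕ => hS ((k + 1) ^ 2) (by positivity)
  refine mass_dist μ (fun k : ℕ => exp (-((((k + 1) ^ 2 : ℕ) : ℝ) * (χ + ε))))
    (fun k : ℕ => exp (-((((k + 1) ^ 2 : ℕ) : ℝ) * (Hb - ε)))) g b (fun k => exp_pos _) ?_ h1 h2 ?_ ?_
  · refine tendsto_exp_atBot.comp (Filter.tendsto_neg_atTop_atBot.comp ?_)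
    refine Filter.Tendsto.atTop_mul_const (by linarith) ?_
    refine tendsto_natCast_atTop_atTop.comp ?_
    exact (Filter.tendsto_pow_atTop two_ne_zero).comp (Filter.tendsto_add_atTop_nat 1)
  · refine ne_top_of_le_ne_top ?_ (ENNReal.tsum_le_tsum h3)
    refine Summable.tsum_ofReal_ne_top ?_
    have : Summable (fun k : ℕ => V * (1 / ((k + 1 : ℕ) : ℝ) ^ 2)) :=
      ((summable_nat_add_iff 1).2 (summable_one_div_nat_pow.2 one_lt_two)).mul_left V
    refine this.congr fun k => ?_
    push_cast
    ring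
  · obtain ⟨k₀, hk₀⟩ := exists_nat_ge (3 * (d * (χ + ε)) / γ)
    refine Filter.eventually_atTop.2 ⟨k₀, fun k hk => ?_⟩
    rw [← exp_mul]
    refine exp_le_exp.2 ?_
    have hk' : (k₀ : ℝ) ≤ k := Nat.cast_le.2 hk
    rw [div_le_iff₀ hγ0] at hk₀
    have hk0 : (0 : ℝ) ≤ k := Nat.cast_nonneg k
    have hA : 0 ≤ d * (χ + ε) := mul_nonneg hd0 (by linarith)
    have e : Hb - ε = γ + d * (χ + ε) := by linarith
    push_cast
    rw [e]
    set A := d * (χ + ε) with hAdef
    have e2 : -(((k : ℝ) + 1 + 1) ^ 2 * (χ + ε)) * d = -(((k : ℝ) + 1 + 1) ^ 2 * A) := by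
      rw [hAdef]; ring
    rw [e2]
    have h4 : 3 * A ≤ (k + 1) * γ := by nlinarith
    have h5 : ((k : ℝ) + 1) * (3 * A) ≤ (k + 1) * ((k + 1) * γ) :=
      mul_le_mul_of_nonneg_left h4 (by linarith)
    nlinarith

end Crest.Agent.R098
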