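import Crest.Agent.R098.EntE

/-! Entropy gain from convolving with a two-point measure of small gap. -/

set_option autoImplicit false

open MeasureTheory Real Crest.AnalysisR

namespace Crest.Agent.R098

/-- mass of the double window -/
noncomputable def gM (W : FM) (σ u : ℝ) : ℝ := fI W σ u + fI W σ (u + σ)

/-- proportion of the left half -/
noncomputable def gX (W : FM) (σ u : ℝ) : ℝ := fI W σ u / gM W σ u

/-- the quadratic variation functional -/
noncomputable def gG (W : FM) (σ D : ℝ) : ℝ :=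
  ∫ u, min (gM W σ u) (gM W σ (u - D)) * (gX W σ u - gX W σ (u - D)) ^ 2

/-- the correlation functional -/
noncomputable def gI (W : FM) (σ c : ℝ) : ℝ := ∫ u, fI W σ u * gX W σ (u - c)

theorem step_gM (W : FM) (σ : ℝ) : Step (fun u => gM W σ u) :=
  (step_fI W σ).add ((step_fI W σ).shift σ)

theorem step_gX (W : FM) (σ : ℝ) : Step (fun u => gX W σ u) :=
  (step_fI W σ).div (step_gM W σ)

theorem step_gG (W : FM) (σ D : ℝ) :
    Step (fun u => min (gM W σ u) (gM W σ (u - D)) * (gX W σ u - gX W σ (u - D)) ^ 2) :=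
  (step_gM W σ).comp₄ ((step_gM W σ).shift_sub D) (step_gX W σ) ((step_gX W σ).shift_sub D)
    (fun a b c d => min a b * (c - d) ^ 2) (by simp)

theorem gX_nonneg {W : FM} (hW : NN W) (σ u : ℝ) : 0 ≤ gX W σ u :=
  div_nonneg (fI_nonneg hW _ _) (add_nonneg (fI_nonneg hW _ _) (fI_nonneg hW _ _))

theorem gX_le_one {W : FM} (hW : NN W) (σ u : ℝ) : gX W σ u ≤ 1 :=
  div_le_one_of_le₀ (le_add_of_nonneg_right (fI_nonneg hW _ _))
    (add_nonneg (fI_nonneg hW _ _) (fI_nonneg hW _ _))

theorem fI_le_gM {W : FM} (hW : NN W) {σ u c : ℝ} (hσ : 0 ≤ σ) (h0 : 0 ≤ c) (h1 : c ≤ σ) :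
    fI W σ u ≤ gM W σ (u - c) := by
  rw [gM, ← fI_split W hσ hσ]
  exact fI_mono hW (by linarith) (by linarith)

theorem gI_step {W : FM} (hW : Prob W) {σ D c γ : ℝ} (hσ : 0 < σ) (hD : 0 ≤ D) (hc : 0 ≤ c)
    (hcD : c + D ≤ σ) (hγ : 0 < γ) :
    gI W σ c - gI W σ (c + D) ≤ gG W σ D / (2 * γ) + γ * σ / 2 := by
  have i1 : ∀ c, Integrable (fun u => fI W σ u * gX W σ (u - c)) := fun c =>
    ((step_fI W σ).mul ((step_gX W σ).shift_sub c)).integrable
  have i2 := ((step_gG W σ D).shift_sub c).integrable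
  have i3 := (step_fI W σ).integrable
  have e1 : gG W σ D = ∫ u, min (gM W σ (u - c)) (gM W σ (u - c - D)) *
      (gX W σ (u - c) - gX W σ (u - c - D)) ^ 2 := by
    rw [gG, ← integral_sub_right_eq_self _ c]
  have e2 : σ = ∫ u, fI W σ u := by rw [integral_fI W hσ.le, hW.tot_eq, mul_one]
  rw [gI, gI, ← integral_sub (i1 c) (i1 (c + D)), e1]
  calc ∫ u, (fI W σ u * gX W σ (u - c) - fI W σ u * gX W σ (u - (c + D)))
      ≤ ∫ u, (min (gM W σ (u - c)) (gM W σ (u - c - D)) *
          (gX W σ (u - c) - gX W σ (u - c - D)) ^ 2 / (2 * γ) + γ / 2 * fI W σ u) := by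
        refine integral_mono ((i1 c).sub (i1 (c + D))) ((i2.div_const _).add (i3.const_mul _))
          fun u => ?_
        have hf := fI_nonneg hW.nn σ u
        have hm : fI W σ u ≤ min (gM W σ (u - c)) (gM W σ (u - c - D)) := by
          refine le_min (fI_le_gM hW.nn hσ.le hc (by linarith)) ?_
          rw [sub_sub]
          exact fI_le_gM hW.nn hσ.le (by linarith) hcD
        beta_reduce
        rw [← sub_sub]
        set Δ := gX W σ (u - c) - gX W σ (u - c - D) with hΔ
        have h1 : Δ ≤ Δ ^ 2 / (2 * γ) + γ / 2 := by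
          have : Δ ^ 2 / (2 * γ) + γ / 2 - Δ = (Δ - γ) ^ 2 / (2 * γ) := by
            field_simp; ring
          have h2 : 0 ≤ (Δ - γ) ^ 2 / (2 * γ) := by positivity
          linarith
        have h3 : fI W σ u * (Δ ^ 2 / (2 * γ)) ≤
            min (gM W σ (u - c)) (gM W σ (u - c - D)) * (Δ ^ 2 / (2 * γ)) :=
          mul_le_mul_of_nonneg_right hm (by positivity)
        have h4 := mul_le_mul_of_nonneg_left h1 hf
        calc fI W σ u * gX W σ (u - c) - fI W σ u * gX W σ (u - c - D) = fI W σ u * Δ := by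
              rw [hΔ]; ring
          _ ≤ fI W σ u * (Δ ^ 2 / (2 * γ)) + γ / 2 * fI W σ u := by linarith
          _ ≤ _ := by rw [mul_div_assoc]; linarith
    _ = _ := by
        rw [integral_add (i2.div_const _) (i3.const_mul _), integral_div, integral_const_mul, ← e2]
        ring

theorem gI_chain {W : FM} (hW : Prob W) {σ D γ : ℝ} (hσ : 0 < σ) (hD : 0 ≤ D) (hγ : 0 < γ)
    (K : ℕ) (hK : K * D ≤ σ) :
    gI W σ 0 - gI W σ (K * D) ≤ K * (gG W σ D / (2 * γ) + γ * σ / 2) := by
  induction K with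
  | zero => simp
  | succ K ih =>
    have h1 : (K : ℝ) * D + D ≤ σ := by push_cast at hK; linarith
    have h2 := gI_step hW hσ hD (mul_nonneg (Nat.cast_nonneg K) hD) h1 hγ
    have h3 := ih (by linarith)
    have : ((K + 1 : ℕ) : ℝ) * D = K * D + D := by push_cast; ring
    rw [this]
    push_cast
    linarith

theorem gI_shift (W : FM) (σ c : ℝ) : gI W σ c = ∫ u, fI W σ (u + c) * gX W σ u := by
  rw [gI, ← integral_add_right_eq_self _ c]
  simp only [add_sub_cancel_right]

theorem gI_rem {W : FM} (hW : Prob W) {σ c : ℝ} (hσ : 0 < σ) (hc : c ≤ σ) :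
    gI W σ c - gI W σ σ ≤ σ - c := by
  have i1 : ∀ c, Integrable (fun u => fI W σ (u + c) * gX W σ u) := fun c =>
    (((step_fI W σ).shift c).mul (step_gX W σ)).integrable
  have e : σ - c = ∫ u, fI W (σ - c) (u + c) := by
    rw [integral_add_right_eq_self (fun u => fI W (σ - c) u) c, integral_fI W (by linarith),
      hW.tot_eq, mul_one]
  rw [gI_shift, gI_shift, ← integral_sub (i1 c) (i1 σ), e]
  refine integral_mono ((i1 c).sub (i1 σ)) ((step_fI W (σ - c)).shift c).integrable fun u => ?_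
  have h1 : fI W σ (u + c) ≤ fI W (σ - c) (u + c) + fI W σ (u + σ) := by
    have := fI_split W (s := σ - c) (s' := σ) (by linarith) hσ.le (u + c)
    rw [show u + c + (σ - c) = u + σ by ring] at this
    rw [← this]
    exact fI_mono hW.nn le_rfl (by linarith)
  have h2 := gX_nonneg hW.nn σ u
  have h3 := gX_le_one hW.nn σ u
  have h4 := fI_nonneg hW.nn (σ - c) (u + c)
  beta_reduce
  nlinarith

theorem gI_total {W : FM} (hW : Prob W) {σ : ℝ} (hσ : 0 < σ) :
    σ * (log 2 - Es W σ) ≤ gI W σ 0 - gI W σ σ := by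
  have i1 : ∀ c, Integrable (fun u => fI W σ (u + c) * gX W σ u) := fun c =>
    (((step_fI W σ).shift c).mul (step_gX W σ)).integrable
  have i2 := (step_fI W σ).integrable
  have i3 := ((step_fI W σ).shift σ).integrable
  have i4 := ((step_fI W σ).comp₂ ((step_fI W σ).shift σ) Psi Psi_zero).integrable
  have e2 : ∫ u, fI W σ u = σ := by rw [integral_fI W hσ.le, hW.tot_eq, mul_one]
  have e3 : ∫ u, fI W σ (u + σ) = σ := by
    rw [integral_add_right_eq_self (fun u => fI W σ u) σ, e2]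
  have j1 : Integrable (fun u => log 2 * (fI W σ u + fI W σ (u + σ))) := (i2.add i3).const_mul _
  have j2 : Integrable (fun u => (log 2 * (fI W σ u + fI W σ (u + σ)) -
      Psi (fI W σ u) (fI W σ (u + σ))) / 2) := (j1.sub i4).div_const _
  have j3 : Integrable (fun u => (fI W σ u - fI W σ (u + σ)) / 2) := (i2.sub i3).div_const _
  rw [gI_shift, gI_shift, ← integral_sub (i1 0) (i1 σ)]
  have key : σ * (log 2 - Es W σ) = ∫ u, ((log 2 * (fI W σ u + fI W σ (u + σ)) -
      Psi (fI W σ u) (fI W σ (u + σ))) / 2 + (fI W σ u - fI W σ (u + σ)) / 2) := by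
    rw [integral_add j2 j3, integral_div, integral_div, integral_sub j1 i4, integral_const_mul,
      integral_add i2 i3, integral_sub i2 i3, e2, e3, Es]
    field_simp
    ring
  rw [key]
  refine integral_mono (j2.add j3) ((i1 0).sub (i1 σ)) fun u => ?_
  have ha := fI_nonneg hW.nn σ u
  have hb := fI_nonneg hW.nn σ (u + σ)
  have h := Psi_defect ha hb
  beta_reduce
  rw [add_zero, gX, gM]
  set a := fI W σ u
  set b := fI W σ (u + σ)
  have e : a * (a / (a + b)) - b * (a / (a + b)) = (a - b) ^ 2 / (a + b) / 2 + (a - b) / 2 := by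
    rcases (add_nonneg ha hb).eq_or_lt with h0 | h0
    · have h1 : a = 0 := by linarith
      have h2 : b = 0 := by linarith
      rw [h1, h2]
      simp
    · field_simp
      ring
  rw [e]
  linarith

theorem gG_le_gain {W : FM} (hW : Prob W) {σ : ℝ} (hσ : 0 < σ) (y z : ℝ) :
    gG W σ (z - y) / (32 * σ) ≤ Es (two y z * W) σ - Es W σ := by
  set D := z - y with hD
  have i4 := (step_fI W σ).comp₂ ((step_fI W σ).shift σ) Psi Psi_zero
  have i5 := (i4.shift_sub D).integrable
  have i6 : Integrable (fun u => Psi ((fI W σ u + fI W σ (u - D)) / 2)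
      ((fI W σ (u + σ) + fI W σ (u - D + σ)) / 2)) :=
    ((step_fI W σ).comp₄ ((step_fI W σ).shift_sub D) ((step_fI W σ).shift σ)
      (((step_fI W σ).shift σ).shift_sub D)
      (fun a b c d => Psi ((a + b) / 2) ((c + d) / 2)) (by simp [Psi_zero])).integrable
  have e1 : Es (two y z * W) σ = (1 / (2 * σ)) * ∫ u, Psi ((fI W σ u + fI W σ (u - D)) / 2)
      ((fI W σ (u + σ) + fI W σ (u - D + σ)) / 2) := by
    rw [Es, ← integral_add_right_eq_self _ y]
    congr 2
    funext u
    simp only [fI_mul, ev_two]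
    congr 4 <;> ring
  have e2 : Es W σ = (1 / (2 * σ)) * ∫ u, (Psi (fI W σ u) (fI W σ (u + σ)) +
      Psi (fI W σ (u - D)) (fI W σ (u - D + σ))) / 2 := by
    rw [integral_div, integral_add i4.integrable i5,
      integral_sub_right_eq_self (fun u => Psi (fI W σ u) (fI W σ (u + σ))) D, Es]
    ring
  have i7 : Integrable (fun u => (Psi (fI W σ u) (fI W σ (u + σ)) +
      Psi (fI W σ (u - D)) (fI W σ (u - D + σ))) / 2) := (i4.integrable.add i5).div_const _
  rw [e1, e2, ← mul_sub, ← integral_sub i6 i7]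
  have : gG W σ D / (32 * σ) = (1 / (2 * σ)) * ∫ u, min (gM W σ u) (gM W σ (u - D)) *
      (gX W σ u - gX W σ (u - D)) ^ 2 / 16 := by
    rw [integral_div, gG]
    field_simp
    ring
  rw [this]
  refine mul_le_mul_of_nonneg_left ?_ (by positivity)
  refine integral_mono ((step_gG W σ D).integrable.div_const _)
    (i6.sub i7) fun u => ?_
  exact Psi_gain (fI_nonneg hW.nn σ u) (fI_nonneg hW.nn σ (u + σ)) (fI_nonneg hW.nn σ (u - D))
    (fI_nonneg hW.nn σ (u - D + σ))

theorem gain_two_aux {W : FM} (hW : Prob W) {σ θ y z : ℝ} (hσ : 0 < σ) (hθ : 0 < θ)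
    (hyz : y < z) (hD : 4 * (z - y) ≤ θ * σ) :
    θ / 16 * ((z - y) / σ) ^ 2 * (log 2 - Es W σ - θ) ≤ Es (two y z * W) σ - Es W σ := by
  refine le_trans ?_ (gG_le_gain hW hσ y z)
  set D := z - y with hDdef
  have hD0 : 0 < D := by rw [hDdef]; linarith
  set K := ⌊σ / D⌋₊ with hK
  have hK1 : (K : ℝ) ≤ σ / D := Nat.floor_le (by positivity)
  have hK2 : σ / D < K + 1 := Nat.lt_floor_add_one _
  have hK3 : (K : ℝ) * D ≤ σ := by rwa [le_div_iff₀ hD0] at hK1
  have hK4 : σ - K * D ≤ D := by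
    rw [div_lt_iff₀ hD0] at hK2
    linarith
  have hγ : 0 < θ * D / σ := by positivity
  have h1 := gI_chain hW hσ hD0.le hγ K hK3
  have h2 := gI_rem hW hσ hK3
  have h3 := gI_total hW hσ
  have hG : 0 ≤ gG W σ D := integral_nonneg fun u =>
    mul_nonneg (le_min (add_nonneg (fI_nonneg hW.nn _ _) (fI_nonneg hW.nn _ _))
      (add_nonneg (fI_nonneg hW.nn _ _) (fI_nonneg hW.nn _ _))) (sq_nonneg _)
  have h4 : (K : ℝ) * (gG W σ D / (2 * (θ * D / σ)) + θ * D / σ * σ / 2) ≤
      σ / D * (gG W σ D / (2 * (θ * D / σ)) + θ * D / σ * σ / 2) :=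
    mul_le_mul_of_nonneg_right hK1 (by positivity)
  have h5 : σ / D * (gG W σ D / (2 * (θ * D / σ)) + θ * D / σ * σ / 2) =
      σ ^ 2 * gG W σ D / (2 * θ * D ^ 2) + θ * σ / 2 := by
    field_simp
  have h6 : σ * (log 2 - Es W σ - θ) ≤ σ ^ 2 * gG W σ D / (2 * θ * D ^ 2) := by
    nlinarith
  have h7 : θ / 16 * (D / σ) ^ 2 * (log 2 - Es W σ - θ) =
      θ * D ^ 2 / (16 * σ ^ 3) * (σ * (log 2 - Es W σ - θ)) := by
    field_simp
  have h8 : gG W σ D / (32 * σ) =
      θ * D ^ 2 / (16 * σ ^ 3) * (σ ^ 2 * gG W σ D / (2 * θ * D ^ 2)) := by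
    field_simp
    ring
  rw [h7, h8]
  exact mul_le_mul_of_nonneg_left h6 (by positivity)

theorem gain_two {W : FM} (hW : Prob W) {σ θ y z : ℝ} (hσ : 0 < σ) (hθ : 0 < θ) (hθ1 : θ ≤ 1)
    (hD : 4 * |y - z| ≤ θ * σ) :
    θ / 16 * ((y - z) / σ) ^ 2 * (log 2 - Es W σ - θ) ≤ Es (two y z * W) σ - Es W σ := by
  rcases lt_trichotomy y z with h | h | h
  · rw [abs_sub_comm, abs_of_pos (by linarith)] at hD
    have := gain_two_aux hW hσ hθ h hD
    rwa [show ((z - y) / σ) ^ 2 = ((y - z) / σ) ^ 2 by ring] at this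
  · subst h
    have := Es_mul_ge (NN.two y y) hW.nn hσ
    rw [tot_two, one_mul] at this
    simp only [sub_self, zero_div]
    linarith
  · rw [abs_of_pos (by linarith)] at hD
    have := gain_two_aux hW hσ hθ h hD
    rwa [show two z y = two y z from add_comm _ _] at this

end Crest.Agent.R098
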