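import Crest.Agent.R098.Words

/-! Iterates of the system; support of the measure. -/

set_option autoImplicit false

open MeasureTheory Real Crest.AnalysisR

namespace Crest.Agent.R098

variable {ι : Type*} [Fintype ι]

theorem sum_itP_iter {p : ι → ℝ} (hp1 : ∑ i, p i = 1) (k : ℕ) :
    ∑ w : Fin k → ι, ∏ j, p (w j) = 1 := by
  rw [← Fintype.sum_pow, hp1, one_pow]

theorem good_iter {r p : ι → ℝ} (hg : Good r p) {k : ℕ} (hk : 0 < k) :
    Good (itR r k) (itP p k) := by
  refine ⟨fun w => ⟨RR_ne_zero (fun i => (hg.hr i).1) _, ?_⟩,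
    fun w => Finset.prod_pos fun j _ => hg.hp _, sum_itP_iter hg.hp1 k⟩
  obtain ⟨k, rfl⟩ : ∃ k', k = k' + 1 := ⟨k - 1, by omega⟩
  unfold itR
  rw [List.ofFn_succ, RR_cons, abs_mul]
  exact (mul_le_of_le_one_right (abs_nonneg _) (abs_RR_le_one (fun i => (hg.hr i).2) _)).trans_lt
    (hg.hr _).2

theorem selfSimilar_iter {r t p : ι → ℝ} (hp : ∀ i, 0 ≤ p i) {μ : Measure ℝ}
    (hμ : IsSelfSimilarMeasure r t p μ) (k : ℕ) :
    IsSelfSimilarMeasure (itR r k) (itT r t k) (itP p k) μ := by
  refine ⟨hμ.1, ?_⟩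
  induction k with
  | zero =>
    rw [Fintype.sum_unique]
    simp [itR, itT, itP]
  | succ k ih =>
    rw [← (Fin.consEquiv fun _ : Fin (k + 1) => ι).sum_comp, Fintype.sum_prod_type]
    refine hμ.2.trans (Finset.sum_congr rfl fun a _ => ?_)
    have hm : Measurable fun x : ℝ => r a * x + t a := by fun_prop
    conv_lhs => rw [ih]
    rw [Measure.map_finset_sum hm.aemeasurable, Finset.smul_sum]
    refine Finset.sum_congr rfl fun w _ => ?_
    rw [Measure.map_smul, Measure.map_map hm (by fun_prop), smul_smul,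
      ← ENNReal.ofReal_mul (hp a)]
    congr 2
    · simp [itP, Fin.prod_univ_succ]
    · funext x
      simp only [itR, itT, Function.comp, List.ofFn_succ, Fin.consEquiv_apply, Fin.cons_zero,
        Fin.cons_succ, RR_cons, YY_cons]
      ring

theorem lyap_iter {r p : ι → ℝ} (hg : Good r p) (k : ℕ) :
    lyapunovExp (itR r k) (itP p k) = k * lyapunovExp r p := by
  rw [← Ex_SS hg, Ex_eq_sum_fin, lyap_eq]
  rfl

theorem fle_equiv_iter {α α' β : Type*} [Fintype α] [Fintype α'] (e : α ≃ α') (q : α' → ℝ)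
    (Z : α' → β) : finiteLawEntropy (fun a => q (e a)) (fun a => Z (e a)) = finiteLawEntropy q Z := by
  unfold finiteLawEntropy
  rw [← e.sum_comp]
  congr 1
  refine Finset.sum_congr rfl fun a _ => ?_
  rw [← e.sum_comp]
  rfl

omit [Fintype ι] in
theorem awm_blocks_iter (r t : ι → ℝ) (k : ℕ) (L : List (Fin k → ι)) :
    affineWordMap (itR r k) (itT r t k) L =
      affineWordMap r t (L.map fun w => List.ofFn w).flatten := by
  funext x
  induction L with
  | nil => rfl
  | cons a L ih =>
    rw [awm_cons, ih, List.map_cons, List.flatten_cons, awm_append, awm_eq r t (List.ofFn a)]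
    rfl

theorem cme_iter (r t p : ι → ℝ) (k n : ℕ) :
    composedMapEntropy (itR r k) (itT r t k) (itP p k) n = composedMapEntropy r t p (n * k) := by
  unfold composedMapEntropy
  let e : (Fin (n * k) → ι) ≃ (Fin n → Fin k → ι) :=
    (Equiv.arrowCongr finProdFinEquiv.symm (Equiv.refl ι)).trans (Equiv.curry _ _ _)
  have he : ∀ w i j, e w i j = w (finProdFinEquiv (i, j)) := fun _ _ _ => rfl
  rw [← fle_equiv_iter e]
  congr 1
  · funext w
    simp only [itP, he]
    rw [← finProdFinEquiv.prod_comp, Fintype.prod_prod_type]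
  · funext w
    rw [awm_blocks_iter, List.ofFn_mul, List.map_ofFn]
    congr 3
    funext i
    simp only [Function.comp]
    congr 1
    funext j
    rw [he]
    congr 1
    ext
    simp [finProdFinEquiv]
    ring

theorem cme_nonneg {r p : ι → ℝ} (hg : Good r p) (t : ι → ℝ) (n : ℕ) :
    0 ≤ composedMapEntropy r t p n := by
  unfold composedMapEntropy finiteLawEntropy
  have hq : ∀ w : Fin n → ι, 0 ≤ ∏ j, p (w j) :=
    fun w => Finset.prod_nonneg fun j _ => (hg.hp _).le
  rw [neg_nonneg]
  refine Finset.sum_nonpos fun w _ => mul_nonpos_of_nonneg_of_nonpos (hq w) (log_nonpos ?_ ?_)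
  · exact Finset.sum_nonneg fun w' _ => Set.indicator_nonneg (fun a _ => hq a) _
  · rw [← sum_itP_iter hg.hp1 n]
    exact Finset.sum_le_sum fun w' _ => Set.indicator_le_self' (fun a _ => hq a) _

theorem rw_le {r p : ι → ℝ} (hg : Good r p) (t : ι → ℝ) (n : ℕ) :
    n * rwEntropyRate r t p ≤ composedMapEntropy r t p n := by
  rcases n with _ | m
  · simpa using cme_nonneg hg t 0
  · have hb : BddBelow (Set.range fun m : ℕ => composedMapEntropy r t p (m + 1) / ((m : ℝ) + 1)) :=
      ⟨0, by
        rintro _ ⟨m, rfl⟩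
        exact div_nonneg (cme_nonneg hg t _) (by positivity)⟩
    have h := ciInf_le hb m
    rw [le_div_iff₀ (by positivity)] at h
    rw [mul_comm]
    push_cast
    exact h

theorem card_ratios_iter (r : ι → ℝ) (k : ℕ) :
    (Finset.univ.image (itR r k)).card ≤ (k + 1) ^ Fintype.card ι := by
  classical
  have hs : Finset.univ.image (itR r k) ⊆
      Finset.univ.image (fun c : ι → Fin (k + 1) => ∏ i, r i ^ (c i : ℕ)) := by
    intro x hx
    obtain ⟨w, -, rfl⟩ := Finset.mem_image.1 hx
    refine Finset.mem_image.2 ⟨fun i => ⟨(Finset.univ.filter fun j => w j = i).card, ?_⟩,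
      Finset.mem_univ _, ?_⟩
    · exact Nat.lt_succ_of_le ((Finset.card_filter_le _ _).trans (by simp))
    · simp only [itR, RR, List.map_ofFn, List.prod_ofFn, Function.comp]
      rw [← Finset.prod_fiberwise' Finset.univ w r]
      simp
  refine (Finset.card_le_card hs).trans (Finset.card_image_le.trans ?_)
  simp

theorem exists_support {r t p : ι → ℝ} (hg : Good r p) {μ : Measure ℝ}
    (hμ : IsSelfSimilarMeasure r t p μ) :
    ∃ D : ℝ, 0 ≤ D ∧ (∀ i, |r i| * D + |t i| ≤ D) ∧ μ (Set.Icc (-D) D)ᶜ = 0 := by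
  have hne : (Finset.univ : Finset ι).Nonempty := by
    rw [Finset.nonempty_iff_ne_empty]
    intro h
    have := hg.hp1
    rw [h] at this
    simp at this
  obtain ⟨i₀, -, hi₀⟩ := Finset.exists_max_image Finset.univ (fun i => |r i|) hne
  obtain ⟨i₁, -, hi₁⟩ := Finset.exists_max_image Finset.univ (fun i => |t i|) hne
  set ρ := |r i₀| with hρ
  set T := |t i₁| with hT
  have hρ0 : 0 < ρ := abs_pos.2 (hg.hr i₀).1
  have hρ1 : ρ < 1 := (hg.hr i₀).2
  have hT0 : 0 ≤ T := abs_nonneg _
  set D := T / (1 - ρ) with hD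
  have hD0 : 0 ≤ D := div_nonneg hT0 (by linarith)
  have hDe : ρ * D + T = D := by
    have : 1 - ρ ≠ 0 := by linarith
    rw [hD]; field_simp; ring
  refine ⟨D, hD0, fun i => ?_, ?_⟩
  · have h1 := mul_le_mul_of_nonneg_right (hi₀ i (Finset.mem_univ _)) hD0
    have h2 := hi₁ i (Finset.mem_univ _)
    linarith
  have := hμ.1
  let A : ℝ → Set ℝ := fun M => {x | D + M < |x|}
  have hA : ∀ M, MeasurableSet (A M) := fun M =>
    (isOpen_lt continuous_const continuous_abs).measurableSet
  have step : ∀ M, μ (A (ρ * M)) ≤ μ (A M) := by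
    intro M
    conv_lhs => rw [hμ.2]
    rw [Measure.finsetSum_apply]
    calc _ ≤ ∑ i, ENNReal.ofReal (p i) * μ (A M) := by
          refine Finset.sum_le_sum fun i _ => ?_
          rw [Measure.smul_apply, smul_eq_mul, Measure.map_apply (by fun_prop) (hA _)]
          refine mul_le_mul_right (measure_mono fun x hx => ?_) _
          simp only [A, Set.mem_preimage, Set.mem_ofPred_eq] at hx ⊢
          have h1 := abs_add_le (r i * x) (t i)
          rw [abs_mul] at h1
          have h2 := mul_le_mul_of_nonneg_right (hi₀ i (Finset.mem_univ _)) (abs_nonneg x)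
          have h3 := hi₁ i (Finset.mem_univ _)
          refine lt_of_mul_lt_mul_left ?_ hρ0.le
          linarith
      _ = μ (A M) := by
          rw [← Finset.sum_mul, ← ENNReal.ofReal_sum_of_nonneg fun i _ => (hg.hp i).le, hg.hp1]
          simp
  have step' : ∀ (n : ℕ) M, μ (A (ρ ^ n * M)) ≤ μ (A M) := by
    intro n M
    induction n with
    | zero => simp
    | succ n ih =>
      rw [pow_succ', mul_assoc]
      exact (step _).trans ih
  have hle : ∀ M : ℝ, 0 ≤ M → μ (Set.Icc (-D) D)ᶜ ≤ μ (A M) := by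
    intro M hM
    have hmono : Monotone fun n : ℕ => A (ρ ^ n * M) := by
      intro n m hnm x hx
      simp only [A, Set.mem_ofPred_eq] at hx ⊢
      have := mul_le_mul_of_nonneg_right (pow_le_pow_of_le_one hρ0.le hρ1.le hnm) hM
      linarith
    have hsub : (Set.Icc (-D) D)ᶜ ⊆ ⋃ n : ℕ, A (ρ ^ n * M) := by
      intro x hx
      have hx' : D < |x| := by
        by_contra hc
        exact hx (abs_le.1 (not_lt.1 hc))
      have ht : Filter.Tendsto (fun n : ℕ => D + ρ ^ n * M) Filter.atTop (nhds (D + 0 * M)) :=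
        ((tendsto_pow_atTop_nhds_zero_of_lt_one hρ0.le hρ1).mul_const M).const_add D
      rw [zero_mul, add_zero] at ht
      obtain ⟨n, hn⟩ := (ht.eventually (gt_mem_nhds hx')).exists
      exact Set.mem_iUnion.2 ⟨n, hn⟩
    refine (measure_mono hsub).trans ?_
    rw [hmono.measure_iUnion]
    exact iSup_le fun n => step' n M
  have hlim : Filter.Tendsto (fun n : ℕ => μ (A n)) Filter.atTop (nhds (μ (⋂ n : ℕ, A n))) := by
    refine tendsto_measure_iInter_atTop (fun n => (hA _).nullMeasurableSet) ?_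
      ⟨0, measure_ne_top _ _⟩
    intro n m hnm x hx
    simp only [A, Set.mem_ofPred_eq] at hx ⊢
    have : (n : ℝ) ≤ m := by exact_mod_cast hnm
    linarith
  have hem : (⋂ n : ℕ, A n) = ∅ := by
    rw [Set.eq_empty_iff_forall_notMem]
    intro x hx
    obtain ⟨n, hn⟩ := exists_nat_ge |x|
    have := Set.mem_iInter.1 hx n
    simp only [A, Set.mem_ofPred_eq] at this
    linarith
  rw [hem, measure_empty] at hlim
  exact le_antisymm (ge_of_tendsto' hlim fun n => hle n (Nat.cast_nonneg n)) zero_le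

end Crest.Agent.R098
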