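import Crest.Agent.R098.Block
import Crest.Agent.R098.Core
import Crest.Agent.R098.Iter

/-! The lower bound. -/

set_option autoImplicit false

open MeasureTheory Real Crest.AnalysisR

namespace Crest.Agent.R098

variable {ι : Type*} [Fintype ι]

theorem ofReal_le_of_tendsto_lb {d : ENNReal} {a : ℝ} {f : ℕ → ℝ}
    (hf : Filter.Tendsto f Filter.atTop (nhds a))
    (h : ∀ n, 0 < n → ENNReal.ofReal (f n) ≤ d) : ENNReal.ofReal a ≤ d :=
  le_of_tendsto ((ENNReal.continuous_ofReal.tendsto a).comp hf)
    ((Filter.eventually_gt_atTop 0).mono h)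

theorem tendsto_sub_div_lb (a c : ℝ) :
    Filter.Tendsto (fun n : ℕ => a - c / (n : ℝ)) Filter.atTop (nhds a) := by
  have := (tendsto_const_div_atTop_nhds_zero_nat c).const_sub a
  simpa using this

theorem tendsto_log_div_lb :
    Filter.Tendsto (fun k : ℕ => log ((k : ℝ) + 1) / (k : ℝ)) Filter.atTop (nhds 0) := by
  have h1 : Filter.Tendsto (fun k : ℕ => (k : ℝ) + 1) Filter.atTop Filter.atTop :=
    Filter.tendsto_atTop_add_const_right _ 1 tendsto_natCast_atTop_atTop
  have h2 := (Real.tendsto_pow_log_div_mul_add_atTop 1 (-1) 1 one_ne_zero).comp h1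
  refine h2.congr fun k => ?_
  simp [Function.comp]

theorem lb1 {r t p : ι → ℝ} (hg : Good r p) {μ : Measure ℝ} (hμ : IsSelfSimilarMeasure r t p μ)
    {h : ℝ} (hh : ∀ n : ℕ, n * h ≤ composedMapEntropy r t p n) :
    ENNReal.ofReal (min 1 ((h - log ((Finset.univ.image r).card : ℝ)) / lyapunovExp r p)) ≤
      lowerHausdorffDim μ := by
  obtain ⟨D, hD0, hD, hsupp⟩ := exists_support hg hμ
  have hχ := lyap_pos hg
  have hl2 : 0 < log 2 := log_pos one_lt_two
  set χ := lyapunovExp r p with hχd
  set L := log ((Finset.univ.image r).card : ℝ) with hL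
  set m := min 1 ((h - L) / χ) with hm
  set K := log (1 + 2 * (2 * (D + 1))) with hK
  have hm1 : m ≤ 1 := min_le_left _ _
  have hm2 : m * χ ≤ h - L := (le_div_iff₀ hχ).1 (min_le_right _ _)
  refine ofReal_le_of_tendsto_lb (tendsto_sub_div_lb m (1 / (log 2 * χ))) fun k hk => ?_
  have hk' : (0 : ℝ) < k := Nat.cast_pos.2 hk
  obtain ⟨C, hC⟩ := core (e := eta r t p) (eta_prob hg t) hg (ε := 1 / (k : ℝ)) (by positivity)
  refine ofReal_le_of_tendsto_lb (tendsto_sub_div_lb _ ((C / log 2 + K) / χ)) fun n hn => ?_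
  have hn' : (0 : ℝ) < n := Nat.cast_pos.2 hn
  refine le_trans (ENNReal.ofReal_le_ofReal ?_) (block_lb hg hμ hD0 hD hsupp hn)
  have h1 := hC n
  have h2 := ent_book hg t n
  have h3 := hh n
  set S := Ex p n (fun l => Sh (nuG (eta r t p) r l))
  set E := Ex p n (fun l => Ks (nuG (eta r t p) r l) (SS r l))
  have h4 : n * χ * log 2 * m ≤ min (n * χ * log 2) (log 2 * S) := by
    refine le_min ?_ ?_
    · have : 0 ≤ n * χ * log 2 := by positivity
      nlinarith
    · have h5 : n * (m * χ) ≤ S := by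
        have := mul_le_mul_of_nonneg_left hm2 hn'.le
        nlinarith
      nlinarith
  have h6 : n * χ * log 2 * m - 1 / (k : ℝ) * n - C ≤ E := by linarith
  have h7 : (n * χ * log 2 * m - 1 / (k : ℝ) * n - C) / log 2 ≤ E / log 2 :=
    div_le_div_of_nonneg_right h6 hl2.le
  have hnχ : 0 < n * χ := by positivity
  calc m - 1 / (log 2 * χ) / k - (C / log 2 + K) / χ / n
      = ((n * χ * log 2 * m - 1 / (k : ℝ) * n - C) / log 2 - K) / (n * χ) := by
        field_simp
        ring
    _ ≤ (E / log 2 - K) / (n * χ) := by gcongr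

theorem lb {r t p : ι → ℝ} (hg : Good r p) {μ : Measure ℝ} (hμ : IsSelfSimilarMeasure r t p μ) :
    ENNReal.ofReal (min 1 (rwEntropyRate r t p / lyapunovExp r p)) ≤ lowerHausdorffDim μ := by
  have hχ := lyap_pos hg
  set χ := lyapunovExp r p with hχd
  set h := rwEntropyRate r t p with hh
  have ht : Filter.Tendsto
      (fun k : ℕ => min 1 ((h - Fintype.card ι * (log ((k : ℝ) + 1) / k)) / χ)) Filter.atTop
      (nhds (min 1 (h / χ))) := by
    have h1 := ((tendsto_log_div_lb.const_mul (Fintype.card ι : ℝ)).const_sub h).div_const χ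
    have h2 := (tendsto_const_nhds (x := (1 : ℝ))).min h1
    simpa using h2
  refine ofReal_le_of_tendsto_lb ht fun k hk => ?_
  have hk' : (0 : ℝ) < k := Nat.cast_pos.2 hk
  have h1 := lb1 (good_iter hg hk) (selfSimilar_iter (fun i => (hg.hp i).le) hμ k)
    (h := k * h) (fun n => by
      rw [cme_iter]
      have := rw_le hg t (n * k)
      push_cast at this
      linarith)
  refine le_trans (ENNReal.ofReal_le_ofReal ?_) h1
  refine min_le_min le_rfl ?_
  rw [lyap_iter hg]
  have hN := card_ratios_iter r k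
  have hlog : log ((Finset.univ.image (itR r k)).card : ℝ) ≤
      Fintype.card ι * log ((k : ℝ) + 1) := by
    rw [← Real.log_pow]
    rcases Nat.eq_zero_or_pos (Finset.univ.image (itR r k)).card with h0 | h0
    · rw [h0, Nat.cast_zero, log_zero]
      exact log_nonneg (one_le_pow₀ (by linarith))
    · refine log_le_log (Nat.cast_pos.2 h0) ?_
      exact_mod_cast hN
  calc (h - Fintype.card ι * (log ((k : ℝ) + 1) / k)) / χ
      = (k * h - Fintype.card ι * log ((k : ℝ) + 1)) / (k * χ) := by
        field_simp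
    _ ≤ _ := by gcongr

end Crest.Agent.R098
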