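import Crest.Agent.R098.Iter

/-! The upper bound. -/

set_option autoImplicit false

open MeasureTheory Real Crest.AnalysisR

namespace Crest.Agent.R098

variable {ι : Type*} [Fintype ι]

/-- the interval of a letter whose ratio is small compared with its weight -/
noncomputable def piece_ub {κ : Type*} (r t p : κ → ℝ) (D d : ℝ) (i : κ) : Set ℝ :=
  if |r i| ^ d ≤ p i then Set.Icc (t i - |r i| * D) (t i + |r i| * D) else ∅

theorem piece_meas_ub {κ : Type*} (r t p : κ → ℝ) (D d : ℝ) (i : κ) :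
    MeasurableSet (piece_ub r t p D d i) := by
  unfold piece_ub
  split_ifs
  · exact measurableSet_Icc
  · exact MeasurableSet.empty

theorem piece_ediam_ub {κ : Type*} (r t p : κ → ℝ) (D d : ℝ) (i : κ) :
    Metric.ediam (piece_ub r t p D d i) ≤ ENNReal.ofReal (2 * D * |r i|) := by
  unfold piece_ub
  split_ifs
  · rw [Real.ediam_Icc]
    exact le_of_eq (by congr 1; ring)
  · simp

theorem piece_sum_ub {κ : Type*} [Fintype κ] {r p : κ → ℝ} (hg : Good r p) (t : κ → ℝ) {D d : ℝ}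
    (hD : 0 ≤ D) (hd : 0 < d) :
    ∑ i, Metric.ediam (piece_ub r t p D d i) ^ d ≤ ENNReal.ofReal ((2 * D) ^ d) := by
  have h : ∀ i, Metric.ediam (piece_ub r t p D d i) ^ d ≤ ENNReal.ofReal ((2 * D) ^ d * p i) := by
    intro i
    by_cases hi : |r i| ^ d ≤ p i
    · refine (ENNReal.rpow_le_rpow (piece_ediam_ub r t p D d i) hd.le).trans ?_
      rw [ENNReal.ofReal_rpow_of_nonneg (by positivity) hd.le,
        mul_rpow (by positivity) (abs_nonneg _)]
      exact ENNReal.ofReal_le_ofReal (mul_le_mul_of_nonneg_left hi (by positivity))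
    · simp [piece_ub, hi, hd]
  refine (Finset.sum_le_sum fun i _ => h i).trans ?_
  rw [← ENNReal.ofReal_sum_of_nonneg fun i _ => mul_nonneg (by positivity) (hg.hp i).le,
    ← Finset.mul_sum, hg.hp1, mul_one]

theorem piece_compl_ub {κ : Type*} [Fintype κ] {r t p : κ → ℝ} (hp : ∀ i, 0 ≤ p i) {μ : Measure ℝ}
    (hμ : IsSelfSimilarMeasure r t p μ) {D : ℝ} (hD : μ (Set.Icc (-D) D)ᶜ = 0) (d : ℝ) :
    μ (⋃ i, piece_ub r t p D d i)ᶜ ≤
      ENNReal.ofReal (∑ i, p i * if p i < |r i| ^ d then 1 else 0) := by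
  have := hμ.1
  have hU : MeasurableSet (⋃ i, piece_ub r t p D d i)ᶜ :=
    (MeasurableSet.iUnion fun i => piece_meas_ub r t p D d i).compl
  rw [hμ.2, ENNReal.ofReal_sum_of_nonneg fun i _ => mul_nonneg (hp i) (by positivity),
    Measure.finsetSum_apply]
  refine Finset.sum_le_sum fun i _ => ?_
  rw [Measure.smul_apply, smul_eq_mul, Measure.map_apply (by fun_prop) hU]
  split_ifs with hi
  · rw [mul_one]
    exact mul_le_of_le_one_right' prob_le_one
  · rw [measure_mono_null (t := (Set.Icc (-D) D)ᶜ) _ hD]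
    · simp
    · intro x hx hx'
      refine hx (Set.mem_iUnion.2 ⟨i, ?_⟩)
      rw [piece_ub, if_pos (not_lt.1 hi)]
      have h1 : |r i * x| ≤ |r i| * D := by
        rw [abs_mul]
        exact mul_le_mul_of_nonneg_left (abs_le.2 hx') (abs_nonneg _)
      constructor <;> linarith [(abs_le.1 h1).1, (abs_le.1 h1).2]

omit [Fintype ι] in
theorem abs_itR_ub (r : ι → ℝ) (N : ℕ) (w : Fin N → ι) : |itR r N w| = ∏ j, |r (w j)| := by
  rw [itR, RR, List.map_ofFn, List.prod_ofFn, Finset.abs_prod]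
  rfl

/-- most long words have a ratio which is small compared with their weight -/
theorem bad_le_ub {r p : ι → ℝ} (hg : Good r p) {d : ℝ}
    (hd : ∑ i, p i * (-log (p i)) < d * lyapunovExp r p) :
    ∃ V : ℝ, ∀ N : ℕ, 0 < N →
      (∑ w, itP p N w * if itP p N w < |itR r N w| ^ d then 1 else 0) ≤ V / N := by
  set F : ι → ℝ := fun i => log (p i) - d * log |r i| with hF
  obtain ⟨V, -, hV⟩ := wlln (fun i => (hg.hp i).le) hg.hp1 F
  set M := ∑ i, p i * F i with hM
  have hM0 : 0 < M := by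
    have : M = d * lyapunovExp r p - ∑ i, p i * (-log (p i)) := by
      rw [lyap_eq, Finset.mul_sum, ← Finset.sum_sub_distrib]
      exact Finset.sum_congr rfl fun i _ => by rw [hF]; ring
    linarith
  refine ⟨V / M ^ 2, fun N hN => ?_⟩
  have h := hV N M hN hM0
  rw [Ex_eq_sum_fin, ← div_div] at h
  refine le_trans (Finset.sum_le_sum fun w _ => ?_) h
  have hP : 0 < itP p N w := Finset.prod_pos fun j _ => hg.hp _
  refine mul_le_mul_of_nonneg_left ?_ hP.le
  split_ifs with h1 h2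
  · rfl
  · exfalso
    have hR : ∀ j, 0 < |r (w j)| := fun j => abs_pos.2 (hg.hr _).1
    rw [← not_le, rpow_le_iff_le_log (abs_itR_ub r N w ▸ Finset.prod_pos fun j _ => hR j) hP,
      abs_itR_ub, itP, log_prod fun j _ => (hR j).ne', log_prod fun j _ => (hg.hp _).ne'] at h1
    rw [not_lt, List.map_ofFn, List.sum_ofFn] at h2
    have h3 := (abs_le.1 h2).1
    simp only [Function.comp, hF, Finset.sum_sub_distrib, ← Finset.mul_sum] at h3
    exact h1 (by linarith)
  · exact zero_le_one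
  · rfl

theorem le_ofReal_ub {a : ENNReal} {x : ℝ} (h : ∀ d : NNReal, 0 < d → x < d → a ≤ d) :
    a ≤ ENNReal.ofReal x := by
  refine le_of_forall_gt_imp_ge_of_dense fun b hb => ?_
  induction b with
  | top => exact le_top
  | coe d =>
    refine h d (ENNReal.coe_pos.1 (lt_of_le_of_lt zero_le hb)) (not_le.1 fun hx => hb.not_ge ?_)
    rw [← ENNReal.ofReal_coe_nnreal]
    exact ENNReal.ofReal_le_ofReal hx

theorem dim_le_ub {μ : Measure ℝ} {E : Set ℝ} (hE : MeasurableSet E) (h0 : 0 < μ E) :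
    lowerHausdorffDim μ ≤ dimH E :=
  (iInf_le _ E).trans (iInf₂_le hE h0)

/-- the classical bound by entropy over Lyapunov exponent -/
theorem ub0 {r t p : ι → ℝ} (hg : Good r p) {μ : Measure ℝ} (hμ : IsSelfSimilarMeasure r t p μ) :
    lowerHausdorffDim μ ≤ ENNReal.ofReal ((∑ i, p i * (-log (p i))) / lyapunovExp r p) := by
  have := hμ.1
  refine le_ofReal_ub fun d hd0 hd => ?_
  rw [div_lt_iff₀ (lyap_pos hg)] at hd
  obtain ⟨V, hV⟩ := bad_le_ub hg hd
  obtain ⟨D, hD0, -, hD⟩ := exists_support hg hμ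
  obtain ⟨ρ, hρ0, hρ1, hρ⟩ : ∃ ρ : ℝ, 0 ≤ ρ ∧ ρ < 1 ∧ ∀ i, |r i| ≤ ρ := by
    rcases isEmpty_or_nonempty ι with h | h
    · exact ⟨0, le_rfl, one_pos, fun i => isEmptyElim i⟩
    · obtain ⟨i, hi⟩ := Finite.exists_max fun i => |r i|
      exact ⟨_, abs_nonneg _, (hg.hr i).2, hi⟩
  obtain ⟨δ, hδ, hsum⟩ := ENNReal.exists_pos_sum_of_countable one_ne_zero ℕ
  have hN : ∀ j : ℕ, ∃ N : ℕ, j < N ∧ V / N ≤ δ j := fun j =>
    ((Filter.eventually_gt_atTop j).and
      ((tendsto_const_div_atTop_nhds_zero_nat V).eventually_le_const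
        (NNReal.coe_pos.2 (hδ j)))).exists
  choose N hN1 hN2 using hN
  have hN0 : ∀ j, 0 < N j := fun j => (Nat.zero_le j).trans_lt (hN1 j)
  set T : ∀ j, (Fin (N j) → ι) → Set ℝ := fun j =>
    piece_ub (itR r (N j)) (itT r t (N j)) (itP p (N j)) D d with hT
  have hE : MeasurableSet (⋂ j, ⋃ w, T j w) :=
    MeasurableSet.iInter fun j => MeasurableSet.iUnion fun w => piece_meas_ub _ _ _ _ _ _
  have hEc : μ (⋂ j, ⋃ w, T j w)ᶜ < 1 := by
    rw [Set.compl_iInter]
    refine (measure_iUnion_le _).trans_lt (lt_of_le_of_lt (ENNReal.tsum_le_tsum fun j => ?_) hsum)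
    refine (piece_compl_ub (fun w => ((good_iter hg (hN0 j)).hp w).le)
      (selfSimilar_iter (fun i => (hg.hp i).le) hμ (N j)) hD d).trans ?_
    rw [← ENNReal.ofReal_coe_nnreal]
    exact ENNReal.ofReal_le_ofReal ((hV _ (hN0 j)).trans (hN2 j))
  have hE0 : 0 < μ (⋂ j, ⋃ w, T j w) := by
    refine pos_iff_ne_zero.2 fun h => hEc.ne ?_
    rw [prob_compl_eq_one_sub hE, h, tsub_zero]
  refine (dim_le_ub hE hE0).trans (dimH_le_of_hausdorffMeasure_ne_top ?_)
  refine ne_top_of_le_ne_top (ENNReal.ofReal_ne_top (r := (2 * D) ^ (d : ℝ))) ?_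
  have hlim : Filter.Tendsto (fun j : ℕ => ENNReal.ofReal (2 * D * ρ ^ j)) Filter.atTop (nhds 0) := by
    have := ENNReal.tendsto_ofReal ((tendsto_pow_atTop_nhds_zero_of_lt_one hρ0 hρ1).const_mul (2 * D))
    simpa using this
  refine (Measure.hausdorffMeasure_le_liminf_sum (d : ℝ) _ _ hlim T
    (Filter.Eventually.of_forall fun j w => ?_)
    (Filter.Eventually.of_forall fun j => Set.iInter_subset _ j)).trans ?_
  · refine (piece_ediam_ub _ _ _ _ _ _).trans (ENNReal.ofReal_le_ofReal ?_)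
    refine mul_le_mul_of_nonneg_left ?_ (by positivity)
    rw [abs_itR_ub]
    calc _ ≤ ∏ _ : Fin (N j), ρ := Finset.prod_le_prod (fun _ _ => abs_nonneg _) fun _ _ => hρ _
      _ = ρ ^ N j := by simp
      _ ≤ ρ ^ j := pow_le_pow_of_le_one hρ0 hρ1.le (hN1 j).le
  · exact Filter.liminf_le_of_frequently_le' (Filter.Frequently.of_forall fun j =>
      piece_sum_ub (good_iter hg (hN0 j)) _ hD0 (NNReal.coe_pos.2 hd0))

/-- the bound after merging letters with the same map -/
theorem ubG {β : Type*} {r t p : ι → ℝ} (hg : Good r p) {μ : Measure ℝ}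
    (hμ : IsSelfSimilarMeasure r t p μ) (Z : ι → β)
    (hZ : ∀ i j, Z i = Z j ↔ r i = r j ∧ t i = t j) :
    lowerHausdorffDim μ ≤ ENNReal.ofReal (finiteLawEntropy p Z / lyapunovExp r p) := by
  classical
  set T : Finset (ℝ × ℝ) := Finset.univ.image fun i => (r i, t i) with hT
  set cl : ι → T := fun i => ⟨(r i, t i), Finset.mem_image_of_mem _ (Finset.mem_univ i)⟩ with hcl
  have hsurj : ∀ γ : T, ∃ i, cl i = γ := fun γ => by
    obtain ⟨i, -, hi⟩ := Finset.mem_image.1 γ.2
    exact ⟨i, Subtype.ext hi⟩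
  set q : T → ℝ := fun γ => ∑ i with cl i = γ, p i with hq
  have key : ∀ G : T → ℝ, ∑ γ, q γ * G γ = ∑ i, p i * G (cl i) := fun G => by
    rw [← Finset.sum_fiberwise Finset.univ cl]
    refine Finset.sum_congr rfl fun γ _ => ?_
    rw [hq, Finset.sum_mul]
    exact Finset.sum_congr rfl fun i hi => by rw [(Finset.mem_filter.1 hi).2]
  have hg' : Good (fun γ : T => γ.1.1) q := by
    refine ⟨fun γ => ?_, fun γ => ?_, ?_⟩
    · obtain ⟨i, rfl⟩ := hsurj γ
      exact hg.hr i
    · obtain ⟨i, rfl⟩ := hsurj γ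
      exact Finset.sum_pos (fun j _ => hg.hp j) ⟨i, by simp⟩
    · simpa [hg.hp1] using key fun _ => 1
  have hμ' : IsSelfSimilarMeasure (fun γ : T => γ.1.1) (fun γ : T => γ.1.2) q μ := by
    refine ⟨hμ.1, hμ.2.trans ?_⟩
    rw [← Finset.sum_fiberwise Finset.univ cl]
    refine Finset.sum_congr rfl fun γ _ => ?_
    rw [hq, ENNReal.ofReal_sum_of_nonneg fun i _ => (hg.hp i).le, Finset.sum_smul]
    exact Finset.sum_congr rfl fun i hi => by rw [← (Finset.mem_filter.1 hi).2]
  have h := ub0 hg' hμ'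
  rw [key, lyap_eq, key, ← lyap_eq] at h
  refine h.trans (le_of_eq ?_)
  congr 2
  rw [finiteLawEntropy, ← Finset.sum_neg_distrib]
  refine Finset.sum_congr rfl fun i _ => ?_
  rw [mul_neg, hq]
  congr 3
  beta_reduce
  rw [Finset.sum_filter]
  refine Finset.sum_congr rfl fun j _ => ?_
  rw [Set.indicator_apply]
  refine if_congr ?_ rfl rfl
  simp [hcl, hZ]

theorem ubk {r t p : ι → ℝ} (hg : Good r p) {μ : Measure ℝ} (hμ : IsSelfSimilarMeasure r t p μ)
    {k : ℕ} (hk : 0 < k) :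
    lowerHausdorffDim μ ≤ ENNReal.ofReal (composedMapEntropy r t p k / (k * lyapunovExp r p)) := by
  rw [← lyap_iter hg]
  refine ubG (good_iter hg hk) (selfSimilar_iter (fun i => (hg.hp i).le) hμ k)
    (fun w : Fin k → ι => affineWordMap r t (List.ofFn w)) fun w w' => ⟨fun h => ?_, fun h => ?_⟩
  · have h0 := congrFun h 0
    have h1 := congrFun h 1
    rw [awm_eq, awm_eq] at h0 h1
    unfold itR itT
    constructor <;> linarith
  · funext x
    rw [awm_eq, awm_eq]
    exact congrArg₂ (fun a b => a * x + b) h.1 h.2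

theorem ub1 {r t p : ι → ℝ} (hg : Good r p) {μ : Measure ℝ}
    (hμ : IsSelfSimilarMeasure r t p μ) :
    lowerHausdorffDim μ ≤ ENNReal.ofReal (composedMapEntropy r t p 1 / lyapunovExp r p) := by
  simpa using ubk hg hμ one_pos

theorem ub {r t p : ι → ℝ} (hg : Good r p) {μ : Measure ℝ} (hμ : IsSelfSimilarMeasure r t p μ) :
    lowerHausdorffDim μ ≤ ENNReal.ofReal (min 1 (rwEntropyRate r t p / lyapunovExp r p)) := by
  have := hμ.1
  rcases min_choice 1 (rwEntropyRate r t p / lyapunovExp r p) with h | h <;> rw [h]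
  · refine (dim_le_ub MeasurableSet.univ (by simp)).trans ?_
    simp [Real.dimH_univ]
  · refine le_ofReal_ub fun d _ hd => ?_
    rw [div_lt_iff₀ (lyap_pos hg)] at hd
    obtain ⟨m, hm⟩ := exists_lt_of_ciInf_lt hd
    refine (ubk hg hμ m.succ_pos).trans ?_
    rw [← ENNReal.ofReal_coe_nnreal]
    refine ENNReal.ofReal_le_ofReal ?_
    rw [← div_div, div_le_iff₀ (lyap_pos hg), Nat.cast_succ]
    exact hm.le

end Crest.Agent.R098
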