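import Crest.Agent.R098.Ev

/-! Expectation over random words; ratios and maps of words; weak law of large numbers. -/

set_option autoImplicit false

open MeasureTheory Real Crest.AnalysisR

namespace Crest.Agent.R098

variable {ι : Type*} [Fintype ι]

@[simp] theorem Ex_zero (p : ι → ℝ) (F : List ι → ℝ) : Ex p 0 F = F [] := rfl

theorem Ex_succ (p : ι → ℝ) (n : ℕ) (F : List ι → ℝ) :
    Ex p (n + 1) F = ∑ a, p a * Ex p n (fun l => F (a :: l)) := rfl

theorem Ex_congr (p : ι → ℝ) {n : ℕ} {F G : List ι → ℝ} (h : ∀ l, l.length = n → F l = G l) :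
    Ex p n F = Ex p n G := by
  induction n generalizing F G with
  | zero => exact h [] rfl
  | succ n ih =>
    rw [Ex_succ, Ex_succ]
    refine Finset.sum_congr rfl fun a _ => ?_
    rw [ih fun l hl => h (a :: l) (by simp [hl])]

theorem Ex_const {p : ι → ℝ} (hp1 : ∑ i, p i = 1) (n : ℕ) (c : ℝ) : Ex p n (fun _ => c) = c := by
  induction n with
  | zero => rfl
  | succ n ih => rw [Ex_succ, ih, ← Finset.sum_mul, hp1, one_mul]

theorem Ex_add (p : ι → ℝ) (n : ℕ) (F G : List ι → ℝ) :
    Ex p n (fun l => F l + G l) = Ex p n F + Ex p n G := by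
  induction n generalizing F G with
  | zero => rfl
  | succ n ih =>
    simp only [Ex_succ, ih (fun l => F (_ :: l)) (fun l => G (_ :: l)), mul_add,
      Finset.sum_add_distrib]

theorem Ex_sub (p : ι → ℝ) (n : ℕ) (F G : List ι → ℝ) :
    Ex p n (fun l => F l - G l) = Ex p n F - Ex p n G := by
  induction n generalizing F G with
  | zero => rfl
  | succ n ih =>
    simp only [Ex_succ, ih (fun l => F (_ :: l)) (fun l => G (_ :: l)), mul_sub,
      Finset.sum_sub_distrib]

theorem Ex_const_mul (p : ι → ℝ) (n : ℕ) (c : ℝ) (F : List ι → ℝ) :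
    Ex p n (fun l => c * F l) = c * Ex p n F := by
  induction n generalizing F with
  | zero => rfl
  | succ n ih =>
    simp only [Ex_succ, ih (fun l => F (_ :: l)), Finset.mul_sum]
    exact Finset.sum_congr rfl fun a _ => by ring

theorem Ex_mul_const (p : ι → ℝ) (n : ℕ) (c : ℝ) (F : List ι → ℝ) :
    Ex p n (fun l => F l * c) = Ex p n F * c := by
  simp only [mul_comm _ c, Ex_const_mul]

theorem Ex_sum {α : Type*} (p : ι → ℝ) (n : ℕ) (s : Finset α) (F : α → List ι → ℝ) :
    Ex p n (fun l => ∑ a ∈ s, F a l) = ∑ a ∈ s, Ex p n (F a) := by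
  induction n generalizing F with
  | zero => rfl
  | succ n ih =>
    simp only [Ex_succ, ih (fun a l => F a (_ :: l)), Finset.mul_sum]
    exact Finset.sum_comm

theorem Ex_mono {p : ι → ℝ} (hp : ∀ i, 0 ≤ p i) {n : ℕ} {F G : List ι → ℝ}
    (h : ∀ l, l.length = n → F l ≤ G l) : Ex p n F ≤ Ex p n G := by
  induction n generalizing F G with
  | zero => exact h [] rfl
  | succ n ih =>
    rw [Ex_succ, Ex_succ]
    exact Finset.sum_le_sum fun a _ => mul_le_mul_of_nonneg_left
      (ih fun l hl => h (a :: l) (by simp [hl])) (hp a)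

theorem Ex_nonneg {p : ι → ℝ} (hp : ∀ i, 0 ≤ p i) {n : ℕ} {F : List ι → ℝ}
    (h : ∀ l, l.length = n → 0 ≤ F l) : 0 ≤ Ex p n F := by
  induction n generalizing F with
  | zero => exact h [] rfl
  | succ n ih =>
    rw [Ex_succ]
    exact Finset.sum_nonneg fun a _ => mul_nonneg (hp a)
      (ih fun l hl => h (a :: l) (by simp [hl]))

theorem Ex_append (p : ι → ℝ) (n m : ℕ) (F : List ι → ℝ) :
    Ex p (n + m) F = Ex p n (fun l => Ex p m (fun l' => F (l ++ l'))) := by
  induction n generalizing F with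
  | zero => simp
  | succ n ih =>
    rw [Nat.add_right_comm, Ex_succ, Ex_succ]
    refine Finset.sum_congr rfl fun a _ => ?_
    rw [ih]
    rfl

theorem Ex_snoc (p : ι → ℝ) (n : ℕ) (F : List ι → ℝ) :
    Ex p (n + 1) F = Ex p n (fun l => ∑ a, p a * F (l ++ [a])) := by
  rw [Ex_append]
  rfl

theorem Ex_eq_sum_fin (p : ι → ℝ) (n : ℕ) (F : List ι → ℝ) :
    Ex p n F = ∑ w : Fin n → ι, (∏ j, p (w j)) * F (List.ofFn w) := by
  induction n generalizing F with
  | zero => simp
  | succ n ih =>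
    rw [Ex_succ, ← (Fin.consEquiv fun _ : Fin (n + 1) => ι).sum_comp, Fintype.sum_prod_type]
    refine Finset.sum_congr rfl fun a _ => ?_
    rw [ih, Finset.mul_sum]
    refine Finset.sum_congr rfl fun w _ => ?_
    simp [Fin.prod_univ_succ, List.ofFn_succ, Fin.consEquiv, mul_assoc]

theorem Ex_sum_map {p : ι → ℝ} (hp1 : ∑ i, p i = 1) (n : ℕ) (f : ι → ℝ) :
    Ex p n (fun l => (l.map f).sum) = n * ∑ i, p i * f i := by
  induction n with
  | zero => simp
  | succ n ih =>
    rw [Ex_succ]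
    simp only [List.map_cons, List.sum_cons]
    have h : ∀ a, Ex p n (fun l => f a + (l.map f).sum) = f a + n * ∑ i, p i * f i := fun a => by
      rw [Ex_add, Ex_const hp1, ih]
    simp only [h, mul_add, Finset.sum_add_distrib, ← Finset.sum_mul, hp1]
    push_cast
    ring

/-- a property holding for each word from some point on holds for all words of length `n` -/
theorem exists_forall_words (n : ℕ) (P : List ι → ℝ → Prop) (h : ∀ l, ∃ x₀, ∀ x, x₀ ≤ x → P l x) :
    ∃ x₀, ∀ l, l.length = n → ∀ x, x₀ ≤ x → P l x := by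
  choose g hg using h
  obtain ⟨x₀, hx₀⟩ := ((List.finite_length_eq ι n).image g).bddAbove
  exact ⟨x₀, fun l hl x hx => hg l x ((hx₀ ⟨l, hl, rfl⟩).trans hx)⟩

theorem Ex_var_words {p : ι → ℝ} (hp1 : ∑ i, p i = 1) (f : ι → ℝ) (n : ℕ) :
    Ex p n (fun l => ((l.map f).sum - n * ∑ i, p i * f i) ^ 2)
      = n * ∑ i, p i * (f i - ∑ j, p j * f j) ^ 2 := by
  set M := ∑ i, p i * f i with hM
  induction n with
  | zero => simp
  | succ n ih =>
    rw [Ex_succ]
    have h : ∀ a, Ex p n (fun l => (((a :: l).map f).sum - ((n + 1 : ℕ) : ℝ) * M) ^ 2)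
        = (f a - M) ^ 2 + n * ∑ i, p i * (f i - M) ^ 2 := fun a => by
      have h1 : Ex p n (fun l => (((a :: l).map f).sum - ((n + 1 : ℕ) : ℝ) * M) ^ 2)
          = Ex p n (fun l => ((f a - M) ^ 2 + 2 * (f a - M) * ((l.map f).sum - n * M))
            + ((l.map f).sum - n * M) ^ 2) := Ex_congr p fun l _ => by
        simp only [List.map_cons, List.sum_cons]
        push_cast
        ring
      rw [h1, Ex_add, Ex_add, ih, Ex_const hp1, Ex_const_mul, Ex_sub, Ex_const hp1,
        Ex_sum_map hp1, ← hM]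
      ring
    simp only [h, mul_add, Finset.sum_add_distrib, ← Finset.sum_mul, hp1]
    push_cast
    ring

/-- Chebyshev's inequality for sums of independent letters -/
theorem wlln {p : ι → ℝ} (hp : ∀ i, 0 ≤ p i) (hp1 : ∑ i, p i = 1) (f : ι → ℝ) :
    ∃ V : ℝ, 0 ≤ V ∧ ∀ (N : ℕ) (ε : ℝ), 0 < N → 0 < ε →
      Ex p N (fun l => if ε * N < |(l.map f).sum - N * ∑ i, p i * f i| then 1 else 0) ≤
        V / (ε ^ 2 * N) := by
  set M := ∑ i, p i * f i with hM
  refine ⟨∑ i, p i * (f i - M) ^ 2,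
    Finset.sum_nonneg fun i _ => mul_nonneg (hp i) (sq_nonneg _), fun N ε hN hε => ?_⟩
  have hN' : (0 : ℝ) < N := by exact_mod_cast hN
  have h1 : Ex p N (fun l => if ε * N < |(l.map f).sum - N * M| then 1 else 0) ≤
      Ex p N (fun l => (1 / (ε * N) ^ 2) * ((l.map f).sum - N * M) ^ 2) := by
    refine Ex_mono hp fun l _ => ?_
    split_ifs with h
    · rw [one_div_mul_eq_div, le_div_iff₀ (by positivity), one_mul, ← sq_abs ((l.map f).sum - _)]
      exact pow_le_pow_left₀ (by positivity) h.le 2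
    · positivity
  rw [Ex_const_mul, hM, Ex_var_words hp1] at h1
  refine h1.trans (le_of_eq ?_)
  field_simp
  rfl

omit [Fintype ι] in
@[simp] theorem RR_nil (r : ι → ℝ) : RR r [] = 1 := by
  simp [RR]

omit [Fintype ι] in
theorem RR_cons (r : ι → ℝ) (a : ι) (l : List ι) : RR r (a :: l) = r a * RR r l := by
  simp [RR]

omit [Fintype ι] in
theorem RR_append (r : ι → ℝ) (l l' : List ι) : RR r (l ++ l') = RR r l * RR r l' := by
  simp [RR]

omit [Fintype ι] in
theorem RR_ne_zero {r : ι → ℝ} (hr : ∀ i, r i ≠ 0) (l : List ι) : RR r l ≠ 0 := by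
  induction l with
  | nil => simp
  | cons a l ih => rw [RR_cons]; exact mul_ne_zero (hr a) ih

omit [Fintype ι] in
theorem abs_RR_le_one {r : ι → ℝ} (hr : ∀ i, |r i| < 1) (l : List ι) : |RR r l| ≤ 1 := by
  induction l with
  | nil => simp
  | cons a l ih =>
    rw [RR_cons, abs_mul]
    exact mul_le_one₀ (hr a).le (abs_nonneg _) ih

omit [Fintype ι] in
@[simp] theorem SS_nil (r : ι → ℝ) : SS r [] = 0 := by
  simp [SS]

omit [Fintype ι] in
theorem SS_cons {r : ι → ℝ} (hr : ∀ i, r i ≠ 0) (a : ι) (l : List ι) :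
    SS r (a :: l) = -log |r a| + SS r l := by
  rw [SS, SS, RR_cons, abs_mul, log_mul (abs_ne_zero.2 (hr a)) (abs_ne_zero.2 (RR_ne_zero hr l))]
  ring

omit [Fintype ι] in
theorem SS_eq_sum {r : ι → ℝ} (hr : ∀ i, r i ≠ 0) (l : List ι) :
    SS r l = (l.map fun a => -log |r a|).sum := by
  induction l with
  | nil => simp
  | cons a l ih => rw [SS_cons hr, ih, List.map_cons, List.sum_cons]

omit [Fintype ι] in
theorem exp_neg_SS {r : ι → ℝ} (hr : ∀ i, r i ≠ 0) (l : List ι) : exp (-SS r l) = |RR r l| := by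
  rw [SS, neg_neg, exp_log (abs_pos.2 (RR_ne_zero hr l))]

theorem SS_nonneg {r p : ι → ℝ} (hg : Good r p) (l : List ι) : 0 ≤ SS r l :=
  neg_nonneg.2 (log_nonpos (abs_nonneg _) (abs_RR_le_one (fun i => (hg.hr i).2) l))

omit [Fintype ι] in
theorem SS_le {r : ι → ℝ} (hr : ∀ i, r i ≠ 0) {C : ℝ} (hC : ∀ a, -log |r a| ≤ C) (l : List ι) :
    SS r l ≤ l.length * C := by
  induction l with
  | nil => simp
  | cons a l ih =>
    rw [SS_cons hr, List.length_cons]
    push_cast
    linarith [hC a]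

theorem lyap_eq (r p : ι → ℝ) : lyapunovExp r p = ∑ i, p i * (-log |r i|) := by
  simp only [lyapunovExp, mul_neg, Finset.sum_neg_distrib]

theorem lyap_pos {r p : ι → ℝ} (hg : Good r p) : 0 < lyapunovExp r p := by
  rw [lyap_eq]
  have hne : (Finset.univ : Finset ι).Nonempty := by
    by_contra h
    have h1 := hg.hp1
    rw [Finset.not_nonempty_iff_eq_empty.1 h] at h1
    simp at h1
  exact Finset.sum_pos (fun i _ => mul_pos (hg.hp i)
    (neg_pos.2 (log_neg (abs_pos.2 (hg.hr i).1) (hg.hr i).2))) hne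

theorem Ex_SS {r p : ι → ℝ} (hg : Good r p) (n : ℕ) :
    Ex p n (SS r) = n * lyapunovExp r p := by
  rw [lyap_eq, ← Ex_sum_map hg.hp1]
  exact Ex_congr p fun l _ => SS_eq_sum (fun i => (hg.hr i).1) l

omit [Fintype ι] in
theorem awm_nil (r t : ι → ℝ) (x : ℝ) : affineWordMap r t [] x = x := rfl

omit [Fintype ι] in
theorem awm_cons (r t : ι → ℝ) (a : ι) (l : List ι) (x : ℝ) :
    affineWordMap r t (a :: l) x = r a * affineWordMap r t l x + t a := rfl

omit [Fintype ι] in
theorem awm_eq (r t : ι → ℝ) (l : List ι) (x : ℝ) :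
    affineWordMap r t l x = RR r l * x + YY r t l := by
  induction l with
  | nil => simp [awm_nil, YY]
  | cons a l ih =>
    have : YY r t (a :: l) = r a * YY r t l + t a := rfl
    rw [awm_cons, ih, RR_cons, this]
    ring

omit [Fintype ι] in
theorem awm_append (r t : ι → ℝ) (l l' : List ι) (x : ℝ) :
    affineWordMap r t (l ++ l') x = affineWordMap r t l (affineWordMap r t l' x) := by
  induction l with
  | nil => rfl
  | cons a l ih => rw [List.cons_append, awm_cons, awm_cons, ih]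

omit [Fintype ι] in
@[simp] theorem YY_nil (r t : ι → ℝ) : YY r t [] = 0 := rfl

omit [Fintype ι] in
theorem YY_cons (r t : ι → ℝ) (a : ι) (l : List ι) : YY r t (a :: l) = r a * YY r t l + t a := rfl

omit [Fintype ι] in
theorem word_invariant {r t : ι → ℝ} {D : ℝ} (hD : ∀ i, |r i| * D + |t i| ≤ D) (l : List ι) :
    |RR r l| * D + |YY r t l| ≤ D := by
  induction l with
  | nil => simp
  | cons a l ih =>
    rw [RR_cons, YY_cons, abs_mul]
    have h1 := abs_add_le (r a * YY r t l) (t a)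
    rw [abs_mul] at h1
    have h2 := mul_le_mul_of_nonneg_left ih (abs_nonneg (r a))
    have h3 := hD a
    nlinarith

end Crest.Agent.R098
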